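import Crest.Agent.N325.Lt.CarveImpl

/-!
# Row 325 (helper29): the covers on all levels
-/

set_option autoImplicit false

namespace Crest.Agent.N325.Lt.Cv
open Tw

/-- **the covers of all scales and the components** -/
def coversR (ed : Arr Ed) (adj : Arr (List ℕ)) (V : List ℕ) (P : Pm) (k B lb : ℕ) :
    R (Arr (Arr Lt.Col)) :=
  forN (fun i (p : ℕ × Arr (Arr Lt.Col)) => coverR ed adj V P.s k B p.1 >>= fun C =>
      nat (p.1 * P.ρ) >>= fun r => pure (r, p.2.set i C)) P.D 0 (1, Arr.cst (Arr.cst col0)) >>=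
    fun p => topR ed adj V B lb >>= fun K => pure (p.2.set P.D (Arr.cst K))

theorem sp_coversR {g : Gl} {G : Gr} {c : Bd} {V : List ℕ} {ed : Arr Ed} {adj : Arr (List ℕ)}
    {P : Pm} {k B : ℕ} (hV : Vtx G V) (hA : Adj G adj.get) (hG : G.Ok c)
    (he : ∀ e ∈ G.E, ed.get e = G.ed e) (hP : P.Ok) (hk : V.length + 2 * G.E.card < 2 ^ k)
    (k1 : 1 ≤ k) (hs : k ≤ P.s) (hβ : 8 * k ≤ P.β) (hl : V.length * c.lb ≤ P.β * P.ρ ^ P.D)
    (hB : P.β * P.ρ ^ P.D < 2 ^ B) (hX : 2 ^ k ≤ g.X) (hX1 : P.β * P.ρ ^ P.D ≤ g.X) :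
    Sp g (coversR ed adj V P k B c.lb) fun C t => Covers G V P (fun i j => (C.get i).get j) ∧
      t ≤ (P.D + 1) * (P.s * (18 * k * (B + 4) + 44) + 6) * (V.length + 2 * G.E.card + 1) := by
  have ρ1 : 1 ≤ P.ρ := le_trans one_le_two hP.ρ2
  have pw : ∀ i ≤ P.D, 8 * k * P.ρ ^ i ≤ P.β * P.ρ ^ P.D := fun i hi =>
    Nat.mul_le_mul hβ (Nat.pow_le_pow_right ρ1 hi)
  refine (sp_forN' (fun i (p : ℕ × Arr (Arr Lt.Col)) => p.1 = P.ρ ^ i ∧
    ∀ j < i, Cover G V P.s (P.ρ ^ j) (P.β * P.ρ ^ j) (p.2.get j).get)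
    ((P.s * (18 * k * (B + 4) + 44) + 5) * (V.length + 2 * G.E.card + 1))
    (fun i p _ hi ⟨e, h⟩ => ?_) ⟨rfl, by simp⟩).bind fun p t ⟨⟨_, h⟩, c1⟩ =>
      (sp_topR hV hA hG he (hl.trans_lt hB) hl (by omega) (hl.trans hX1)).bind
        fun K u ⟨h2, c2⟩ => ⟨⟨fun i hi => ?_, ?_⟩, ?_⟩
  · have a := pw i (by omega)
    have a' := pw (i + 1) (by omega)
    have p1 : 1 ≤ P.ρ ^ i := Nat.one_le_pow _ _ ρ1
    rw [e]
    refine (sp_coverR hV hA hG he hk hs (a.trans_lt hB) (Nat.mul_le_mul_right _ hβ) hX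
      (a.trans hX1) (by nlinarith) (by nlinarith)).bind fun C t ⟨h1, c1⟩ =>
        sp_bind.2 (sp_nat.2 ⟨?_, ⟨(pow_succ _ _).symm, fun j hj => ?_⟩, by simpa using c1⟩)
    · rw [← pow_succ]; nlinarith [Nat.zero_le (P.ρ ^ (i + 1))]
    · simp only [Arr.get_set]
      split_ifs with a
      · rw [a]; exact h1
      · exact h j (by omega)
  · simp only [Arr.get_set_ne _ hi.ne]; exact h i (by omega)
  · simpa only [Arr.get_set_self, Arr.get_cst] using h2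
  · have := hP.s1
    have h1 : 18 * (B + 4) + 44 ≤ P.s * (18 * k * (B + 4) + 44) :=
      le_trans (by nlinarith) (Nat.le_mul_of_pos_left _ this)
    have h2 := Nat.mul_le_mul_right (V.length + 2 * G.E.card + 1)
      (show 6 * B + 32 + 1 ≤ P.s * (18 * k * (B + 4) + 44) + 6 by omega)
    generalize P.s * (18 * k * (B + 4) + 44) = y at *
    nlinarith [Nat.zero_le (P.D * (V.length + 2 * G.E.card))]

@[fun_prop] theorem impl_coversR {α : Type} [Rp α] {ed : α → Arr Ed} {adj : α → Arr (List ℕ)}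
    {V : α → List ℕ} {P : α → Pm} {k B lb : α → ℕ} (h1 : Pu true ed) (h2 : Pu true adj)
    (h3 : Pu true V) (h4 : Pu true P) (h5 : Pu true k) (h6 : Pu true B) (h7 : Pu true lb) :
    Impl fun a => coversR (ed a) (adj a) (V a) (P a) (k a) (B a) (lb a) := by
  unfold coversR col0; impl

end Crest.Agent.N325.Lt.Cv
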