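import Crest.Agent.N325.Tw.Defs

/-!
# Row 325 (helper91): covers and the lifted forest — definitions

Positions: `3 v` = the vertex `v`, `3 e + 1` / `3 e + 2` = the ends (slots) of the edge `e`.
Node `nd p i w` = position `p` in the copy `w` (colours above, base `s`) of a tree of level `i`.
`LF.Ok` is the interface used by the pieces and by the stage; `LF.Is` is the concrete description.
-/

set_option autoImplicit false
open Finset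

namespace Crest.Agent.N325.Lt
open Tw

/-- `y` is an ancestor of `x` (or `x`) -/
def Anc (par : ℕ → ℕ) (x y : ℕ) : Prop := ∃ k, par^[k] x = y

/-- the parent of every entry is the entry itself or comes later -/
def PL (par : ℕ → ℕ) : List ℕ → Prop
  | [] => True
  | x :: l => (par x = x ∨ par x ∈ l) ∧ PL par l

/-- the vertex of a position -/
def vq (ed : ℕ → Ed) (q : ℕ) : ℕ :=
  if q % 3 = 0 then q / 3 else if q % 3 = 1 then (ed (q / 3)).a else (ed (q / 3)).b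
/-- the other end -/
def opp (q : ℕ) : ℕ := if q % 3 = 1 then q + 1 else q - 1
/-- `q` is an end of a current edge -/
def Slot (G : Gr) (q : ℕ) : Prop := q % 3 ≠ 0 ∧ q / 3 ∈ G.E
/-- `V` lists the vertices -/
def Vtx (G : Gr) (V : List ℕ) : Prop := V.Nodup ∧ ∀ v, v ∈ V ↔ ∃ q, Slot G q ∧ vq G.ed q = v
/-- `adj v` lists the slots at `v` -/
def Adj (G : Gr) (adj : ℕ → List ℕ) : Prop :=
  ∀ v, (adj v).Nodup ∧ ∀ q, q ∈ adj v ↔ Slot G q ∧ vq G.ed q = v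

/-- there is a walk of length `d` from `u` -/
inductive Near (G : Gr) (u : ℕ) : ℕ → ℕ → Prop
  | refl : Near G u u 0
  | step {q d : ℕ} : Slot G q → Near G u (vq G.ed q) d →
      Near G u (vq G.ed (opp q)) (d + (G.ed (q / 3)).l)

/-- one colour: disjoint clusters with trees (`pq x` = slot at the parent of `x`) -/
structure Col where
  ord : List ℕ
  ins : Arr Bool
  cen : Arr ℕ
  pq : Arr ℕ
  dep : Arr ℕ

/-- the parent inside a colour -/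
def Col.up (ed : ℕ → Ed) (K : Col) (x : ℕ) : ℕ := if K.cen.get x = x then x else vq ed (K.pq.get x)

/-- the trees of a colour have radius at most `Rd` -/
structure Col.Ok (G : Gr) (V : List ℕ) (Rd : ℕ) (K : Col) : Prop where
  nd : K.ord.Nodup
  sub : ∀ x ∈ K.ord, x ∈ V
  ins : ∀ x, K.ins.get x = true ↔ x ∈ K.ord
  pl : PL (K.up G.ed) K.ord
  ctr : ∀ x ∈ K.ord, K.cen.get x = x → K.dep.get x = 0
  tree : ∀ x ∈ K.ord, K.cen.get x ≠ x → Slot G (K.pq.get x) ∧ vq G.ed (opp (K.pq.get x)) = x ∧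
    vq G.ed (K.pq.get x) ∈ K.ord ∧ K.cen.get (vq G.ed (K.pq.get x)) = K.cen.get x ∧
    K.dep.get x = K.dep.get (vq G.ed (K.pq.get x)) + (G.ed (K.pq.get x / 3)).l
  rad : ∀ x ∈ K.ord, K.dep.get x ≤ Rd

/-- `s` colours such that every ball of radius `2 r` lies in one cluster -/
def Cover (G : Gr) (V : List ℕ) (s r Rd : ℕ) (C : ℕ → Col) : Prop :=
  (∀ c < s, (C c).Ok G V Rd) ∧ ∀ v ∈ V, ∃ c < s, ∀ x d, Near G v x d → d ≤ 2 * r →
    x ∈ (C c).ord ∧ (C c).cen.get x = (C c).cen.get v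

/-- the top level: the clusters are the components -/
def TopC (G : Gr) (V : List ℕ) (Rd : ℕ) (K : Col) : Prop :=
  K.Ok G V Rd ∧ (∀ v ∈ V, v ∈ K.ord) ∧ ∀ e ∈ G.E, K.cen.get (G.ed e).a = K.cen.get (G.ed e).b

/-- parameters: colours, levels, bound on the codes, ratio of the scales, stretch of the covers -/
structure Pm where
  s : ℕ
  D : ℕ
  S : ℕ
  ρ : ℕ
  β : ℕ

/-- admissible parameters -/
structure Pm.Ok (P : Pm) : Prop where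
  s1 : 1 ≤ P.s
  hS : P.S = P.s ^ P.D
  ρ2 : 2 ≤ P.ρ
  βρ : P.β ≤ P.ρ

/-- covers on all levels -/
def Covers (G : Gr) (V : List ℕ) (P : Pm) (C : ℕ → ℕ → Col) : Prop :=
  (∀ i < P.D, Cover G V P.s (P.ρ ^ i) (P.β * P.ρ ^ i) (C i)) ∧
    TopC G V (P.β * P.ρ ^ P.D) (C P.D 0)

namespace Pm
variable (P : Pm)
/-- the node -/
def nd (p i w : ℕ) : ℕ := (p * (P.D + 2) + i) * P.S + w
/-- position, level, code of a node -/
def ps (x : ℕ) : ℕ := x / P.S / (P.D + 2)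
def lv (x : ℕ) : ℕ := x / P.S % (P.D + 2)
def cd (x : ℕ) : ℕ := x % P.S
/-- the only copy of a vertex that did not exist at the build -/
def nw (v : ℕ) : ℕ := P.nd (3 * v) (P.D + 1) 0
/-- the stretch of the lift -/
def al : ℕ := (P.D + 1) * (4 * P.s) * (1 + 4 * (P.β + 1) * P.ρ)
/-- bound on the heights -/
def Hb : ℕ := (P.D + 1) * (P.β * P.ρ ^ P.D + 1)
end Pm

/-- the lifted forest: nodes (children first), parent, signed edge from the parent, height,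
gradient potential, name, closure, tree copies, main copies, objects `(e, û, v̂, m)` -/
structure LF where
  ord : List ℕ
  par : Arr ℕ
  pe : Arr (Option (ℕ × Bool))
  H : Arr ℕ
  G : Arr ℤ
  nm : Arr ℕ
  cl : Arr (List ℕ)
  tc : Arr (List ℕ)
  cop : Arr (List ℕ)
  obj : List (ℕ × ℕ × ℕ × ℕ)

/-- the length of an object `(e, û, v̂, m)` -/
def LF.lam (T : LF) (ed : ℕ → Ed) (o : ℕ × ℕ × ℕ × ℕ) : ℕ :=
  (ed o.1).l + T.H.get o.2.1 + T.H.get o.2.2.1 - 2 * T.H.get o.2.2.2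

/-- the copies of a vertex, old or new -/
def LF.cv (T : LF) (P : Pm) (v : ℕ) : List ℕ := if T.cop.get v = [] then [P.nw v] else T.cop.get v

/-- **the interface** (`m` edges, names at most `nb`; `P.ps x` gives `π x = vq G.ed (P.ps x)`) -/
structure LF.Ok (G : Gr) (P : Pm) (m nb : ℕ) (T : LF) : Prop where
  nd : T.ord.Nodup
  pl : PL T.par.get T.ord
  len : T.ord.length ≤ 4 * m * (P.D + 1) * P.S
  idb : ∀ x ∈ T.ord, x < (3 * nb + 3) * (P.D + 2) * P.S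
  kids : ∀ y, (T.ord.filter fun x => T.par.get x = y ∧ x ≠ y).length ≤ P.s + 2
  root : ∀ x ∈ T.ord, T.par.get x = x → T.pe.get x = none ∧ T.H.get x = 0 ∧ T.G.get x = 0
  real : ∀ x ∈ T.ord, ∀ a ∈ T.pe.get x, a.1 ∈ G.E ∧ T.H.get x = T.H.get (T.par.get x) + (G.ed a.1).l
  dum : ∀ x ∈ T.ord, T.pe.get x = none → T.H.get x = T.H.get (T.par.get x) + 1 ∨
    T.H.get x = T.H.get (T.par.get x) ∧ T.nm.get x = T.nm.get (T.par.get x)
  tel : ∀ x ∈ T.ord, Tel G.ed (T.pe.get x).toList (vq G.ed (P.ps (T.par.get x))) (vq G.ed (P.ps x))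
  grad : ∀ x ∈ T.ord, T.G.get x = T.G.get (T.par.get x) + wg G.ed (T.pe.get x).toList
  Hb : ∀ x ∈ T.ord, T.H.get x ≤ P.Hb
  nm : ∀ x ∈ T.ord, T.nm.get x ∈ T.ord ∧ T.nm.get (T.nm.get x) = T.nm.get x ∧
    vq G.ed (P.ps (T.nm.get x)) = vq G.ed (P.ps x) ∧ P.ps (T.nm.get x) % 3 = 0 ∧
    T.H.get (T.nm.get x) = T.H.get x ∧
    T.G.get (T.nm.get x) = T.G.get x ∧ Anc T.par.get x (T.nm.get x) ∧ T.nm.get x ∈ T.cl.get x ∧
    ∀ y, Anc T.par.get x y → T.nm.get y = T.nm.get x ∨ Anc T.par.get (T.nm.get x) y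
  cl : ∀ x ∈ T.ord, (T.cl.get x).length ≤ P.D + 2 ∧
    ∀ y ∈ T.cl.get x, y ∈ T.ord ∧ ∀ z ∈ T.cl.get y, z ∈ T.cl.get x
  tc : ∀ e, (T.tc.get e).Nodup ∧ (T.tc.get e).length ≤ 2 * (P.D + 1) * P.S ∧
    ∀ x, x ∈ T.tc.get e ↔ x ∈ T.ord ∧ ∃ b, T.pe.get x = some (e, b)
  cop : ∀ v, (T.cop.get v).Nodup ∧ (T.cop.get v).length ≤ P.S ∧
    ∀ x ∈ T.cop.get v, x ∈ T.ord ∧ T.nm.get x = x ∧ P.ps x = 3 * v
  nw : ∀ v, P.nw v ∉ T.ord
  olen : T.obj.length ≤ m * P.S ^ 2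
  oe : ∀ e, T.obj.countP (fun o => o.1 = e) ≤ P.S ^ 2
  oa : ∀ x, T.obj.countP (fun o => o.2.1 = x) + T.obj.countP (fun o => o.2.2.1 = x) ≤ P.S
  obj : ∀ o ∈ T.obj, o.1 ∈ G.E ∧ o.2.1 ∈ T.ord ∧ o.2.2.1 ∈ T.ord ∧ P.ps o.2.1 = 3 * o.1 + 1 ∧
    P.ps o.2.2.1 = 3 * o.1 + 2 ∧ o.2.2.2 ∈ T.ord ∧ Anc T.par.get o.2.1 o.2.2.2 ∧
    Anc T.par.get o.2.2.1 o.2.2.2 ∧ T.H.get o.2.2.2 ≤ T.H.get o.2.1 ∧
    T.H.get o.2.2.2 ≤ T.H.get o.2.2.1 ∧ ∀ x, (Anc T.par.get o.2.1 x ∨ Anc T.par.get o.2.2.1 x) →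
      Anc T.par.get x o.2.2.2 → o.2.2.2 ∈ T.cl.get x
  cpl : ∀ ζ : ℕ → ℝ, (∀ x ∈ T.ord, ζ x = ζ (T.nm.get x)) → ∃ Y : ℕ → ℝ,
    (∀ e ∈ G.E, ∀ γ θ : ℝ, 0 ≤ θ →
      (∀ o ∈ T.obj, o.1 = e → |γ - (ζ o.2.2.1 - ζ o.2.1)| ≤ θ * T.lam G.ed o) →
        |γ - (Y (G.ed e).b - Y (G.ed e).a)| ≤ θ * P.al * (G.ed e).l) ∧
    ∀ (u v : ℕ) (γ B : ℝ), (∀ x ∈ T.cv P u, ∀ y ∈ T.cv P v, |γ - (ζ y - ζ x)| ≤ B) →
      |γ - (Y v - Y u)| ≤ B

/-! ## the concrete forest -/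

section concrete
variable (ed : ℕ → Ed) (P : Pm) (C : ℕ → ℕ → Col) (pv : ℕ → ℕ)

/-- `(v, w)` exists on level `i` (`j` levels below the top) -/
def val : ℕ → ℕ → ℕ → ℕ → Prop
  | 0, i, v, w => v ∈ (C i 0).ord ∧ w = 0
  | j + 1, i, v, w => v ∈ (C i (w % P.s)).ord ∧ val j (i + 1) ((C i (w % P.s)).cen.get v) (w / P.s)

/-- the level roots above `(v, w)` on level `i` (`j` of them) -/
def rts : ℕ → ℕ → ℕ → ℕ → List ℕ
  | 0, _, _, _ => []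
  | j + 1, i, v, w => P.nd (3 * (C i (w % P.s)).cen.get v) i w ::
      rts j (i + 1) ((C i (w % P.s)).cen.get v) (w / P.s)

/-- the first common entry -/
def meetL : List ℕ → List ℕ → ℕ
  | a :: l, b :: l' => if a = b then a else meetL l l'
  | _, _ => 0

/-- the colour of a node -/
def colF (x : ℕ) : Col := C (P.lv x) (P.cd x % P.s)
/-- the parent -/
def parF (x : ℕ) : ℕ :=
  if P.ps x % 3 ≠ 0 then P.nd (pv (P.ps x)) (P.lv x) (P.cd x)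
  else if (colF P C x).cen.get (P.ps x / 3) ≠ P.ps x / 3 then
    P.nd ((colF P C x).pq.get (P.ps x / 3)) (P.lv x) (P.cd x)
  else if P.lv x = P.D then x else P.nd (P.ps x) (P.lv x + 1) (P.cd x / P.s)
/-- the edge from the parent -/
def peF (x : ℕ) : Option (ℕ × Bool) :=
  if P.ps x % 3 = 0 ∧ (colF P C x).cen.get (P.ps x / 3) ≠ P.ps x / 3 then
    some ((colF P C x).pq.get (P.ps x / 3) / 3, decide ((colF P C x).pq.get (P.ps x / 3) % 3 = 1))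
  else none
/-- the height of the link to the parent -/
def hlF (x : ℕ) : ℕ :=
  if P.ps x % 3 ≠ 0 then 0
  else if (colF P C x).cen.get (P.ps x / 3) ≠ P.ps x / 3 then
    (ed ((colF P C x).pq.get (P.ps x / 3) / 3)).l
  else 1
/-- the name -/
def nmF (x : ℕ) : ℕ := P.nd (3 * vq ed (P.ps x)) (P.lv x) (P.cd x)
/-- the level roots above a node -/
def rtF (x : ℕ) : List ℕ := rts P C (P.D + 1 - P.lv x) (P.lv x) (vq ed (P.ps x)) (P.cd x)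

end concrete

/-- the nodes -/
def Node (G : Gr) (P : Pm) (C : ℕ → ℕ → Col) (x : ℕ) : Prop :=
  P.lv x ≤ P.D ∧ (P.ps x % 3 = 0 ∨ Slot G (P.ps x)) ∧
    val P C (P.D - P.lv x) (P.lv x) (vq G.ed (P.ps x)) (P.cd x)

/-- the chains of slots -/
def Chain (G : Gr) (pv : ℕ → ℕ) : Prop :=
  (∀ q, Slot G q → (pv q % 3 = 0 ∨ Slot G (pv q)) ∧ vq G.ed (pv q) = vq G.ed q ∧ pv q ≠ q) ∧
    ∀ q q', Slot G q → Slot G q' → pv q = pv q' → q = q'

/-- **what the program computes** -/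
structure LF.Is (G : Gr) (P : Pm) (C : ℕ → ℕ → Col) (pv : ℕ → ℕ) (T : LF) : Prop where
  nd : T.ord.Nodup
  mem : ∀ x, x ∈ T.ord ↔ Node G P C x
  pl : PL T.par.get T.ord
  par : ∀ x ∈ T.ord, T.par.get x = parF P C pv x
  pe : ∀ x ∈ T.ord, T.pe.get x = peF P C x
  hH : ∀ x ∈ T.ord, T.H.get x =
    if T.par.get x = x then 0 else T.H.get (T.par.get x) + hlF G.ed P C x
  hG : ∀ x ∈ T.ord, T.G.get x =
    if T.par.get x = x then 0 else T.G.get (T.par.get x) + wg G.ed (T.pe.get x).toList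
  nm : ∀ x ∈ T.ord, T.nm.get x = nmF G.ed P x
  cl : ∀ x ∈ T.ord, T.cl.get x = nmF G.ed P x :: rtF G.ed P C x
  tc : ∀ e, (T.tc.get e).Nodup ∧ ∀ x, x ∈ T.tc.get e ↔ x ∈ T.ord ∧ ∃ b, T.pe.get x = some (e, b)
  cop : ∀ v, (T.cop.get v).Nodup ∧
    ∀ x, x ∈ T.cop.get v ↔ x ∈ T.ord ∧ P.ps x = 3 * v ∧ P.lv x = 0
  ond : T.obj.Nodup
  obj : ∀ o, o ∈ T.obj ↔ o.1 ∈ G.E ∧ o.2.1 ∈ T.ord ∧ o.2.2.1 ∈ T.ord ∧ P.ps o.2.1 = 3 * o.1 + 1 ∧
    P.ps o.2.2.1 = 3 * o.1 + 2 ∧ P.lv o.2.1 = 0 ∧ P.lv o.2.2.1 = 0 ∧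
    o.2.2.2 = meetL (rtF G.ed P C o.2.1) (rtF G.ed P C o.2.2.1)

end Crest.Agent.N325.Lt
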