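import Crest.Agent.N325.Lt.Cv2
import Crest.Agent.N325.Lt.Defs
import Crest.Agent.N325.Dj.Dij

/-!
# Row 325 (helper29): the covers `coverR` and the components `topR`
-/

set_option autoImplicit false
open Finset

namespace Crest.Agent.N325.Lt.Cv
open Tw

variable {G : Gr} {c : Bd} {V : List ℕ} {ed : Arr Ed} {adj : Arr (List ℕ)} {g : Gl} {q : ℕ}

theorem opp_div (h : Slot G q) : opp q / 3 = q / 3 := by
  have := h.1; unfold opp; split_ifs <;> omega

theorem opp_opp (h : Slot G q) : opp (opp q) = q := by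
  have := h.1; unfold opp; split_ifs <;> omega

theorem slot_opp (h : Slot G q) : Slot G (opp q) :=
  ⟨by have := h.1; unfold opp; split_ifs <;> omega, opp_div h ▸ h.2⟩

theorem vq_congr (h : Slot G q) {ed : ℕ → Ed} (he : ∀ e ∈ G.E, ed e = G.ed e) :
    vq ed q = vq G.ed q := by unfold vq; rw [he _ h.2]

/-- the graph of the slots -/
def ug (G : Gr) (adj : ℕ → List ℕ) : UG :=
  ⟨adj, fun _ q => vq G.ed (opp q), fun q => (G.ed (q / 3)).l⟩

theorem ug_wf (hV : Vtx G V) (hA : Adj G adj.get) (hG : G.Ok c) :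
    (ug G adj.get).WF V.toFinset := by
  refine ⟨fun x _ e he => ?_, fun x _ e he => ?_, fun x _ e he => ?_⟩
  all_goals have k := ((hA x).2 e).1 he
  · exact List.mem_toFinset.2 ((hV.2 _).2 ⟨_, slot_opp k.1, rfl⟩)
  · exact ⟨opp e, ((hA _).2 _).2 ⟨slot_opp k.1, rfl⟩, by simp only [ug, opp_opp k.1, k.2],
      by simp only [ug, opp_div k.1]⟩
  · exact (hG.2.2 _ k.1.2).2.2.2.1

theorem wk_of_near (hA : Adj G adj.get) {u x d : ℕ} (h : Lt.Near G u x d) :
    Wk (ug G adj.get) (fun _ => True) u x d := by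
  induction h with
  | refl => exact .nil
  | step s _ ih => exact ih.step (((hA _).2 _).2 ⟨s, rfl⟩) trivial

theorem sum_adj_le (hV : Vtx G V) (hA : Adj G adj.get) :
    ∑ x ∈ V.toFinset, (1 + (adj.get x).length) ≤ V.length + 2 * G.E.card := by
  classical
  set S := G.E.image (fun e => 3 * e + 1) ∪ G.E.image fun e => 3 * e + 2
  have h1 : S.card ≤ 2 * G.E.card :=
    (card_union_le _ _).trans (by have := @card_image_le _ _ G.E (fun e => 3 * e + 1) _
                                  have := @card_image_le _ _ G.E (fun e => 3 * e + 2) _; omega)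
  have h2 : ∑ x ∈ V.toFinset, (adj.get x).length ≤ S.card := by
    refine le_trans (sum_le_sum fun x _ => ?_)
      ((sum_card_fiberwise_eq_card_filter S V.toFinset (vq G.ed)).trans_le (card_filter_le _ _))
    rw [← List.toFinset_card_of_nodup (hA x).1]
    refine card_le_card fun q hq => ?_
    have k := ((hA x).2 q).1 (List.mem_toFinset.1 hq)
    refine mem_filter.2 ⟨?_, k.2⟩
    have := k.1.1
    simp only [S, mem_union, mem_image]
    by_cases e : q % 3 = 1
    · exact .inl ⟨_, k.1.2, by omega⟩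
    · exact .inr ⟨_, k.1.2, by omega⟩
  rw [sum_add_distrib, sum_const, List.toFinset_card_of_nodup hV.1, smul_eq_mul]
  omega

/-- the graph for the search: only vertices with `cen = 0` are entered -/
def dgOf (ed : Arr Ed) (adj : Arr (List ℕ)) (cen : Arr ℕ) : Dj.Dg :=
  ⟨fun x => adj.get x, fun _ q => decide (cen.get (vq ed.get (opp q)) = 0),
    fun _ q => vq ed.get (opp q), fun _ q => (ed.get (q / 3)).l⟩

/-- the search -/
def blR (ed : Arr Ed) (adj : Arr (List ℕ)) (B fu : ℕ) (cen : Arr ℕ) (s r : ℕ) : R Bl :=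
  Dj.dij (dgOf ed adj cen) B r fu [(s, 0)] >>= fun o => pure (o.1, o.2.1, o.2.2.1)

theorem wk_iff (hA : Adj G adj.get) (he : ∀ e ∈ G.E, ed.get e = G.ed e) {cen : Arr ℕ} {s x d : ℕ} :
    Dj.Wk (dgOf ed adj cen) [(s, 0)] x d ↔ Wk (ug G adj.get) (fun x => cen.get x = 0) s x d := by
  constructor <;> intro h
  · induction h with
    | base m => cases List.mem_singleton.1 m; exact .nil
    | @step x d e _ m k ih =>
      have s := (((hA x).2 e).1 m).1
      simp only [dgOf, vq_congr (slot_opp s) he, he _ s.2, decide_eq_true_eq] at k ⊢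
      exact ih.step m k
  · induction h with
    | nil => exact .base List.mem_cons_self
    | @step x d e _ m k ih =>
      have s := (((hA x).2 e).1 m).1
      have := ih.step (e := e) m (by simpa only [dgOf, vq_congr (slot_opp s) he, decide_eq_true_eq])
      simpa only [ug, dgOf, vq_congr (slot_opp s) he, he _ s.2] using this

theorem bspec (hV : Vtx G V) (hA : Adj G adj.get) (hG : G.Ok c)
    (he : ∀ e ∈ G.E, ed.get e = G.ed e) {wt : ℕ → ℕ} {B fu Rm : ℕ}
    (hw : ∀ x ∈ V, wt x = 1 + (adj.get x).length) (hB : Rm < 2 ^ B)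
    (hfu : ∑ x ∈ V.toFinset, wt x + 1 < fu) :
    BSpec g (ug G adj.get) V.toFinset (blR ed adj B fu) wt Rm (3 * B + 7) := by
  intro cen s r hs hr
  have wf := ug_wf hV hA hG
  have e : ∑ x ∈ V.toFinset, wt x = ∑ x ∈ V.toFinset, (1 + ((dgOf ed adj cen).adj x).length) :=
    sum_congr rfl fun x hx => hw x (List.mem_toFinset.1 hx)
  refine (Dj.sp_dij (hr.trans_lt hB) (Dj.vol_le (V := V.toFinset) fun x d w _ =>
    ((wk_iff hA he).1 w).mem wf hs) (by rw [← e, List.length_singleton]; omega)).bind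
      fun o t ⟨h, ht⟩ => ⟨⟨h.nd, fun x => ?_, fun x hx => (wk_iff hA he).1 (h.wk x hx).1,
        fun x hx d w => h.le hx ((wk_iff hA he).2 w), h.srt, fun x hx k => ?_⟩, ?_⟩
  · simp only [h.mem, wk_iff hA he, Near]
  · obtain ⟨l1, l2, e⟩ := List.append_of_mem hx
    have := h.tree
    simp only at e
    rw [e] at this
    rcases this.par with p | ⟨p1, p2, -, p4, p5⟩
    · exact absurd (Prod.ext_iff.1 (List.mem_singleton.1 p.2)).1 k
    · have s := (((hA _).2 _).1 p2).1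
      simp only [dgOf, vq_congr (slot_opp s) he, he _ s.2] at p4 p5
      exact ⟨by simp only [e]; simp [p1], p2, p4, p5⟩
  · have : (o.1.map wt).sum = Dj.vol (dgOf ed adj cen) o.1 :=
      congrArg _ (List.map_congr_left fun x hx => hw x (List.mem_toFinset.1
        (((wk_iff hA he).1 (h.wk x hx).1).mem wf hs)))
    simp only [this, List.length_singleton] at ht ⊢
    nlinarith

/-- the weights `1 + degree` -/
def degR (adj : Arr (List ℕ)) (V : List ℕ) : R (Arr ℕ) :=
  foldL (fun x a => lenL (adj.get x) >>= fun n => pure (a.set x (n + 1))) V (Arr.cst 0)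

theorem sp_degR (hV : V.Nodup) : Sp g (degR adj V) fun a t =>
    (∀ x ∈ V, a.get x = 1 + (adj.get x).length) ∧
      t ≤ 2 * ∑ x ∈ V.toFinset, (1 + (adj.get x).length) + 1 := by
  refine (sp_foldL' (fun l a => ∀ x ∈ V, x ∈ l ∨ a.get x = 1 + (adj.get x).length)
    (fun x => (adj.get x).length + 1) (fun y l a k => (sp_lenL _).bind fun n t ⟨e, c⟩ =>
      ⟨fun x hx => ?_, c.le⟩) fun x hx => .inl hx).mono fun a t k =>
        ⟨fun x hx => by simpa using k.1 x hx, k.2.trans ?_⟩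
  · rw [← List.sum_toFinset _ hV, mul_sum]
    exact Nat.add_le_add_right (sum_le_sum fun x _ => by omega) 1
  · rw [Arr.get_set]
    split_ifs with h
    · right; rw [h, e, add_comm]
    · exact (k x hx).imp_left fun m => (List.mem_cons.1 m).resolve_left h

/-- the format of the interface -/
def toCol (c : Cl) : R Lt.Col :=
  revL c.2.2.2 >>= fun ord => setAllP (fun _ => true) ord (Arr.cst false) >>= fun ins =>
    setAllP (fun x => c.1.get x - 1) ord (Arr.cst 0) >>= fun cen =>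
    setAllP (fun x => (c.2.1.get x).2) ord (Arr.cst 0) >>= fun pq =>
      pure ⟨ord, ins, cen, pq, c.2.2.1⟩

theorem pl_of {up cen dep : ℕ → ℕ} {l : List ℕ}
    (h : l.Pairwise fun x y => cen y = cen x → dep y ≤ dep x) (l0 : List ℕ)
    (h0 : ∀ y ∈ l0, ∀ x ∈ l, cen x = cen y → dep x ≤ dep y)
    (hu : ∀ x ∈ l, up x = x ∨ up x ∈ l0 ++ l ∧ cen (up x) = cen x ∧ dep (up x) < dep x) :
    PL up l := by
  induction l generalizing l0 with
  | nil => trivial
  | cons x l ih =>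
    rw [List.pairwise_cons] at h
    refine ⟨(hu x List.mem_cons_self).imp_right fun ⟨m, e, d⟩ => ?_,
      ih h.2 (l0 ++ [x]) (fun y hy z hz => ?_) fun y hy => ?_⟩
    · rcases List.mem_append.1 m with m | m
      · have := h0 _ m x List.mem_cons_self e.symm; omega
      · exact (List.mem_cons.1 m).resolve_left fun k => by rw [k] at d; omega
    · rcases List.mem_append.1 hy with m | m
      · exact h0 y m z (List.mem_cons_of_mem _ hz)
      · rw [List.mem_singleton.1 m]; exact h.1 z hz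
    · simpa using hu y (List.mem_cons_of_mem _ hy)

theorem sp_toCol (hA : Adj G adj.get) (hG : G.Ok c) {β Rd : ℕ} {cl : Cl}
    (h : ClOk (ug G adj.get) V.toFinset β cl) (hβ : β ≤ Rd) :
    Sp g (toCol cl) fun K t => K.Ok G V Rd ∧ (∀ x, x ∈ K.ord ↔ cl.1.get x ≠ 0) ∧
      (∀ x ∈ K.ord, K.cen.get x = cl.1.get x - 1) ∧ t ≤ 4 * V.length + 4 := by
  refine (sp_revL _).bind fun ord t0 ⟨e0, c0⟩ => (sp_setAllP _ _ _).bind fun ins t1 ⟨e1, c1⟩ =>
    (sp_setAllP _ _ _).bind fun cen t2 ⟨e2, c2⟩ => (sp_setAllP _ _ _).bind fun pq t3 ⟨e3, c3⟩ => ?_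
  have mo : ∀ x, x ∈ ord ↔ x ∈ cl.2.2.2 := fun x => by rw [e0, List.mem_reverse]
  have ec : ∀ x ∈ ord, cen.get x = cl.1.get x - 1 := fun x hx => by rw [e2, if_pos hx]
  have nz : ∀ x ∈ ord, cl.1.get x ≠ 0 := fun x hx => (h.mem x).1 ((mo x).1 hx)
  have tr : ∀ x ∈ ord, cen.get x ≠ x → Slot G (pq.get x) ∧ vq G.ed (opp (pq.get x)) = x ∧
      vq G.ed (pq.get x) ∈ ord ∧ cl.1.get (vq G.ed (pq.get x)) = cl.1.get x ∧
      cl.2.2.1.get x = cl.2.2.1.get (vq G.ed (pq.get x)) + (G.ed (pq.get x / 3)).l := by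
    intro x hx k
    rw [ec x hx] at k
    obtain ⟨p1, p2, p3, p4⟩ := h.par x ((mo x).1 hx) (by omega)
    have s := ((hA _).2 _).1 p2
    rw [e3, if_pos hx, s.2]
    exact ⟨s.1, p3, (mo _).2 ((h.mem _).2 (p1 ▸ nz x hx)), p1, p4⟩
  have ln : cl.2.2.2.length ≤ V.length := by
    rw [← List.toFinset_card_of_nodup h.nd]
    exact (card_le_card fun x hx => h.sub x (List.mem_toFinset.1 hx)).trans (List.toFinset_card_le _)
  refine ⟨⟨e0 ▸ List.nodup_reverse.2 h.nd, fun x hx => List.mem_toFinset.1 (h.sub x ((mo x).1 hx)),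
    fun x => by simp [e1], ?_, fun x hx k => ?_, fun x hx k => ?_,
    fun x hx => (h.rad x ((mo x).1 hx)).trans hβ⟩, fun x => (mo x).trans (h.mem x), ec, ?_⟩
  · refine pl_of (cen := cl.1.get) (dep := cl.2.2.1.get) (by
      rw [e0, List.pairwise_reverse]; exact h.srt) [] (by simp) fun x hx => ?_
    unfold Col.up
    split_ifs with k
    · exact .inl rfl
    · obtain ⟨p1, -, p3, p4, p5⟩ := tr x hx k
      have := (hG.2.2 _ p1.2).2.2.2.1
      exact .inr ⟨p3, p4, by simp only; omega⟩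
  · have := nz x hx
    have := ec x hx
    exact (h.ctr x x (by simp only at k; omega)).2
  · obtain ⟨p1, p2, p3, p4, p5⟩ := tr x hx k
    exact ⟨p1, p2, p3, by simp only; rw [ec _ p3, ec _ hx, p4], p5⟩
  · have : ord.length = cl.2.2.2.length := by rw [e0, List.length_reverse]
    omega

/-- the empty colour -/
def col0 : Lt.Col := ⟨[], Arr.cst false, Arr.cst 0, Arr.cst 0, Arr.cst 0⟩

/-- **the cover of scale `r`** with `s` colours (`|V| + 2 |E| < 2 ^ k`, radii below `2 ^ B`) -/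
def coverR (ed : Arr Ed) (adj : Arr (List ℕ)) (V : List ℕ) (s k B r : ℕ) : R (Arr Lt.Col) :=
  degR adj V >>= fun dg => sumL (fun x => dg.get x) V >>= fun W => nat (2 * r) >>= fun q =>
    nat (2 * k) >>= fun kk =>
    forN (fun i (p : List ℕ × Arr Lt.Col) =>
      colR (blR ed adj B (W + 2)) (fun x => dg.get x) q kk p.1 >>= fun o =>
        toCol o.2 >>= fun K => pure (o.1, p.2.set i K)) s 0 (V, Arr.cst col0) >>= fun p => pure p.2

theorem sp_coverR (hV : Vtx G V) (hA : Adj G adj.get) (hG : G.Ok c)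
    (he : ∀ e ∈ G.E, ed.get e = G.ed e) {s k B r Rd : ℕ} (hk : V.length + 2 * G.E.card < 2 ^ k)
    (hs : k ≤ s) (hB : 8 * k * r < 2 ^ B) (hR : 8 * k * r ≤ Rd) (hX : 2 ^ k ≤ g.X)
    (hX1 : 8 * k * r ≤ g.X) (hX2 : 2 * r ≤ g.X) (hX3 : 2 * k ≤ g.X) :
    Sp g (coverR ed adj V s k B r) fun C t => Cover G V s r Rd C.get ∧
      t ≤ (s * (18 * k * (B + 4) + 44) + 5) * (V.length + 2 * G.E.card + 1) := by
  have hw := sum_adj_le hV hA
  refine (sp_degR hV.1).bind fun dg t0 ⟨e0, c0⟩ => ?_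
  have e : ∑ x ∈ V.toFinset, dg.get x = ∑ x ∈ V.toFinset, (1 + (adj.get x).length) :=
    sum_congr rfl fun x hx => e0 x (List.mem_toFinset.1 hx)
  have e' : (V.map fun x => dg.get x).sum = ∑ x ∈ V.toFinset, dg.get x :=
    (List.sum_toFinset _ hV.1).symm
  refine (sp_sumL _ _ (by omega)).bind fun W t1 ⟨e1, c1⟩ => ?_
  simp only [sp_bind (m := nat _), sp_nat]
  have r8 : 2 * (2 * r) * (2 * k) = 8 * k * r := by ring
  have H : Hyp g (ug G adj.get) V.toFinset (blR ed adj B (W + 2)) (fun x => dg.get x) (2 * r)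
      (2 * k) (3 * B + 7) :=
    ⟨ug_wf hV hA hG, bspec hV hA hG he e0 (r8 ▸ hB) (by omega),
      fun x hx => by rw [e0 x (List.mem_toFinset.1 hx)]; omega,
      by rw [mul_comm 2 k, pow_mul]; exact Nat.pow_lt_pow_left (by omega) two_ne_zero,
      by omega, r8 ▸ hX1⟩
  refine ⟨hX2, hX3, (sp_forN' (fun i (p : List ℕ × Arr Lt.Col) => p.1.Nodup ∧ (∀ x ∈ p.1, x ∈ V) ∧
    2 ^ i * p.1.length ≤ V.length ∧ (∀ j < i, (p.2.get j).Ok G V Rd) ∧
    ∀ v ∈ V, v ∈ p.1 ∨ ∃ j < i, ∀ x d, Lt.Near G v x d → d ≤ 2 * r →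
      x ∈ (p.2.get j).ord ∧ (p.2.get j).cen.get x = (p.2.get j).cen.get v)
    ((18 * k * (B + 4) + 43) * (V.length + 2 * G.E.card + 1))
    (fun i p _ _ ⟨k1, k2, k3, k4, k5⟩ => (sp_colR H k1 fun x hx =>
      List.mem_toFinset.2 (k2 x hx)).bind fun o t2 ⟨h1, h2, h3, h4, h5, c2⟩ =>
        (sp_toCol hA hG h1 (r8 ▸ hR)).bind fun K t3 ⟨g1, g2, g3, c3⟩ =>
          ⟨⟨h2, fun x hx => List.mem_toFinset.1 (h3 x hx), ?_, fun j hj => ?_, fun v hv => ?_⟩, ?_⟩)
    ⟨hV.1, fun _ => id, by simp, by simp, fun v hv => .inl hv⟩).bind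
      fun p t ⟨⟨_, _, k3, k4, k5⟩, c2⟩ => ⟨⟨by simpa using k4, fun v hv => ?_⟩, ?_⟩⟩
  · have z : p.1 = [] := by
      by_contra z
      have := List.length_pos_iff.2 z
      have := Nat.pow_le_pow_right two_pos hs
      rw [zero_add] at k3
      nlinarith
    simpa [z] using k5 v hv
  · generalize 18 * k * (B + 4) = y at *
    nlinarith
  · rw [pow_succ, mul_assoc]; exact (Nat.mul_le_mul_left _ h4).trans k3
  · simp only [Arr.get_set]
    split_ifs with a
    · exact g1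
    · exact k4 j (by omega)
  · rcases k5 v hv with m | ⟨j, hj, m⟩
    · refine (h5 v m).imp_right fun cv => ⟨i, by omega, fun x d w hd => ?_⟩
      have := cv.2 x ⟨d, hd, wk_of_near hA w⟩
      have mx := (g2 x).2 (this ▸ cv.1)
      simp only [Arr.get_set_self]
      exact ⟨mx, by rw [g3 x mx, g3 v ((g2 v).2 cv.1), this]⟩
    · exact .inr ⟨j, by omega, by simpa only [Arr.get_set_ne _ hj.ne] using m⟩
  · have : p.1.length ≤ V.length := le_trans (Nat.le_mul_of_pos_left _ (by positivity)) k3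
    have a : 3 * (2 * k) * (3 * B + 7 + 5) = 18 * k * (B + 4) := by ring
    have := Nat.mul_le_mul_left (18 * k * (B + 4) + 31) (e ▸ hw)
    rw [a] at c2
    generalize 18 * k * (B + 4) = y at *
    nlinarith

/-- **the components** (`lb` bounds the lengths) -/
def topR (ed : Arr Ed) (adj : Arr (List ℕ)) (V : List ℕ) (B lb : ℕ) : R Lt.Col :=
  degR adj V >>= fun dg => sumL (fun x => dg.get x) V >>= fun W => lenL V >>= fun n =>
    nat (n * lb) >>= fun Q => compsR (blR ed adj B (W + 2)) Q V >>= toCol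

theorem sp_topR (hV : Vtx G V) (hA : Adj G adj.get) (hG : G.Ok c)
    (he : ∀ e ∈ G.E, ed.get e = G.ed e) {B Rd : ℕ} (hB : V.length * c.lb < 2 ^ B)
    (hR : V.length * c.lb ≤ Rd) (hX : V.length + 2 * G.E.card ≤ g.X)
    (hX1 : V.length * c.lb ≤ g.X) :
    Sp g (topR ed adj V B c.lb) fun K t => TopC G V Rd K ∧
      t ≤ (6 * B + 32) * (V.length + 2 * G.E.card + 1) := by
  have hw := sum_adj_le hV hA
  refine (sp_degR hV.1).bind fun dg t0 ⟨e0, c0⟩ => ?_
  have e : ∑ x ∈ V.toFinset, dg.get x = ∑ x ∈ V.toFinset, (1 + (adj.get x).length) :=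
    sum_congr rfl fun x hx => e0 x (List.mem_toFinset.1 hx)
  have e' : (V.map fun x => dg.get x).sum = ∑ x ∈ V.toFinset, dg.get x :=
    (List.sum_toFinset _ hV.1).symm
  refine (sp_sumL _ _ (by omega)).bind fun W t1 ⟨e1, c1⟩ => (sp_lenL V).bind fun n t2 ⟨e2, c2⟩ =>
    sp_bind.2 (sp_nat.2 ⟨e2 ▸ hX1, ?_⟩)
  subst e2
  refine (sp_compsR (wt := fun x => dg.get x) (lb := c.lb) (ug_wf hV hA hG)
    (bspec hV hA hG he e0 hB (by omega)) (fun x hx => by rw [e0 x (List.mem_toFinset.1 hx)]; omega)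
    (fun x _ q hq => (hG.2.2 _ (((hA x).2 q).1 hq).1.2).2.2.2.2.1)
    (by rw [List.toFinset_card_of_nodup hV.1]) fun x hx => List.mem_toFinset.2 hx).bind
      fun cl t3 ⟨h1, h2, h3, c3⟩ => (sp_toCol hA hG h1 hR).mono fun K t4 ⟨g1, g2, g3, c4⟩ =>
        ⟨⟨g1, fun v hv => (g2 v).2 (h3 v hv), fun e he => ?_⟩, ?_⟩
  · have s : Slot G (3 * e + 1) := ⟨by omega, by rwa [show (3 * e + 1) / 3 = e by omega]⟩
    have a : vq G.ed (3 * e + 1) = (G.ed e).a := by
      rw [vq, if_neg (by omega), if_pos (by omega), show (3 * e + 1) / 3 = e by omega]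
    have b : vq G.ed (opp (3 * e + 1)) = (G.ed e).b := by
      rw [opp, if_pos (by omega), vq, if_neg (by omega), if_neg (by omega),
        show (3 * e + 1 + 1) / 3 = e by omega]
    have va : (G.ed e).a ∈ V := (hV.2 _).2 ⟨_, s, a⟩
    have vb : (G.ed e).b ∈ V := (hV.2 _).2 ⟨_, slot_opp s, b⟩
    have := h2 _ (List.mem_toFinset.2 va) (h3 _ va) _ (((hA _).2 _).2 ⟨s, a⟩)
    simp only [ug, b] at this
    rw [g3 _ ((g2 _).2 (h3 _ va)), g3 _ ((g2 _).2 (h3 _ vb)), this]
  · have := Nat.mul_le_mul_left (2 * (3 * B + 7) + 8) (e ▸ hw)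
    nlinarith

end Crest.Agent.N325.Lt.Cv
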