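import Crest.Agent.N325.Lt.Defs
import Crest.Agent.N325.Tw.BotImpl

/-! Row 325 (helper16): representations of the structures of the lifted forest. -/

set_option autoImplicit false

namespace Crest.Agent.N325.Lt
open Tw

instance : Rp Pm := Rp.via fun P => (P.s, P.D, P.S, P.ρ, P.β)
instance : Rp Col := Rp.via fun K => (K.ord, K.ins, K.cen, K.pq, K.dep)
instance : Rp LF :=
  Rp.via fun T => (T.ord, T.par, T.pe, T.H, T.G, T.nm, T.cl, T.tc, T.cop, T.obj)

variable {α : Type} [Rp α] {σ : Bool}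

section
variable {P : α → Pm}
@[fun_prop] theorem Pm.pu_s (h : Pu σ P) : Pu σ fun a => (P a).s := by impl
@[fun_prop] theorem Pm.pu_D (h : Pu σ P) : Pu σ fun a => (P a).D := by impl
@[fun_prop] theorem Pm.pu_S (h : Pu σ P) : Pu σ fun a => (P a).S := by impl
@[fun_prop] theorem Pm.pu_ρ (h : Pu σ P) : Pu σ fun a => (P a).ρ := by impl
@[fun_prop] theorem Pm.pu_β (h : Pu σ P) : Pu σ fun a => (P a).β := by impl
variable {x y z : α → ℕ}
@[fun_prop] theorem Pm.pu_nd (h : Pu false P) (hx : Pu false x) (hy : Pu false y)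
    (hz : Pu false z) : Pu false fun a => (P a).nd (x a) (y a) (z a) := by impl
@[fun_prop] theorem Pm.pu_ps (h : Pu false P) (hx : Pu σ x) : Pu σ fun a => (P a).ps (x a) := by
  impl
@[fun_prop] theorem Pm.pu_lv (h : Pu false P) (hx : Pu σ x) : Pu σ fun a => (P a).lv (x a) := by
  impl
@[fun_prop] theorem Pm.pu_cd (h : Pu false P) (hx : Pu σ x) : Pu σ fun a => (P a).cd (x a) := by
  impl
@[fun_prop] theorem Pm.pu_nw (h : Pu false P) (hx : Pu false x) :
    Pu false fun a => (P a).nw (x a) := by impl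
@[fun_prop] theorem pu_opp (hx : Pu σ x) : Pu σ fun a => opp (x a) := by
  have := hx.ar
  impl
@[fun_prop] theorem pu_vq {ed : α → Arr Ed} (h : Pu σ ed) (hx : Pu σ x) :
    Pu σ fun a => vq (ed a).get (x a) := by
  have := hx.ar
  impl
end

section
variable {K : α → Col}
@[fun_prop] theorem Col.pu_ord (h : Pu σ K) : Pu σ fun a => (K a).ord := by impl
@[fun_prop] theorem Col.pu_ins (h : Pu σ K) : Pu σ fun a => (K a).ins := by impl
@[fun_prop] theorem Col.pu_cen (h : Pu σ K) : Pu σ fun a => (K a).cen := by impl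
@[fun_prop] theorem Col.pu_pq (h : Pu σ K) : Pu σ fun a => (K a).pq := by impl
@[fun_prop] theorem Col.pu_dep (h : Pu σ K) : Pu σ fun a => (K a).dep := by impl
end

section
variable {T : α → LF}
@[fun_prop] theorem LF.pu_ord (h : Pu σ T) : Pu σ fun a => (T a).ord := by impl
@[fun_prop] theorem LF.pu_par (h : Pu σ T) : Pu σ fun a => (T a).par := by impl
@[fun_prop] theorem LF.pu_pe (h : Pu σ T) : Pu σ fun a => (T a).pe := by impl
@[fun_prop] theorem LF.pu_H (h : Pu σ T) : Pu σ fun a => (T a).H := by impl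
@[fun_prop] theorem LF.pu_G (h : Pu σ T) : Pu σ fun a => (T a).G := by impl
@[fun_prop] theorem LF.pu_nm (h : Pu σ T) : Pu σ fun a => (T a).nm := by impl
@[fun_prop] theorem LF.pu_cl (h : Pu σ T) : Pu σ fun a => (T a).cl := by impl
@[fun_prop] theorem LF.pu_tc (h : Pu σ T) : Pu σ fun a => (T a).tc := by impl
@[fun_prop] theorem LF.pu_cop (h : Pu σ T) : Pu σ fun a => (T a).cop := by impl
@[fun_prop] theorem LF.pu_obj (h : Pu σ T) : Pu σ fun a => (T a).obj := by impl
end

end Crest.Agent.N325.Lt
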