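import Crest.Agent.N325.Lt.Code
import Crest.Agent.N325.Lt.Rp

/-! Row 325 (helper16): tree copies, main copies and objects of the lifted forest. -/

set_option autoImplicit false

namespace Crest.Agent.N325.Lt
open Tw

/-- the part of `LF.Is` about the nodes -/
structure LF.Pre (G : Gr) (P : Pm) (C : ℕ → ℕ → Col) (pv : ℕ → ℕ) (T : LF) : Prop where
  nd : T.ord.Nodup
  mem : ∀ x, x ∈ T.ord ↔ Node G P C x
  pl : PL T.par.get T.ord
  par : ∀ x ∈ T.ord, T.par.get x = parF P C pv x
  pe : ∀ x ∈ T.ord, T.pe.get x = peF P C x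
  hH : ∀ x ∈ T.ord, T.H.get x =
    if T.par.get x = x then 0 else T.H.get (T.par.get x) + hlF G.ed P C x
  hG : ∀ x ∈ T.ord, T.G.get x =
    if T.par.get x = x then 0 else T.G.get (T.par.get x) + wg G.ed (T.pe.get x).toList
  nm : ∀ x ∈ T.ord, T.nm.get x = nmF G.ed P x
  cl : ∀ x ∈ T.ord, T.cl.get x = nmF G.ed P x :: rtF G.ed P C x

/-- one step of `meetL` -/
def meetS (a : ℕ) (s : List ℕ × ℕ) : List ℕ × ℕ :=
  List.casesOn s.1 s fun b r => if a = b then ([], a) else (r, s.2)

/-- the first common entry -/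
def meetR (l l' : List ℕ) : R ℕ := foldP meetS l (l', 0) >>= fun s => pure s.2

/-- the object of the edge `p` with ends `x`, `y` -/
def obR (T : LF) (p : ℕ × Ed) (x y : ℕ) : R (ℕ × ℕ × ℕ × ℕ) := do
  let z ← meetR (T.cl.get x).tail (T.cl.get y).tail
  pure (p.1, x, y, z)

/-- all objects (`A` = the nodes of level `0` by position) -/
def obsR (T : LF) (A : Arr (List ℕ)) (l : List (ℕ × Ed)) : R (List (ℕ × ℕ × ℕ × ℕ)) :=
  flatMapL (fun p => flatMapL (fun x => mapL (obR T p x) (A.get (3 * p.1 + 2)))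
    (A.get (3 * p.1 + 1))) l

/-- **fills `tc`, `cop`, `obj`** -/
def objR (P : Pm) (l : List (ℕ × Ed)) (T : LF) : R LF := do
  let a ← filterP (fun x => (T.pe.get x).isSome) T.ord
  let tc ← bucketP (fun x => ((T.pe.get x).getD (0, false)).1) a (Arr.cst [])
  let b ← filterP (fun x => decide (P.lv x = 0)) T.ord
  let A ← bucketP (fun x => P.ps x) b (Arr.cst [])
  let c ← filterP (fun x => decide (P.ps x % 3 = 0)) b
  let cop ← bucketP (fun x => P.ps x / 3) c (Arr.cst [])
  let o ← obsR T A l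
  pure ⟨T.ord, T.par, T.pe, T.H, T.G, T.nm, T.cl, tc, cop, o⟩

variable {g : Gl}

theorem foldl_meetS (l l' : List ℕ) :
    (l.foldl (fun s a => meetS a s) (l', 0)).2 = meetL l l' := by
  have h : ∀ (l : List ℕ) (x : ℕ), l.foldl (fun s a => meetS a s) ([], x) = ([], x) := by
    intro l x
    induction l with
    | nil => rfl
    | cons a l ih => exact ih
  induction l generalizing l' with
  | nil => simp [meetL]
  | cons a l ih =>
    cases l' with
    | nil => rw [h]; simp [meetL]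
    | cons b r =>
      rw [List.foldl_cons, meetL]
      by_cases e : a = b
      · rw [show meetS a (b :: r, 0) = ([], a) from if_pos e, h, if_pos e]
      · rw [show meetS a (b :: r, 0) = (r, 0) from if_neg e, ih, if_neg e]

theorem sp_meetR (l l' : List ℕ) :
    Sp g (meetR l l') fun r t => r = meetL l l' ∧ t = l.length + 1 :=
  (sp_foldP _ l _).bind fun r t h => ⟨by rw [h.1, foldl_meetS], h.2⟩

theorem obj_length_rts (P : Pm) (C : ℕ → ℕ → Col) (j i v w : ℕ) : (rts P C j i v w).length = j := by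
  induction j generalizing i v w with
  | zero => rfl
  | succ j ih => rw [rts, List.length_cons, ih]

theorem obj_nodup_flatMap {α β γ : Type} {l : List α} {f : α → List β} (k : β → γ) (k' : α → γ)
    (h : (l.map k').Nodup) (hf : ∀ a ∈ l, (f a).Nodup ∧ ∀ b ∈ f a, k b = k' a) :
    (l.flatMap f).Nodup :=
  List.nodup_flatMap.2 ⟨fun a ha => (hf a ha).1, (List.pairwise_map.1 h).imp_of_mem
    fun {a b} ha hb n x hx hy => n (((hf a ha).2 x hx).symm.trans ((hf b hb).2 x hy))⟩

theorem obj_sum_le {α : Type} {l : List α} {f : α → ℕ} {c : ℕ} (h : ∀ a ∈ l, f a ≤ c) :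
    (l.map f).sum ≤ l.length * c := by
  simpa using List.sum_le_card_nsmul (l.map f) c (by simpa using h)

/-- the value of `obR` -/
def obF (T : LF) (p : ℕ × Ed) (x y : ℕ) : ℕ × ℕ × ℕ × ℕ :=
  (p.1, x, y, meetL (T.cl.get x).tail (T.cl.get y).tail)

theorem sp_obsR {T : LF} {A : Arr (List ℕ)} {l : List (ℕ × Ed)} {S D : ℕ}
    (hA : ∀ p, (A.get p).length ≤ S ∧ ∀ x ∈ A.get p, (T.cl.get x).tail.length ≤ D + 1)
    (hS : 1 ≤ S) :
    Sp g (obsR T A l) fun r t => (r = l.flatMap fun p => (A.get (3 * p.1 + 1)).flatMap fun x =>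
      (A.get (3 * p.1 + 2)).map (obF T p x)) ∧ t ≤ l.length * ((D + 16) * S ^ 2) + 2 := by
  have hlen : ∀ p : ℕ × Ed, ((A.get (3 * p.1 + 1)).flatMap fun x =>
      (A.get (3 * p.1 + 2)).map (obF T p x)).length ≤ S * S := fun p => by
    rw [List.length_flatMap]
    exact (obj_sum_le fun x _ => by rw [List.length_map]; exact (hA _).1).trans
      (Nat.mul_le_mul_right _ (hA _).1)
  refine (sp_flatMapL (fun p => (A.get (3 * p.1 + 1)).flatMap fun x =>
      (A.get (3 * p.1 + 2)).map (obF T p x))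
    (fun _ => S * (S * (D + 2) + 2 * S + 2) + 2 * (S * S) + 2 * S + 2)
    fun p hp => (sp_flatMapL (fun x => (A.get (3 * p.1 + 2)).map (obF T p x))
      (fun _ => S * (D + 2) + 2 * S + 2) fun x hx =>
      (sp_mapL' (obF T p x) (fun _ => D + 2) fun y hy => ?_).mono ?_).mono ?_).mono ?_
  · have := (hA _).2 x hx
    exact (sp_meetR _ _).bind fun z t h => ⟨by rw [h.1]; rfl, by omega⟩
  · refine fun r t h => ⟨h.1, h.2.trans ?_⟩
    have := (hA (3 * p.1 + 2)).1
    have := (obj_sum_le (l := A.get (3 * p.1 + 2)) (f := fun _ => D + 2) fun _ _ => le_rfl).trans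
      (Nat.mul_le_mul_right _ this)
    omega
  · refine fun r t h => ⟨h.1, h.2.trans ?_⟩
    have := (hA (3 * p.1 + 1)).1
    have := (obj_sum_le (l := A.get (3 * p.1 + 1)) (f := fun _ => S * (D + 2) + 2 * S + 2)
      fun _ _ => le_rfl).trans (Nat.mul_le_mul_right _ this)
    have := hlen p
    omega
  · refine fun r t h => ⟨h.1, h.2.trans ?_⟩
    have h1 := obj_sum_le (l := l) (f := fun _ => S * (S * (D + 2) + 2 * S + 2) + 2 * (S * S) +
      2 * S + 2) fun _ _ => le_rfl
    have h2 := obj_sum_le (l := l) fun p _ => hlen p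
    rw [← List.length_flatMap] at h2
    have h3 : S * (S * (D + 2) + 2 * S + 2) + 2 * (S * S) + 2 * S + 2 + 2 * (S * S) + 2 ≤
        (D + 16) * S ^ 2 := by nlinarith
    have h4 := Nat.mul_le_mul_left l.length h3
    rw [mul_add, mul_add, mul_left_comm _ 2] at h4
    omega

/-- few nodes share position and level -/
theorem obj_length_le_S {P : Pm} (hP : P.Ok) {L : List ℕ} (hn : L.Nodup) {p i : ℕ}
    (h : ∀ x ∈ L, P.ps x = p ∧ P.lv x = i) : L.length ≤ P.S := by
  have := (List.subperm_of_subset (l₂ := List.range P.S) (hn.map_on (f := P.cd) fun x hx y hy e =>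
    P.ext ((h x hx).1.trans (h y hy).1.symm) ((h x hx).2.trans (h y hy).2.symm) e)
    fun c hc => by
      obtain ⟨x, -, rfl⟩ := List.mem_map.1 hc
      exact List.mem_range.2 (Pm.cd_lt hP x)).length_le
  simpa using this

theorem sp_objR {G : Gr} {P : Pm} {C : ℕ → ℕ → Col} {pv : ℕ → ℕ} {T : LF}
    {l : List (ℕ × Ed)} (hP : P.Ok) (hl : Enum G l) (h : T.Pre G P C pv) :
    Sp g (objR P l T) fun r t => r.Is G P C pv ∧
      t ≤ 9 * (T.ord.length + 1) + l.length * ((P.D + 16) * P.S ^ 2) + 2 := by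
  refine (sp_filterP _ _).bind fun a t1 ⟨ha, k1⟩ => (sp_bucketP _ _ _).bind fun tc t2 ⟨htc, k2⟩ =>
    (sp_filterP _ _).bind fun b t3 ⟨hb, k3⟩ => (sp_bucketP _ _ _).bind fun A t4 ⟨hA, k4⟩ =>
    (sp_filterP _ _).bind fun d t5 ⟨hd, k5⟩ => (sp_bucketP _ _ _).bind fun cop t6 ⟨hc, k6⟩ => ?_
  have mA : ∀ p x, x ∈ A.get p ↔ x ∈ T.ord ∧ P.ps x = p ∧ P.lv x = 0 := fun p x => by
    simp only [hA, hb, Arr.get_cst, List.append_nil, List.mem_reverse, List.mem_filter,
      decide_eq_true_eq]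
    tauto
  have nA : ∀ p, (A.get p).Nodup := fun p => by
    simpa [hA, hb] using (h.nd.filter _).filter _
  have hE : ∀ p ∈ l, p.1 ∈ G.E := fun p hp => (hl.2.1 _).2 (List.mem_map_of_mem hp)
  refine (sp_obsR (S := P.S) (D := P.D) (fun p =>
    ⟨obj_length_le_S hP (nA p) fun x hx => ((mA p x).1 hx).2, fun x hx => ?_⟩) hP.S_pos).bind fun o t7 ⟨ho, k7⟩ => ⟨?_, ?_⟩
  · rw [h.cl x ((mA p x).1 hx).1, List.tail_cons, rtF, obj_length_rts]; omega
  · refine ⟨h.nd, h.mem, h.pl, h.par, h.pe, h.hH, h.hG, h.nm, h.cl, fun e => ⟨?_, fun x => ?_⟩,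
      fun v => ⟨?_, fun x => ?_⟩, ?_, fun q => ?_⟩
    · simpa [htc, ha] using (h.nd.filter _).filter _
    · simp only [htc, ha, Arr.get_cst, List.append_nil, List.mem_reverse, List.mem_filter,
        decide_eq_true_eq, and_assoc]
      refine and_congr_right fun _ => ?_
      rcases T.pe.get x with _ | ⟨e', b⟩ <;> simp
    · simpa [hc, hd, hb] using ((h.nd.filter _).filter _).filter _
    · simp only [hc, hd, hb, Arr.get_cst, List.append_nil, List.mem_reverse, List.mem_filter,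
        decide_eq_true_eq, and_assoc]
      exact and_congr_right fun _ => by omega
    · rw [ho]
      refine obj_nodup_flatMap Prod.fst Prod.fst hl.1 fun p _ => ⟨obj_nodup_flatMap
        (fun o => o.2.1) id (by simpa using nA _) fun x _ => ⟨(nA _).map_on fun y _ z _ e =>
          congrArg (fun o => o.2.2.1) e, fun o ho => ?_⟩, fun o ho => ?_⟩
      · obtain ⟨y, -, rfl⟩ := List.mem_map.1 ho; rfl
      · obtain ⟨x, -, hx⟩ := List.mem_flatMap.1 ho
        obtain ⟨y, -, rfl⟩ := List.mem_map.1 hx; rfl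
    · simp only [ho, List.mem_flatMap, List.mem_map, mA]
      constructor
      · rintro ⟨p, hp, x, ⟨x1, x2, x3⟩, y, ⟨y1, y2, y3⟩, rfl⟩
        refine ⟨hE p hp, x1, y1, x2, y2, x3, y3, ?_⟩
        simp only [obF, h.cl x x1, h.cl y y1, List.tail_cons]
      · rintro ⟨e, x1, y1, x2, y2, x3, y3, k⟩
        obtain ⟨p, hp, e'⟩ := List.mem_map.1 ((hl.2.1 _).1 e)
        refine ⟨p, hp, _, ⟨x1, e' ▸ x2, x3⟩, _, ⟨y1, e' ▸ y2, y3⟩, ?_⟩
        simp only [obF, h.cl _ x1, h.cl _ y1, List.tail_cons, e', ← k]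
  · have := ha ▸ List.length_filter_le _ T.ord
    have := hb ▸ List.length_filter_le _ T.ord
    have := hd ▸ List.length_filter_le _ b
    omega

variable {α : Type} [Rp α]

@[fun_prop] theorem impl_meetR {l l' : α → List ℕ} (h1 : Pu true l) (h2 : Pu true l') :
    Impl fun a => meetR (l a) (l' a) := by impl

@[fun_prop] theorem impl_obsR {T : α → LF} {A : α → Arr (List ℕ)} {l : α → List (ℕ × Ed)}
    (h1 : Pu true T) (h2 : Pu true A) (h3 : Pu true l) : Impl fun a => obsR (T a) (A a) (l a) := by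
  impl

@[fun_prop] theorem impl_objR {P : α → Pm} {l : α → List (ℕ × Ed)} {T : α → LF}
    (h1 : Pu true P) (h2 : Pu true l) (h3 : Pu true T) : Impl fun a => objR (P a) (l a) (T a) := by
  impl

end Crest.Agent.N325.Lt
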