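import Crest.Agent.N325.Lt.Nodes0
import Crest.Agent.N325.Lt.Carve
import Crest.Agent.N325.Lt.Obj

/-! Row 325 (helper16): the program that lists the nodes of the lifted forest. -/

set_option autoImplicit false

namespace Crest.Agent.N325.Lt
open Tw

/-- one level up -/
def upS (P : Pm) (C : Arr (Arr Col)) (i : ℕ) (s : ℕ × ℕ × Bool) : ℕ × ℕ × Bool :=
  (((C.get i).get (s.2.1 % P.s)).cen.get s.1, s.2.1 / P.s,
    s.2.2 && ((C.get i).get (s.2.1 % P.s)).ins.get s.1)

/-- does `(v, w)` exist on level `i`? -/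
def valR (P : Pm) (C : Arr (Arr Col)) (i v w : ℕ) : R Bool := do
  let s ← forP (upS P C) (P.D - i) i (v, w, true)
  pure (s.2.2 && decide (s.2.1 = 0) && ((C.get P.D).get 0).ins.get s.1)

/-- the nodes of one vertex -/
def grpR (P : Pm) (adj : Arr (List ℕ)) (C : Arr (Arr Col)) (i w v : ℕ) : R (List ℕ) := do
  let b ← valR P C i v w
  if b then do
    let m ← nat (3 * v)
    let a ← mapL (fun q => nat (P.nd q i w)) (m :: adj.get v)
    revL a
  else pure []

/-- **the nodes, children first** -/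
def nodesR (P : Pm) (adj : Arr (List ℕ)) (C : Arr (Arr Col)) : R (List ℕ) := do
  let I ← rangeL (P.D + 1) 0
  flatMapL (fun i => do
    let W ← rangeL (P.nW i) 0
    flatMapL (fun w => flatMapL (grpR P adj C i w) ((C.get i).get (w % P.s)).ord) W) I

variable {g : Gl} {G : Gr} {V : List ℕ} {P : Pm} {C : Arr (Arr Col)} {adj : Arr (List ℕ)}
  {pv : ℕ → ℕ} {c : Bd}

theorem foldl_upS (hC : Covers G V P fun i j => (C.get i).get j) (hP : P.Ok) (j i v w : ℕ)
    (b : Bool) (h : i + j = P.D) {s : ℕ × ℕ × Bool}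
    (e : s = (List.range' i j).foldl (fun s j => upS P C j s) (v, w, b)) :
    (s.2.2 && decide (s.2.1 = 0) && ((C.get P.D).get 0).ins.get s.1) = true ↔
      b = true ∧ val P (fun i j => (C.get i).get j) j i v w := by
  induction j generalizing i v w b with
  | zero =>
    obtain rfl : i = P.D := h
    have := hC.2.1.ins v
    simp only [e, List.range'_zero, List.foldl_nil, Bool.and_eq_true, decide_eq_true_eq, val, this]
    tauto
  | succ j ih =>
    have := ((hC.1 i (by omega)).1 (w % P.s) (Nat.mod_lt _ hP.s1)).ins v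
    rw [ih (i + 1) _ _ _ (by omega) e]
    simp only [val, Bool.and_eq_true, this, and_assoc]

theorem sp_grpR (hC : Covers G V P fun i j => (C.get i).get j) (hP : P.Ok) (hV : Vtx G V)
    (hA : Adj G adj.get) (hG : G.Ok c) (hX : (3 * c.nb + 3) * (P.D + 2) * P.S ≤ g.X) {i : ℕ}
    (hi : i ≤ P.D) (w v : ℕ) :
    Sp g (grpR P adj C i w v) fun r t => r = grpF P (fun i j => (C.get i).get j) adj.get i w v ∧
      t ≤ (P.D + 7) * (1 + (adj.get v).length) := by
  have m := fun x => (mem_grpF (x := x) (w := w) (v := v) hC hP hA hi).1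
  refine sp_bind.2 ((sp_forP _ _ _ _).bind fun s t ⟨h, k⟩ => ?_)
  have e := foldl_upS hC hP _ i v w true (by omega) h
  unfold grpF at m ⊢
  refine sp_ite.2 ⟨fun b => ?_, fun b => ⟨(if_neg fun x => b (e.2 ⟨rfl, x⟩)).symm, by
    rw [mul_add]; omega⟩⟩
  simp only [if_pos (e.1 b).2, List.mem_reverse] at m ⊢
  have hb := fun q hq => ((m _ (List.mem_map_of_mem (a := q) hq)).1.lt hP hV hC hG).le.trans hX
  have h0 : 3 * v ≤ P.nd (3 * v) i w := by
    have := hP.S_pos
    unfold Pm.nd; nlinarith [Nat.zero_le (3 * v * P.D * P.S), Nat.zero_le (i * P.S)]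
  refine sp_bind.2 (sp_nat.2 ⟨h0.trans (hb _ (by simp)), (sp_mapL' (fun q => P.nd q i w) (fun _ => 0)
    fun q hq => sp_nat.2 ⟨hb q hq, rfl, le_rfl⟩).bind fun a u ⟨h1, k1⟩ => (sp_revL a).mono
      fun r u' ⟨h2, k2⟩ => ⟨by rw [h2, h1], ?_⟩⟩)
  simp only [h1, List.length_map, List.length_cons, List.map_const', List.sum_replicate,
    smul_eq_mul] at k1 k2
  nlinarith [Nat.zero_le (P.D * (adj.get v).length), Nat.sub_le P.D i]

theorem sp_nodesR (hC : Covers G V P fun i j => (C.get i).get j) (hP : P.Ok) (hV : Vtx G V)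
    (hA : Adj G adj.get) (hG : G.Ok c) (hpv : Chain G pv) (hch : ∀ v, Ch pv (3 * v) (adj.get v))
    (hX : (3 * c.nb + 3) * (P.D + 2) * P.S ≤ g.X) :
    Sp g (nodesR P adj C) fun r t => r.Nodup ∧
      (∀ x, x ∈ r ↔ Node G P (fun i j => (C.get i).get j) x) ∧
      PL (parF P (fun i j => (C.get i).get j) pv) r ∧
      t ≤ (P.D + 1) * P.S * ((P.D + 18) * (V.length + 2 * G.E.card + 1)) := by
  set n := V.length + 2 * G.E.card
  set C' : ℕ → ℕ → Col := fun i j => (C.get i).get j
  have hS := hP.S_pos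
  have hW : ∀ i, P.nW i ≤ P.S := fun i => by unfold Pm.nW; split_ifs <;> omega
  have vol : ∀ i ≤ P.D, ∀ w < P.nW i, ((C' i (w % P.s)).ord.map fun v =>
      1 + (adj.get v).length).sum ≤ n := fun i hi w hw => by
    obtain ⟨_, k⟩ := col_nW hC hP hi hw
    rw [← List.sum_toFinset _ k.nd]
    exact (Finset.sum_le_sum_of_subset fun x hx => List.mem_toFinset.2
      (k.sub x (List.mem_toFinset.1 hx))).trans (Cv.sum_adj_le hV hA)
  have l1 : ∀ i ≤ P.D, ∀ w < P.nW i,
      ((C' i (w % P.s)).ord.flatMap (grpF P C' adj.get i w)).length ≤ n := fun i hi w hw => by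
    rw [List.length_flatMap]
    refine (List.sum_le_sum fun v _ => ?_).trans (vol i hi w hw)
    unfold grpF; split_ifs <;> simp [add_comm]
  have l2 : ∀ i ≤ P.D, ((List.range' 0 (P.nW i)).flatMap fun w =>
      (C' i (w % P.s)).ord.flatMap (grpF P C' adj.get i w)).length ≤ P.S * n := fun i hi => by
    rw [List.length_flatMap]
    exact (obj_sum_le fun w hw => l1 i hi w (by simpa using hw)).trans
      (Nat.mul_le_mul_right _ (by simpa using hW i))
  refine (sp_rangeL _ _).bind fun I t0 ⟨h0, k0⟩ => (sp_flatMapL (fun i =>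
    (List.range' 0 (P.nW i)).flatMap fun w => (C' i (w % P.s)).ord.flatMap (grpF P C' adj.get i w))
    (fun _ => P.S * ((P.D + 13) * n + 6) + 4) fun i hi => ?_).mono fun r t ⟨h, k⟩ => ?_
  · have hi : i ≤ P.D := by simp [h0] at hi; omega
    refine (sp_rangeL _ _).bind fun W t1 ⟨h1, k1⟩ => (sp_flatMapL (fun w =>
      (C' i (w % P.s)).ord.flatMap (grpF P C' adj.get i w)) (fun _ => (P.D + 11) * n + 2)
      fun w hw => ?_).mono fun r t ⟨h, k⟩ => ⟨h1 ▸ h, ?_⟩
    · have hw : w < P.nW i := by simpa [h1] using hw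
      refine (sp_flatMapL _ _ fun v _ => sp_grpR hC hP hV hA hG hX hi w v).mono
        fun r t ⟨h, k⟩ => ⟨h, k.trans ?_⟩
      have a := vol i hi w hw
      have b := l1 i hi w hw
      have d : (C' i (w % P.s)).ord.length ≤ n := le_trans (by
        simpa using List.sum_le_sum (l := (C' i (w % P.s)).ord) (f := fun _ => 1)
          (g := fun v => 1 + (adj.get v).length) fun _ _ => Nat.le_add_right _ _) a
      rw [List.sum_map_mul_left]
      have := Nat.mul_le_mul_left (P.D + 7) a
      simp only [C'] at *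
      nlinarith
    · have a := l2 i hi
      have b := Nat.mul_le_mul_right ((P.D + 11) * n + 2) (hW i)
      have := hW i
      simp only [h1, List.map_const', List.sum_replicate, smul_eq_mul, List.length_range'] at k
      nlinarith
  · have e : r = ordF P C' adj.get := by rw [h, h0]; rfl
    have a := obj_sum_le (l := I) fun i hi => l2 i (by simp [h0] at hi; omega)
    rw [← List.length_flatMap] at a
    obtain ⟨s1, s2, s3⟩ := ordF_spec hC hP hA (pos_of_ok hG) hpv hch
    refine ⟨e ▸ s1, e ▸ s2, e ▸ s3, ?_⟩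
    simp only [h0, List.map_const', List.sum_replicate, smul_eq_mul, List.length_range'] at k a
    have b : P.S * ((P.D + 13) * n + 6) + 4 + 2 * (P.S * n) + 8 ≤ P.S * ((P.D + 18) * (n + 1)) := by
      nlinarith [Nat.zero_le (P.S * P.D), Nat.zero_le (P.S * n)]
    have := Nat.mul_le_mul_left (P.D + 1) b
    rw [mul_assoc]
    nlinarith

variable {α : Type} [Rp α]

@[fun_prop] theorem impl_valR {P : α → Pm} {C : α → Arr (Arr Col)} {i v w : α → ℕ}
    (h1 : Pu true P) (h2 : Pu true C) (h3 : Pu true i) (h4 : Pu true v) (h5 : Pu true w) :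
    Impl fun a => valR (P a) (C a) (i a) (v a) (w a) := by impl

@[fun_prop] theorem impl_grpR {P : α → Pm} {adj : α → Arr (List ℕ)} {C : α → Arr (Arr Col)}
    {i v w : α → ℕ} (h1 : Pu true P) (h0 : Pu true adj) (h2 : Pu true C) (h3 : Pu true i)
    (h4 : Pu true v) (h5 : Pu true w) :
    Impl fun a => grpR (P a) (adj a) (C a) (i a) (w a) (v a) := by impl

@[fun_prop] theorem impl_nodesR {P : α → Pm} {adj : α → Arr (List ℕ)} {C : α → Arr (Arr Col)}
    (h1 : Pu true P) (h0 : Pu true adj) (h2 : Pu true C) :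
    Impl fun a => nodesR (P a) (adj a) (C a) := by impl

end Crest.Agent.N325.Lt
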