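import Crest.Agent.N325.Lt.Code

/-!
# Row 325 (helper27): the counting fields of the interface of the lifted forest
-/

set_option autoImplicit false
open Finset

namespace Crest.Agent.N325.Lt
open Tw

theorem length_le_card {α β : Type} [DecidableEq α] {l : List α} (nd : l.Nodup) (f : α → β)
    (s : Finset β) (hf : ∀ x ∈ l, f x ∈ s) (inj : ∀ x ∈ l, ∀ y ∈ l, f x = f y → x = y) :
    l.length ≤ s.card := by
  rw [← List.toFinset_card_of_nodup nd]
  exact card_le_card_of_injOn f (fun x hx => hf x (by simpa using hx))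
    fun x hx y hy => inj x (by simpa using hx) y (by simpa using hy)

variable {G : Gr} {V : List ℕ} {P : Pm} {C : ℕ → ℕ → Col} {pv : ℕ → ℕ} {c : Bd} {T : LF} {x : ℕ}

theorem Node.colOk (h : Node G P C x) (hP : P.Ok) (hC : Covers G V P C) :
    (∃ Rd, (colF P C x).Ok G V Rd) ∧ vq G.ed (P.ps x) ∈ (colF P C x).ord := by
  obtain ⟨h1, -, h3⟩ := h
  rcases h1.eq_or_lt with e | e
  · rw [e, Nat.sub_self] at h3
    unfold colF
    rw [e, h3.2, Nat.zero_mod]
    exact ⟨⟨_, hC.2.1⟩, h3.1⟩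
  · obtain ⟨j, ej⟩ : ∃ j, P.D - P.lv x = j + 1 := ⟨P.D - P.lv x - 1, by omega⟩
    rw [ej] at h3
    exact ⟨⟨_, (hC.1 _ e).1 _ (Nat.mod_lt _ hP.s1)⟩, h3.1⟩

/-- the position of a node belongs to a current edge -/
theorem Node.ps_cases (h : Node G P C x) (hP : P.Ok) (hV : Vtx G V) (hC : Covers G V P C) :
    ∃ e ∈ G.E, P.ps x = 3 * e + 1 ∨ P.ps x = 3 * e + 2 ∨ P.ps x = 3 * (G.ed e).a ∨
      P.ps x = 3 * (G.ed e).b := by
  rcases h.2.1 with e | e
  · obtain ⟨⟨_, k⟩, m⟩ := h.colOk hP hC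
    obtain ⟨q, hq, eq⟩ := (hV.2 _).1 (k.sub _ m)
    rw [vq_of_main _ e, vq, if_neg hq.1] at eq
    refine ⟨_, hq.2, .inr (.inr ?_)⟩
    split_ifs at eq <;> omega
  · have := e.1
    exact ⟨_, e.2, by omega⟩

theorem length_le_pos (hP : P.Ok) {l : List ℕ} (nd : l.Nodup) (A : Finset ℕ)
    (h : ∀ x ∈ l, P.ps x ∈ A ∧ P.lv x ≤ P.D) : l.length ≤ A.card * (P.D + 1) * P.S := by
  have := length_le_card nd (fun x => ((P.ps x, P.lv x), P.cd x))
    ((A ×ˢ range (P.D + 1)) ×ˢ range P.S) (fun x hx => by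
      simp only [mem_product, mem_range]
      exact ⟨⟨(h x hx).1, Nat.lt_succ_of_le (h x hx).2⟩, Pm.cd_lt hP x⟩) fun x _ y _ e => by
      simp only [Prod.mk.injEq] at e
      exact P.ext e.1.1 e.1.2 e.2
  simpa using this

namespace LF.Is

theorem cnt_len (h : T.Is G P C pv) (hP : P.Ok) (hV : Vtx G V) (hC : Covers G V P C)
    (hG : G.Ok c) : T.ord.length ≤ 4 * c.m * (P.D + 1) * P.S := by
  refine (length_le_pos hP h.nd (G.E.biUnion fun e =>
    {3 * e + 1, 3 * e + 2, 3 * (G.ed e).a, 3 * (G.ed e).b}) fun x hx => ⟨?_, ((h.mem x).1 hx).1⟩).trans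
    (Nat.mul_le_mul_right _ (Nat.mul_le_mul_right _ ?_))
  · obtain ⟨e, he, k⟩ := ((h.mem x).1 hx).ps_cases hP hV hC
    exact mem_biUnion.2 ⟨e, he, by simpa only [mem_insert, mem_singleton] using k⟩
  · refine (card_biUnion_le_card_mul _ _ 4 fun _ _ => card_le_four).trans ?_
    have := (card_le_card hG.1).trans hG.2.1
    omega

theorem cnt_idb (h : T.Is G P C pv) (hP : P.Ok) (hV : Vtx G V) (hC : Covers G V P C)
    (hG : G.Ok c) : ∀ x ∈ T.ord, x < (3 * c.nb + 3) * (P.D + 2) * P.S := by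
  intro x hx
  obtain ⟨e, he, k⟩ := ((h.mem x).1 hx).ps_cases hP hV hC
  obtain ⟨h1, h2, h3, -⟩ := hG.2.2 e he
  have h4 : (P.ps x + 1) * (P.D + 2) ≤ (3 * c.nb + 3) * (P.D + 2) :=
    Nat.mul_le_mul_right _ (by omega)
  have h5 := P.lv_lt x
  have h6 : (P.ps x * (P.D + 2) + P.lv x + 1) * P.S ≤ (3 * c.nb + 3) * (P.D + 2) * P.S :=
    Nat.mul_le_mul_right _ (by rw [add_mul] at h4; omega)
  have h7 := Pm.cd_lt hP x
  have h8 := P.nd_eta x
  rw [Pm.nd] at h8
  rw [add_mul _ 1] at h6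
  omega

theorem cnt_kids (h : T.Is G P C pv) (hP : P.Ok) (hC : Covers G V P C) (hp : Chain G pv) (y : ℕ) :
    (T.ord.filter fun x => T.par.get x = y ∧ x ≠ y).length ≤ P.s + 2 := by
  have key : ∀ x ∈ T.ord.filter fun x => T.par.get x = y ∧ x ≠ y,
      (Slot G (P.ps x) ∧ P.ps y = pv (P.ps x) ∧ P.lv y = P.lv x ∧ P.cd y = P.cd x) ∨
      (P.ps x % 3 = 0 ∧ (colF P C x).cen.get (P.ps x / 3) ≠ P.ps x / 3 ∧
        vq G.ed (opp (P.ps y)) = P.ps x / 3 ∧ P.lv y = P.lv x ∧ P.cd y = P.cd x) ∨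
      (P.ps x % 3 = 0 ∧ (colF P C x).cen.get (P.ps x / 3) = P.ps x / 3 ∧
        P.ps y = P.ps x ∧ P.lv y = P.lv x + 1 ∧ P.cd y = P.cd x / P.s) := by
    intro x hx
    simp only [List.mem_filter, decide_eq_true_eq] at hx
    obtain ⟨hx, e, ne⟩ := hx
    have hN := (h.mem x).1 hx
    have hw := Pm.cd_lt hP x
    have hi := P.lv_lt x
    rw [h.par x hx, parF] at e
    split_ifs at e with c1 c2 c3
    · subst e
      exact .inl ⟨hN.2.1.resolve_left c1, P.ps_nd hw hi, P.lv_nd hw hi, P.cd_nd hw⟩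
    · have c0 : P.ps x % 3 = 0 := not_not.1 c1
      obtain ⟨⟨_, k⟩, m⟩ := hN.colOk hP hC
      rw [vq_of_main _ c0] at m
      subst e
      exact .inr (.inl ⟨c0, c2, by rw [P.ps_nd hw hi]; exact (k.tree _ m c2).2.1, P.lv_nd hw hi,
        P.cd_nd hw⟩)
    · exact absurd e ne
    · have hw' : P.cd x / P.s < P.S := (Nat.div_le_self _ _).trans_lt hw
      have hi' : P.lv x + 1 < P.D + 2 := by have := hN.1; omega
      subst e
      exact .inr (.inr ⟨not_not.1 c1, not_not.1 c2, P.ps_nd hw' hi', P.lv_nd hw' hi', P.cd_nd hw'⟩)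
  have hm := fun x => Nat.mod_lt (P.cd x) hP.s1
  refine (length_le_card (h.nd.filter _) (fun x => if P.ps x % 3 ≠ 0 then P.s else
    if (colF P C x).cen.get (P.ps x / 3) ≠ P.ps x / 3 then P.s + 1 else P.cd x % P.s)
    (range (P.s + 2)) (fun x _ => ?_) fun x hx z hz e => ?_).trans_eq (card_range _)
  · have := hm x
    rw [mem_range]
    split_ifs <;> omega
  · have h1 := hm x
    have h2 := hm z
    rcases key x hx with ⟨a1, a2, a3, a4⟩ | ⟨a1, a2, a3, a4, a5⟩ | ⟨a1, a2, a3, a4, a5⟩ <;>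
      rcases key z hz with ⟨b1, b2, b3, b4⟩ | ⟨b1, b2, b3, b4, b5⟩ | ⟨b1, b2, b3, b4, b5⟩
    · exact P.ext (hp.2 _ _ a1 b1 (a2.symm.trans b2)) (a3.symm.trans b3) (a4.symm.trans b4)
    · rw [if_pos a1.1, if_neg (not_not.2 b1), if_pos b2] at e; omega
    · rw [if_pos a1.1, if_neg (not_not.2 b1), if_neg (not_not.2 b2)] at e; omega
    · rw [if_pos b1.1, if_neg (not_not.2 a1), if_pos a2] at e; omega
    · exact P.ext (by omega) (a4.symm.trans b4) (a5.symm.trans b5)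
    · rw [if_neg (not_not.2 a1), if_pos a2, if_neg (not_not.2 b1), if_neg (not_not.2 b2)] at e
      omega
    · rw [if_pos b1.1, if_neg (not_not.2 a1), if_neg (not_not.2 a2)] at e; omega
    · rw [if_neg (not_not.2 b1), if_pos b2, if_neg (not_not.2 a1), if_neg (not_not.2 a2)] at e
      omega
    · rw [if_neg (not_not.2 a1), if_neg (not_not.2 a2), if_neg (not_not.2 b1),
        if_neg (not_not.2 b2)] at e
      refine P.ext (a3.symm.trans b3) (by omega) ?_
      rw [← Nat.div_add_mod (P.cd x) P.s, ← Nat.div_add_mod (P.cd z) P.s, e, ← a5, ← b5]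

theorem cnt_tc (h : T.Is G P C pv) (hP : P.Ok) (hC : Covers G V P C) (e : ℕ) :
    (T.tc.get e).length ≤ 2 * (P.D + 1) * P.S := by
  refine (length_le_pos hP (h.tc e).1 {3 * (G.ed e).a, 3 * (G.ed e).b} fun x hx => ?_).trans
    (Nat.mul_le_mul_right _ (Nat.mul_le_mul_right _ card_le_two))
  obtain ⟨hx, b, eb⟩ := ((h.tc e).2 x).1 hx
  have hN := (h.mem x).1 hx
  refine ⟨?_, hN.1⟩
  rw [h.pe x hx, peF] at eb
  split_ifs at eb with c0
  obtain ⟨⟨_, k⟩, m⟩ := hN.colOk hP hC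
  rw [vq_of_main _ c0.1] at m
  obtain ⟨k1, k2, -⟩ := k.tree _ m c0.2
  have e1 : (colF P C x).pq.get (P.ps x / 3) / 3 = e := congrArg Prod.fst (Option.some.inj eb)
  rw [vq, if_neg k1.opp.1, opp_div k1.1, e1] at k2
  have := c0.1
  simp only [mem_insert, mem_singleton]
  split_ifs at k2 <;> omega

theorem cnt_cop (h : T.Is G P C pv) (hP : P.Ok) (v : ℕ) : (T.cop.get v).length ≤ P.S := by
  refine (length_le_card (h.cop v).1 P.cd (range P.S) (fun x _ => mem_range.2 (Pm.cd_lt hP x))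
    fun x hx y hy e => ?_).trans_eq (card_range _)
  obtain ⟨-, a, b⟩ := ((h.cop v).2 x).1 hx
  obtain ⟨-, a', b'⟩ := ((h.cop v).2 y).1 hy
  exact P.ext (a.trans a'.symm) (b.trans b'.symm) e

theorem obj_ext (h : T.Is G P C pv) {o o' : ℕ × ℕ × ℕ × ℕ} (ho : o ∈ T.obj) (ho' : o' ∈ T.obj)
    (e1 : o.1 = o'.1) (e2 : P.cd o.2.1 = P.cd o'.2.1) (e3 : P.cd o.2.2.1 = P.cd o'.2.2.1) :
    o = o' := by
  obtain ⟨-, -, -, a1, a2, a3, a4, a5⟩ := (h.obj o).1 ho
  obtain ⟨-, -, -, b1, b2, b3, b4, b5⟩ := (h.obj o').1 ho'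
  have k1 := P.ext (by rw [a1, b1, e1]) (a3.trans b3.symm) e2
  have k2 := P.ext (by rw [a2, b2, e1]) (a4.trans b4.symm) e3
  exact Prod.ext e1 (Prod.ext k1 (Prod.ext k2 (by rw [a5, b5, k1, k2])))

theorem cnt_olen (h : T.Is G P C pv) (hP : P.Ok) (hG : G.Ok c) :
    T.obj.length ≤ c.m * P.S ^ 2 := by
  refine (length_le_card h.ond (fun o => (o.1, P.cd o.2.1, P.cd o.2.2.1))
    (G.E ×ˢ range P.S ×ˢ range P.S) (fun o ho => ?_) fun o ho o' ho' e => ?_).trans ?_
  · simp only [mem_product, mem_range]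
    exact ⟨((h.obj o).1 ho).1, Pm.cd_lt hP _, Pm.cd_lt hP _⟩
  · simp only [Prod.mk.injEq] at e
    exact h.obj_ext ho ho' e.1 e.2.1 e.2.2
  · rw [card_product, card_product, card_range, sq]
    exact Nat.mul_le_mul_right _ ((card_le_card hG.1).trans hG.2.1)

theorem cnt_oe (h : T.Is G P C pv) (hP : P.Ok) (e : ℕ) :
    T.obj.countP (fun o => o.1 = e) ≤ P.S ^ 2 := by
  rw [List.countP_eq_length_filter]
  refine (length_le_card (h.ond.filter _) (fun o => (P.cd o.2.1, P.cd o.2.2.1))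
    (range P.S ×ˢ range P.S) (fun o _ => ?_) fun o ho o' ho' k => ?_).trans_eq ?_
  · simp only [mem_product, mem_range]
    exact ⟨Pm.cd_lt hP _, Pm.cd_lt hP _⟩
  · simp only [Prod.mk.injEq, List.mem_filter, decide_eq_true_eq] at k ho ho'
    exact h.obj_ext ho.1 ho'.1 (ho.2.trans ho'.2.symm) k.1 k.2
  · rw [card_product, card_range, sq]

theorem cnt_oa (h : T.Is G P C pv) (hP : P.Ok) (x : ℕ) :
    T.obj.countP (fun o => o.2.1 = x) + T.obj.countP (fun o => o.2.2.1 = x) ≤ P.S := by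
  have h1 : T.obj.countP (fun o => o.2.1 = x) ≤ P.S := by
    rw [List.countP_eq_length_filter]
    refine (length_le_card (h.ond.filter _) (fun o => P.cd o.2.2.1) (range P.S)
      (fun o _ => mem_range.2 (Pm.cd_lt hP _)) fun o ho o' ho' k => ?_).trans_eq (card_range _)
    simp only [List.mem_filter, decide_eq_true_eq] at ho ho'
    have a := ((h.obj o).1 ho.1).2.2.2.1
    have b := ((h.obj o').1 ho'.1).2.2.2.1
    rw [ho.2] at a
    rw [ho'.2] at b
    exact h.obj_ext ho.1 ho'.1 (by omega) (by rw [ho.2, ho'.2]) k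
  have h2 : T.obj.countP (fun o => o.2.2.1 = x) ≤ P.S := by
    rw [List.countP_eq_length_filter]
    refine (length_le_card (h.ond.filter _) (fun o => P.cd o.2.1) (range P.S)
      (fun o _ => mem_range.2 (Pm.cd_lt hP _)) fun o ho o' ho' k => ?_).trans_eq (card_range _)
    simp only [List.mem_filter, decide_eq_true_eq] at ho ho'
    have a := ((h.obj o).1 ho.1).2.2.2.2.1
    have b := ((h.obj o').1 ho'.1).2.2.2.2.1
    rw [ho.2] at a
    rw [ho'.2] at b
    exact h.obj_ext ho.1 ho'.1 (by omega) k (by rw [ho.2, ho'.2])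
  by_cases e : P.ps x % 3 = 1
  · have : T.obj.countP (fun o => o.2.2.1 = x) = 0 := List.countP_eq_zero.2 fun o ho k => by
      have a := ((h.obj o).1 ho).2.2.2.2.1
      rw [of_decide_eq_true k] at a
      omega
    omega
  · have : T.obj.countP (fun o => o.2.1 = x) = 0 := List.countP_eq_zero.2 fun o ho k => by
      have a := ((h.obj o).1 ho).2.2.2.1
      rw [of_decide_eq_true k] at a
      omega
    omega

end LF.Is

end Crest.Agent.N325.Lt
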