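import Crest.Agent.N325.Lt.Cpl
import Crest.Agent.N325.Lt.Cnt

/-!
# Row 325 (helper91): the concrete lifted forest satisfies the interface
-/

set_option autoImplicit false
open Finset

namespace Crest.Agent.N325.Lt
open Tw

variable {G : Gr} {V : List ℕ} {P : Pm} {C : ℕ → ℕ → Col} {pv : ℕ → ℕ} {T : LF} {c : Bd}

/-- **`Is → Ok`** -/
theorem LF.Is.ok (h : T.Is G P C pv) (hP : P.Ok) (hV : Vtx G V) (hC : Covers G V P C)
    (hp : Chain G pv) (hG : G.Ok c) : T.Ok G P c.m c.nb := by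
  have X : Cx G V P C pv T := ⟨hV, hC, hp, hP, pos_of_ok hG, h⟩
  refine ⟨h.nd, h.pl, h.cnt_len hP hV hC hG, h.cnt_idb hP hV hC hG, h.cnt_kids hP hC hp,
    fun x hx hr => ?_, fun x hx a ha => ?_, fun x hx hn => ?_, fun x hx => X.tel hx,
    fun x hx => X.grad hx, fun x hx => X.Hb hx, fun x hx => ?_, fun x hx => X.cl_spec hx,
    fun e => ⟨(h.tc e).1, h.cnt_tc hP hC e, (h.tc e).2⟩,
    fun v => ⟨(h.cop v).1, h.cnt_cop hP v, fun x hx => ?_⟩, X.nw_not_mem, h.cnt_olen hP hG,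
    h.cnt_oe hP, h.cnt_oa hP, fun o ho => ?_, X.cpl⟩
  · refine ⟨?_, by rw [h.hH x hx, if_pos hr], by rw [h.hG x hx, if_pos hr]⟩
    rcases X.pc hx with k | k | k | k
    · exact k.2.2.2.2.1
    · exact absurd hr k.2.2.2.2.2.2.2
    · exact k.2.2.2.2.2.2.1
    · exact k.2.2.2.2.1
  · rcases X.pc hx with k | k | k | k
    · rw [k.2.2.2.2.1] at ha; cases ha
    · obtain ⟨h0, hc, _, _, _, h4, h5, _⟩ := k
      have hk := X.col hx
      rw [vq_of_main _ h0] at hk
      rw [h4, Option.mem_def, Option.some.injEq] at ha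
      subst ha
      exact ⟨(hk.1.tree _ hk.2 hc).1.2, h5⟩
    · rw [k.2.2.2.2.2.2.1] at ha; cases ha
    · rw [k.2.2.2.2.1] at ha; cases ha
  · rcases X.pc hx with k | k | k | k
    · obtain ⟨hs, h1, h2, h3, _, h5, _⟩ := k
      exact Or.inr ⟨h5, (X.nm_slot hx hs h1 h2 h3).symm⟩
    · rw [k.2.2.2.2.2.1] at hn; cases hn
    · exact Or.inl k.2.2.2.2.2.2.2.1
    · rw [k.2.2.2.1]; exact Or.inr ⟨rfl, rfl⟩
  · have hn := X.nm_mem hx
    have h1 := (X.ps_nm hx).1
    obtain ⟨a1, a2, a3, a4⟩ := X.nm_anc x hx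
    refine ⟨hn, X.nm_main hn (by omega), by rw [h1, vq_main], by omega, a1, a2, a3, ?_, a4⟩
    rw [h.cl x hx, h.nm x hx]; exact List.mem_cons_self
  · obtain ⟨h1, h2, _⟩ := ((h.cop v).2 x).1 hx
    exact ⟨h1, X.nm_main h1 (by omega), h2⟩
  · obtain ⟨h1, h2, h3, h4, h5, _⟩ := (h.obj o).1 ho
    exact ⟨h1, h2, h3, h4, h5, X.obj_spec ho⟩

/-- the gradient potential is bounded by the height -/
theorem LF.Ok.G_le {m nb : ℕ} (h : T.Ok G P m nb) (hG : G.Ok c) :
    ∀ x ∈ T.ord, (T.G.get x).natAbs ≤ T.H.get x * c.gb := by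
  refine h.pl.ind fun x hx ih => ?_
  by_cases hr : T.par.get x = x
  · rw [(h.root x hx hr).2.2]; exact Nat.zero_le _
  · have i := ih hr
    have hg := h.grad x hx
    rcases he : T.pe.get x with _ | a
    · rw [he] at hg
      have : T.H.get (T.par.get x) ≤ T.H.get x := by rcases h.dum x hx he with k | k <;> omega
      simp only [Option.toList_none, wg, wsum, List.map_nil, List.sum_nil, add_zero] at hg
      rw [hg]; exact i.trans (Nat.mul_le_mul_right _ this)
    · obtain ⟨k1, k2⟩ := h.real x hx a he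
      obtain ⟨_, _, _, b4, _, b6⟩ := hG.2.2 _ k1
      rw [he] at hg
      simp only [Option.toList_some, wg, wsum, List.map_cons, List.map_nil, List.sum_cons,
        List.sum_nil, add_zero] at hg
      have e : (sg a.2 * (G.ed a.1).g).natAbs = (G.ed a.1).g.natAbs := by
        unfold sg; split_ifs <;> simp
      have := Int.natAbs_add_le (T.G.get (T.par.get x)) (sg a.2 * (G.ed a.1).g)
      rw [hg, k2, add_mul]
      have : c.gb ≤ (G.ed a.1).l * c.gb := Nat.le_mul_of_pos_left _ b4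
      omega

end Crest.Agent.N325.Lt
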