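import Crest.Agent.N325.Lt.Code
import Crest.Agent.N325.Lt.Rp

/-! Row 325 (helper16): edge table, adjacency lists, vertices and chains of slots. -/

set_option autoImplicit false

namespace Crest.Agent.N325.Lt
open Tw

/-- the list is the chain below `a` -/
def Ch (pv : ℕ → ℕ) : ℕ → List ℕ → Prop
  | _, [] => True
  | a, b :: l => pv b = a ∧ Ch pv b l

theorem Ch.congr {pv pv' : ℕ → ℕ} {a : ℕ} {l : List ℕ} (h : Ch pv a l)
    (e : ∀ b ∈ l, pv' b = pv b) : Ch pv' a l := by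
  induction l generalizing a with
  | nil => trivial
  | cons b l ih => exact ⟨(e b (by simp)).trans h.1, ih h.2 fun x hx => e x (by simp [hx])⟩

theorem Ch.mem {pv : ℕ → ℕ} {a : ℕ} {l : List ℕ} (h : Ch pv a l) (n : (a :: l).Nodup) :
    (∀ b ∈ l, pv b ∈ a :: l ∧ pv b ≠ b) ∧ ∀ b ∈ l, ∀ c ∈ l, pv b = pv c → b = c := by
  induction l generalizing a with
  | nil => simp
  | cons x l ih =>
    obtain ⟨n1, n2⟩ := List.nodup_cons.1 n
    obtain ⟨i1, i2⟩ := ih h.2 n2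
    have k : ∀ c ∈ l, pv x ≠ pv c := fun c hc e => n1 (h.1 ▸ e ▸ (i1 c hc).1)
    simp only [List.forall_mem_cons]
    exact ⟨⟨⟨by simp [h.1], fun e => n1 (by simp [← h.1, e])⟩, fun b hb =>
      ⟨List.mem_cons_of_mem _ (i1 b hb).1, (i1 b hb).2⟩⟩, ⟨fun _ => trivial,
      fun c hc e => absurd e (k c hc)⟩, fun b hb => ⟨fun e => absurd e.symm (k b hb), i2 b hb⟩⟩

theorem chain_of {G : Gr} {adj : ℕ → List ℕ} {pv : ℕ → ℕ} (hA : Adj G adj)
    (h : ∀ v, Ch pv (3 * v) (adj v)) : Chain G pv := by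
  have n : ∀ v, (3 * v :: adj v).Nodup := fun v =>
    List.nodup_cons.2 ⟨fun k => (((hA v).2 _).1 k).1.1 (by omega), (hA v).1⟩
  have k : ∀ q, Slot G q → (pv q % 3 = 0 ∨ Slot G (pv q)) ∧ vq G.ed (pv q) = vq G.ed q ∧
      pv q ≠ q := fun q hq => by
    obtain ⟨a, b⟩ := ((h _).mem (n _)).1 q (((hA _).2 q).2 ⟨hq, rfl⟩)
    rcases List.mem_cons.1 a with e | e
    · exact ⟨.inl (by omega), by rw [e, vq_main], b⟩
    · exact ⟨.inr (((hA _).2 _).1 e).1, (((hA _).2 _).1 e).2, b⟩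
  exact ⟨k, fun q q' hq hq' e => ((h _).mem (n _)).2 q (((hA _).2 q).2 ⟨hq, rfl⟩) q'
    (((hA _).2 q').2 ⟨hq', by rw [← (k q' hq').2.1, ← e, (k q hq).2.1]⟩) e⟩

/-- adjacency lists, vertices, chains -/
abbrev Pt := Arr (List ℕ) × List ℕ × Arr ℕ

/-- put the slot `q` in front of the list of `v` -/
def putS (q v : ℕ) (s : Pt) : R Pt := do
  let m ← nat (3 * v)
  pure (s.1.set v (q :: s.1.get v), if s.1.get v = [] then v :: s.2.1 else s.2.1,
    (s.2.2.set ((s.1.get v).headD q) q).set q m)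

/-- **edge table, adjacency lists, vertices, chains** -/
def prepR (l : List (ℕ × Ed)) : R (Arr Ed × Pt) := do
  let ed ← foldP (fun p (s : Arr Ed) => s.set p.1 p.2) l (Arr.cst ⟨0, 0, 0, 0⟩)
  let s ← foldL (fun p s => do
    let q ← nat (3 * p.1)
    let s1 ← putS (q + 1) p.2.a s
    putS (q + 2) p.2.b s1) l (Arr.cst [], [], Arr.cst 0)
  pure (ed, s)

/-- the slots in `A` are done -/
def PI (vx : ℕ → ℕ) (A : ℕ → Prop) (s : Pt) : Prop :=
  (∀ v, (s.1.get v).Nodup ∧ (∀ q, q ∈ s.1.get v ↔ A q ∧ vx q = v) ∧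
    Ch s.2.2.get (3 * v) (s.1.get v)) ∧ s.2.1.Nodup ∧ ∀ v, v ∈ s.2.1 ↔ s.1.get v ≠ []

variable {g : Gl}

theorem sp_putS {vx : ℕ → ℕ} {A : ℕ → Prop} {s : Pt} (h : PI vx A s) {q : ℕ} (hq : ¬A q)
    (hX : 3 * vx q ≤ g.X) :
    Sp g (putS q (vx q) s) fun r t => PI vx (fun x => x = q ∨ A x) r ∧ t = 0 := by
  obtain ⟨h1, h2, h3⟩ := h
  have nq : ∀ v, q ∉ s.1.get v := fun v k => hq (((h1 v).2.1 q).1 k).1
  refine sp_bind.2 (sp_nat.2 ⟨hX, ⟨fun v => ?_, ?_, fun v => ?_⟩, rfl⟩)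
  · by_cases e : v = vx q
    · subst e
      simp only [Arr.get_set_self]
      obtain ⟨a, b, c⟩ := h1 (vx q)
      refine ⟨List.nodup_cons.2 ⟨nq _, a⟩, fun x => ?_, Arr.get_set_self _ _ _, ?_⟩
      · rw [List.mem_cons, b]
        exact ⟨by rintro (rfl | k); exacts [⟨.inl rfl, rfl⟩, ⟨.inr k.1, k.2⟩],
          by rintro ⟨rfl | k, k'⟩; exacts [.inl rfl, .inr ⟨k, k'⟩]⟩
      · have := nq (vx q)
        generalize s.1.get (vx q) = L at *
        cases L with
        | nil => trivial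
        | cons x L =>
          simp only [List.mem_cons, not_or, List.nodup_cons] at this a
          refine ⟨by simp [Arr.get_set, Ne.symm this.1], c.2.congr fun y hy => ?_⟩
          rw [Arr.get_set_ne _ (fun e : y = q => this.2 (e ▸ hy)), List.headD_cons,
            Arr.get_set_ne _ (fun e : y = x => a.1 (e ▸ hy))]
    · simp only [Arr.get_set_ne _ e]
      obtain ⟨a, b, c⟩ := h1 v
      refine ⟨a, fun x => ?_, c.congr fun y hy => ?_⟩
      · rw [b]
        exact ⟨fun k => ⟨.inr k.1, k.2⟩, by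
          rintro ⟨rfl | k, k'⟩; exacts [absurd k'.symm e, ⟨k, k'⟩]⟩
      · have n1 : y ≠ q := fun e => nq v (e ▸ hy)
        rw [Arr.get_set_ne _ n1, Arr.get_set_ne _ fun e' => ?_]
        have := fun x => ((h1 (vx q)).2.1 x).1
        generalize s.1.get (vx q) = L at *
        cases L with
        | nil => exact n1 e'
        | cons x L => exact e (((b y).1 hy).2.symm.trans (this y (by simp [e'])).2)
  · dsimp only
    split_ifs with e
    · exact List.nodup_cons.2 ⟨fun k => (h3 _).1 k e, h2⟩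
    · exact h2
  · dsimp only
    by_cases e : v = vx q
    · subst e
      split_ifs with e <;> simp [h3, e]
    · rw [Arr.get_set_ne _ e, ← h3]
      split_ifs <;> simp [e]

theorem foldl_ed (l : List (ℕ × Ed)) (f : ℕ → Ed) (h : ∀ p ∈ l, f p.1 = p.2) (s : Arr Ed) (e : ℕ)
    (he : e ∈ l.map Prod.fst ∨ s.get e = f e) :
    (l.foldl (fun (s : Arr Ed) p => s.set p.1 p.2) s).get e = f e := by
  induction l generalizing s with
  | nil => simpa using he
  | cons p l ih =>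
    refine ih (fun x hx => h x (by simp [hx])) _ ?_
    by_cases k : e = p.1
    · exact .inr (by rw [k, Arr.get_set_self, h p (by simp)])
    · rw [Arr.get_set_ne _ k]; simpa [k] using he

theorem sp_prepR {G : Gr} {c : Bd} {l : List (ℕ × Ed)} (hG : G.Ok c) (hl : Enum G l)
    (hX : 3 * c.nb ≤ g.X) :
    Sp g (prepR l) fun r t => (∀ e ∈ G.E, r.1.get e = G.ed e) ∧ Adj G r.2.1.get ∧ Vtx G r.2.2.1 ∧
      Chain G r.2.2.2.get ∧ (∀ v, Ch r.2.2.2.get (3 * v) (r.2.1.get v)) ∧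
      t ≤ 2 * l.length + 2 := by
  refine (sp_foldP _ _ _).bind fun ed t1 ⟨h1, k1⟩ => (sp_foldL' (fun l' s => (∀ p ∈ l', p ∈ l) ∧
    (l'.map Prod.fst).Nodup ∧ PI (vq G.ed) (fun q => Slot G q ∧ q / 3 ∉ l'.map Prod.fst) s)
    (fun _ => 0) (fun p l' s ⟨a, b, d⟩ => ?_) (l := l) ⟨fun _ h => h, hl.1, fun v => ?_, ?_⟩).bind
    fun s t2 ⟨⟨_, _, d⟩, k2⟩ => ?_
  · have hp := a p (by simp)
    have hE := (hl.2.1 _).2 (List.mem_map_of_mem (f := Prod.fst) hp)
    obtain ⟨b1, b2, b3, -⟩ := hG.2.2 _ hE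
    have ea : p.2.a = vq G.ed (3 * p.1 + 1) := by rw [vq_a, hl.2.2 p hp]
    have eb : p.2.b = vq G.ed (3 * p.1 + 2) := by rw [vq_b, hl.2.2 p hp]
    rw [hl.2.2 p hp] at b2 b3
    rw [List.map_cons, List.nodup_cons] at b
    refine sp_bind.2 (sp_nat.2 ⟨by omega, ?_⟩)
    rw [ea, eb]
    refine (sp_putS d (fun k => k.2 (by simp [show (3 * p.1 + 1) / 3 = p.1 by omega]))
      (by omega)).bind fun s1 t ⟨d1, k⟩ => (sp_putS d1 (fun k => k.elim (by omega) fun k =>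
        k.2 (by simp [show (3 * p.1 + 2) / 3 = p.1 by omega])) (by omega)).mono
      fun s2 u ⟨d2, k'⟩ => ⟨⟨fun x hx => a x (by simp [hx]), b.2, ?_⟩, by omega⟩
    convert d2 using 2 with q
    rw [List.map_cons, List.mem_cons, not_or]
    constructor
    · rintro ⟨x, y⟩
      by_cases e : q / 3 = p.1
      · have := x.1; omega
      · exact .inr (.inr ⟨x, e, y⟩)
    · rintro (rfl | rfl | ⟨x, -, y⟩)
      · exact ⟨slot_b hE, by rw [show (3 * p.1 + 2) / 3 = p.1 by omega]; exact b.1⟩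
      · exact ⟨slot_a hE, by rw [show (3 * p.1 + 1) / 3 = p.1 by omega]; exact b.1⟩
      · exact ⟨x, y⟩
  · exact ⟨List.nodup_nil, fun q => ⟨fun k => (by cases k),
      fun k => absurd ((hl.2.1 _).1 k.1.1.2) k.1.2⟩, trivial⟩
  · simp
  · have hA : Adj G s.1.get := fun v => ⟨(d.1 v).1, by simpa using (d.1 v).2.1⟩
    refine ⟨fun e he => h1 ▸ foldl_ed l G.ed hl.2.2 _ e (.inl ((hl.2.1 e).1 he)), hA,
      ⟨d.2.1, fun v => ?_⟩, chain_of hA fun v => (d.1 v).2.2, fun v => (d.1 v).2.2, ?_⟩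
    · rw [d.2.2, Ne, List.eq_nil_iff_forall_not_mem]
      simp [(hA v).2]
    · simp at k2; omega

variable {α : Type} [Rp α]

@[fun_prop] theorem impl_putS {q v : α → ℕ} {s : α → Pt} (h1 : Pu true q) (h2 : Pu true v)
    (h3 : Pu true s) : Impl fun a => putS (q a) (v a) (s a) := by impl

@[fun_prop] theorem impl_prepR {l : α → List (ℕ × Ed)} (h : Pu true l) :
    Impl fun a => prepR (l a) := by impl

end Crest.Agent.N325.Lt
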