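import Crest.Agent.N325.Lt.Fill
import Crest.Agent.N325.Lt.Nodes
import Crest.Agent.N325.Lt.Prep
import Crest.Agent.N325.Lt.Covs
import Crest.Agent.N325.Lt.Ok

/-!
# Row 325 (helper29): the program of the lifted forest
-/

set_option autoImplicit false
open Finset

namespace Crest.Agent.N325.Lt
open Tw

/-- **the lifted forest** of the graph with the edge list `l` -/
def liftR (P : Pm) (k B lb : ℕ) (l : List (ℕ × Ed)) : R LF :=
  prepR l >>= fun p => Cv.coversR p.1 p.2.1 p.2.2.1 P k B lb >>= fun C =>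
    nodesR P p.2.1 C >>= fun ord => fillR P p.1 p.2.2.2 C ord >>= fun T => objR P l T

/-- the numeric hypotheses -/
structure LNum (X : ℕ) (P : Pm) (c : Bd) (k B : ℕ) : Prop where
  hP : P.Ok
  hk : 4 * c.m < 2 ^ k
  k1 : 1 ≤ k
  hs : k ≤ P.s
  hβ : 8 * k ≤ P.β
  hl : 2 * c.m * c.lb ≤ P.β * P.ρ ^ P.D
  hB : P.β * P.ρ ^ P.D < 2 ^ B
  X1 : 2 ^ k ≤ X
  X2 : P.β * P.ρ ^ P.D ≤ X
  X3 : (3 * c.nb + 3) * (P.D + 2) * P.S ≤ X
  X4 : 4 * c.m * (P.D + 1) * P.S * (c.lb + 1) ≤ X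
  X5 : 4 * c.m * (P.D + 1) * P.S * c.gb ≤ X

/-- the time -/
def liftT (P : Pm) (m k B : ℕ) : ℕ :=
  (4 * m + 1) * ((P.D + 1) * (P.s * (18 * k * (B + 4) + 44) + 6) +
    (P.D + 1) * P.S * (P.D + 29) + (P.D + 16) * P.S ^ 2 + 16)

variable {G : Gr} {c : Bd} {V : List ℕ} {P : Pm} {g : Gl}

theorem Vtx.length_le (hV : Vtx G V) : V.length ≤ 2 * G.E.card := by
  refine (length_le_card hV.1 id (G.E.image (fun e => (G.ed e).a) ∪ G.E.image fun e => (G.ed e).b)
    (fun x hx => ?_) fun _ _ _ _ e => e).trans ((card_union_le _ _).trans ?_)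
  · obtain ⟨q, s, rfl⟩ := (hV.2 x).1 hx
    have := s.1
    simp only [vq, id, mem_union, mem_image, if_neg s.1]
    split_ifs
    · exact .inl ⟨_, s.2, rfl⟩
    · exact .inr ⟨_, s.2, rfl⟩
  · have := @card_image_le _ _ G.E (fun e => (G.ed e).a) _
    have := @card_image_le _ _ G.E (fun e => (G.ed e).b) _
    omega

theorem Enum.length_eq {l : List (ℕ × Ed)} (h : Enum G l) : l.length = G.E.card := by
  rw [← List.length_map Prod.fst, ← List.toFinset_card_of_nodup h.1]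
  exact congrArg _ (ext fun e => by rw [List.mem_toFinset, h.2.1])

theorem sp_liftR {k B : ℕ} {l : List (ℕ × Ed)} (h : LNum g.X P c k B) (hG : G.Ok c)
    (hl : Enum G l) :
    Sp g (liftR P k B c.lb l) fun T t => T.Ok G P c.m c.nb ∧ t ≤ liftT P c.m k B := by
  have hE : G.E.card ≤ c.m := (card_le_card hG.1).trans hG.2.1
  have hS := h.hP.S_pos
  have x3 : 3 * c.nb ≤ g.X := le_trans (le_trans (Nat.le_add_right _ 3)
    (le_trans (Nat.le_mul_of_pos_right _ (by omega)) (Nat.le_mul_of_pos_right _ hS))) h.X3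
  refine (sp_prepR hG hl x3).bind fun p t1 ⟨he, hA, hV, hp, hch, c1⟩ => ?_
  have v2 := hV.length_le
  have hk := h.hk
  refine (Cv.sp_coversR hV hA hG he h.hP (by omega) h.k1 h.hs h.hβ
    ((Nat.mul_le_mul_right _ (by omega)).trans h.hl) h.hB h.X1 h.X2).bind fun C t2 ⟨hC, c2⟩ =>
    (sp_nodesR hC h.hP hV hA hG hp hch h.X3).bind fun ord t3 ⟨nd, mem, pl, c3⟩ => ?_
  have ln : ord.length ≤ 4 * c.m * (P.D + 1) * P.S := by
    refine (length_le_pos h.hP nd (G.E.biUnion fun e =>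
      {3 * e + 1, 3 * e + 2, 3 * (G.ed e).a, 3 * (G.ed e).b}) fun x hx =>
        ⟨?_, ((mem x).1 hx).1⟩).trans (Nat.mul_le_mul_right _ (Nat.mul_le_mul_right _ ?_))
    · obtain ⟨e, he, k⟩ := ((mem x).1 hx).ps_cases h.hP hV hC
      exact mem_biUnion.2 ⟨e, he, by simpa using k⟩
    · exact (card_biUnion_le_card_mul _ _ 4 fun e _ => card_le_four).trans (by omega)
  refine (sp_fillR h.hP hC hp hG he nd mem pl
    (fun x hx => (((mem x).1 hx).lt h.hP hV hC hG).le.trans h.X3)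
    ((Nat.mul_le_mul_right _ ln).trans h.X4) ((Nat.mul_le_mul_right _ ln).trans h.X5)).bind
      fun T t4 ⟨hT, e, c4⟩ => (sp_objR h.hP hl hT).mono fun T' t5 ⟨k5, c5⟩ =>
        ⟨k5.ok h.hP hV hC hp hG, ?_⟩
  have n : p.2.2.1.length + 2 * G.E.card + 1 ≤ 4 * c.m + 1 := by omega
  have l1 : l.length ≤ c.m := (Enum.length_eq hl).trans_le hE
  have a2 := c2.trans (Nat.mul_le_mul_left _ n)
  have a3 := c3.trans (Nat.mul_le_mul_left _ (Nat.mul_le_mul_left _ n))
  have a5 := Nat.mul_le_mul_right ((P.D + 16) * P.S ^ 2) (show l.length ≤ 4 * c.m + 1 by omega)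
  rw [e] at c5
  unfold liftT
  generalize (P.D + 1) * (P.s * (18 * k * (B + 4) + 44) + 6) = y at *
  generalize (P.D + 16) * P.S ^ 2 = z at *
  rw [mul_assoc (4 * c.m)] at ln
  generalize (P.D + 1) * P.S = w at *
  nlinarith [Nat.zero_le w]

@[fun_prop] theorem impl_liftR {α : Type} [Rp α] {P : α → Pm} {k B lb : α → ℕ}
    {l : α → List (ℕ × Ed)} (h1 : Pu true P) (h2 : Pu true k) (h3 : Pu true B) (h4 : Pu true lb)
    (h5 : Pu true l) : Impl fun a => liftR (P a) (k a) (B a) (lb a) (l a) := by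
  unfold liftR; impl

end Crest.Agent.N325.Lt
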