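import Crest.Agent.N325.Lt.Carve
import Crest.Agent.N325.Lt.Rp
import Crest.Agent.N325.Dj.Impl
import Crest.Agent.N325.Lst.ListImpl

/-!
# Row 325 (helper29): the covers are implementable
-/

set_option autoImplicit false

namespace Crest.Agent.N325.Lt.Cv
open Tw

variable {α : Type} [Rp α]

@[fun_prop] theorem impl_blR {ed : α → Arr Ed} {adj : α → Arr (List ℕ)} {B fu s r : α → ℕ}
    {cen : α → Arr ℕ} (h1 : Pu true ed) (h2 : Pu true adj) (h3 : Pu true B) (h4 : Pu true fu)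
    (h5 : Pu true cen) (h6 : Pu true s) (h7 : Pu true r) :
    Impl fun a => blR (ed a) (adj a) (B a) (fu a) (cen a) (s a) (r a) := by
  unfold blR dgOf; impl

@[fun_prop] theorem impl_growR {bl : α → Arr ℕ → ℕ → ℕ → R Bl} {wt : α → ℕ → ℕ} {q kk v : α → ℕ}
    {cen ys : α → Arr ℕ} (h1 : Impl fun p : α × Arr ℕ × ℕ × ℕ => bl p.1 p.2.1 p.2.2.1 p.2.2.2)
    (h2 : Pu true fun p : α × ℕ => wt p.1 p.2) (h3 : Pu true q) (h4 : Pu true kk)
    (h5 : Pu true cen) (h6 : Pu true ys) (h7 : Pu true v) :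
    Impl fun a => growR (bl a) (wt a) (q a) (kk a) (cen a) (ys a) (v a) := by
  unfold growR tryR; impl

@[fun_prop] theorem impl_colR {bl : α → Arr ℕ → ℕ → ℕ → R Bl} {wt : α → ℕ → ℕ} {q kk : α → ℕ}
    {U : α → List ℕ} (h1 : Impl fun p : α × Arr ℕ × ℕ × ℕ => bl p.1 p.2.1 p.2.2.1 p.2.2.2)
    (h2 : Pu true fun p : α × ℕ => wt p.1 p.2) (h3 : Pu true q) (h4 : Pu true kk)
    (h5 : Pu true U) : Impl fun a => colR (bl a) (wt a) (q a) (kk a) (U a) := by
  unfold colR carve; impl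

@[fun_prop] theorem impl_compsR {bl : α → Arr ℕ → ℕ → ℕ → R Bl} {Q : α → ℕ}
    {U : α → List ℕ} (h1 : Impl fun p : α × Arr ℕ × ℕ × ℕ => bl p.1 p.2.1 p.2.2.1 p.2.2.2)
    (h3 : Pu true Q) (h5 : Pu true U) : Impl fun a => compsR (bl a) (Q a) (U a) := by
  unfold compsR compR; impl

@[fun_prop] theorem impl_degR {adj : α → Arr (List ℕ)} {V : α → List ℕ} (h1 : Pu true adj)
    (h2 : Pu true V) : Impl fun a => degR (adj a) (V a) := by
  unfold degR; impl

@[fun_prop] theorem impl_toCol {c : α → Cl} (h : Pu true c) : Impl fun a => toCol (c a) := by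
  unfold toCol; impl

@[fun_prop] theorem impl_coverR {ed : α → Arr Ed} {adj : α → Arr (List ℕ)} {V : α → List ℕ}
    {s k B r : α → ℕ} (h1 : Pu true ed) (h2 : Pu true adj) (h3 : Pu true V) (h4 : Pu true s)
    (h5 : Pu true k) (h6 : Pu true B) (h7 : Pu true r) :
    Impl fun a => coverR (ed a) (adj a) (V a) (s a) (k a) (B a) (r a) := by
  unfold coverR col0; impl

@[fun_prop] theorem impl_topR {ed : α → Arr Ed} {adj : α → Arr (List ℕ)} {V : α → List ℕ}
    {B lb : α → ℕ} (h1 : Pu true ed) (h2 : Pu true adj) (h3 : Pu true V) (h4 : Pu true B)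
    (h5 : Pu true lb) : Impl fun a => topR (ed a) (adj a) (V a) (B a) (lb a) := by
  unfold topR; impl

end Crest.Agent.N325.Lt.Cv
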