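import Crest.Agent.N325.Lt.Defs

/-!
# Row 325 (helper91): codes of nodes, ancestors, basic facts on colours
-/

set_option autoImplicit false
open Finset

namespace Crest.Agent.N325.Lt
open Tw

namespace Pm
variable (P : Pm)

theorem cd_nd {p i w : ℕ} (hw : w < P.S) : P.cd (P.nd p i w) = w := by
  unfold cd nd
  rw [Nat.mul_comm, Nat.mul_add_mod, Nat.mod_eq_of_lt hw]

theorem div_nd {p i w : ℕ} (hw : w < P.S) : P.nd p i w / P.S = p * (P.D + 2) + i := by
  unfold nd
  rw [Nat.mul_comm, Nat.mul_add_div (by omega), Nat.div_eq_of_lt hw, add_zero]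

theorem lv_nd {p i w : ℕ} (hw : w < P.S) (hi : i < P.D + 2) : P.lv (P.nd p i w) = i := by
  unfold lv
  rw [P.div_nd hw, Nat.mul_comm, Nat.mul_add_mod, Nat.mod_eq_of_lt hi]

theorem ps_nd {p i w : ℕ} (hw : w < P.S) (hi : i < P.D + 2) : P.ps (P.nd p i w) = p := by
  unfold ps
  rw [P.div_nd hw, Nat.mul_comm, Nat.mul_add_div (by omega), Nat.div_eq_of_lt hi, add_zero]

theorem nd_eta (x : ℕ) : P.nd (P.ps x) (P.lv x) (P.cd x) = x := by
  unfold nd ps lv cd
  rw [Nat.div_add_mod', Nat.div_add_mod']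

theorem lv_lt (x : ℕ) : P.lv x < P.D + 2 := Nat.mod_lt _ (by omega)

theorem Ok.S_pos {P : Pm} (h : P.Ok) : 0 < P.S := by
  rw [h.hS]; exact pow_pos (by have := h.s1; omega) _

theorem cd_lt {P : Pm} (h : P.Ok) (x : ℕ) : P.cd x < P.S := Nat.mod_lt _ h.S_pos

theorem nd_inj {p i w p' i' w' : ℕ} (hw : w < P.S) (hi : i < P.D + 2) (hw' : w' < P.S)
    (hi' : i' < P.D + 2) (h : P.nd p i w = P.nd p' i' w') : p = p' ∧ i = i' ∧ w = w' := by
  refine ⟨?_, ?_, ?_⟩
  · rw [← P.ps_nd (p := p) hw hi, h, P.ps_nd hw' hi']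
  · rw [← P.lv_nd (p := p) hw hi, h, P.lv_nd hw' hi']
  · rw [← P.cd_nd (p := p) (i := i) hw, h, P.cd_nd hw']

theorem ext {x y : ℕ} (h1 : P.ps x = P.ps y) (h2 : P.lv x = P.lv y) (h3 : P.cd x = P.cd y) :
    x = y := by
  rw [← P.nd_eta x, h1, h2, h3, P.nd_eta]

end Pm

/-! ## ancestors -/

section anc
variable {par : ℕ → ℕ} {x y z : ℕ}

theorem Anc.refl (par : ℕ → ℕ) (x : ℕ) : Anc par x x := ⟨0, rfl⟩
theorem Anc.one (par : ℕ → ℕ) (x : ℕ) : Anc par x (par x) := ⟨1, rfl⟩
theorem Anc.trans (h : Anc par x y) (h' : Anc par y z) : Anc par x z := by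
  obtain ⟨k, rfl⟩ := h
  obtain ⟨j, rfl⟩ := h'
  exact ⟨j + k, Function.iterate_add_apply _ _ _ _⟩
theorem Anc.of_par (h : Anc par (par x) y) : Anc par x y := (Anc.one par x).trans h
theorem Anc.cases (h : Anc par x y) : x = y ∨ Anc par (par x) y := by
  obtain ⟨k, rfl⟩ := h
  cases k with
  | zero => exact Or.inl rfl
  | succ k => exact Or.inr ⟨k, rfl⟩
theorem Anc.total (h : Anc par x y) (h' : Anc par x z) : Anc par y z ∨ Anc par z y := by
  obtain ⟨k, rfl⟩ := h
  obtain ⟨j, rfl⟩ := h'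
  rcases le_total k j with hk | hk
  · obtain ⟨d, rfl⟩ := Nat.exists_eq_add_of_le' hk
    exact Or.inl ⟨d, (Function.iterate_add_apply _ _ _ _).symm⟩
  · obtain ⟨d, rfl⟩ := Nat.exists_eq_add_of_le' hk
    exact Or.inr ⟨d, (Function.iterate_add_apply _ _ _ _).symm⟩

/-- induction along the ancestors -/
theorem Anc.ind {Q : ℕ → Prop} (h : Anc par x y) (h0 : Q x) (hs : ∀ z, Q z → Q (par z)) : Q y := by
  obtain ⟨k, rfl⟩ := h
  induction k with
  | zero => exact h0
  | succ k ih => rw [Function.iterate_succ_apply']; exact hs _ ih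

theorem PL.par_mem {l : List ℕ} (h : PL par l) (hx : x ∈ l) : par x ∈ l := by
  induction l with
  | nil => cases hx
  | cons a l ih =>
    rcases List.mem_cons.1 hx with rfl | hx
    · rcases h.1 with e | e
      · rw [e]; exact List.mem_cons_self
      · exact List.mem_cons_of_mem _ e
    · exact List.mem_cons_of_mem _ (ih h.2 hx)

theorem PL.anc_mem {l : List ℕ} (h : PL par l) (hx : x ∈ l) (ha : Anc par x y) : y ∈ l :=
  ha.ind (Q := fun z => z ∈ l) hx fun _ hz => h.par_mem hz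

/-- induction from the roots -/
theorem PL.ind {l : List ℕ} (h : PL par l) {Q : ℕ → Prop}
    (hs : ∀ x ∈ l, (par x ≠ x → Q (par x)) → Q x) : ∀ x ∈ l, Q x := by
  induction l with
  | nil => intro x hx; cases hx
  | cons a l ih =>
    have hl := ih h.2 fun x hx => hs x (List.mem_cons_of_mem _ hx)
    intro x hx
    rcases List.mem_cons.1 hx with rfl | hx
    · refine hs _ List.mem_cons_self fun hne => ?_
      exact hl _ (h.1.resolve_left hne)
    · exact hl x hx

end anc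

/-! ## positions -/

theorem vq_main (ed : ℕ → Ed) (v : ℕ) : vq ed (3 * v) = v := by
  unfold vq; rw [if_pos (by omega)]; omega
theorem vq_a (ed : ℕ → Ed) (e : ℕ) : vq ed (3 * e + 1) = (ed e).a := by
  unfold vq; rw [if_neg (by omega), if_pos (by omega), show (3 * e + 1) / 3 = e by omega]
theorem vq_b (ed : ℕ → Ed) (e : ℕ) : vq ed (3 * e + 2) = (ed e).b := by
  unfold vq; rw [if_neg (by omega), if_neg (by omega), show (3 * e + 2) / 3 = e by omega]
theorem vq_of_main (ed : ℕ → Ed) {p : ℕ} (h : p % 3 = 0) : vq ed p = p / 3 := if_pos h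
theorem opp_div {q : ℕ} (h : q % 3 ≠ 0) : opp q / 3 = q / 3 := by unfold opp; split_ifs <;> omega
theorem opp_mod {q : ℕ} (h : q % 3 ≠ 0) : opp q % 3 ≠ 0 := by unfold opp; split_ifs <;> omega
theorem opp_opp {q : ℕ} (h : q % 3 ≠ 0) : opp (opp q) = q := by unfold opp; split_ifs <;> omega
theorem opp_a (e : ℕ) : opp (3 * e + 1) = 3 * e + 2 := by unfold opp; split_ifs <;> omega
theorem opp_b (e : ℕ) : opp (3 * e + 2) = 3 * e + 1 := by unfold opp; split_ifs <;> omega
theorem Slot.opp {G : Gr} {q : ℕ} (h : Slot G q) : Slot G (opp q) :=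
  ⟨opp_mod h.1, by rw [opp_div h.1]; exact h.2⟩
theorem slot_a {G : Gr} {e : ℕ} (h : e ∈ G.E) : Slot G (3 * e + 1) :=
  ⟨by omega, by rw [show (3 * e + 1) / 3 = e by omega]; exact h⟩
theorem slot_b {G : Gr} {e : ℕ} (h : e ∈ G.E) : Slot G (3 * e + 2) :=
  ⟨by omega, by rw [show (3 * e + 2) / 3 = e by omega]; exact h⟩

/-! ## walks -/

theorem Near.trans {G : Gr} {u v x d d' : ℕ} (h : Near G u v d) (h' : Near G v x d') :
    Near G u x (d + d') := by
  induction h' with
  | refl => exact h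
  | step hq _ ih => rw [← add_assoc]; exact Near.step hq ih

theorem Near.one {G : Gr} {q : ℕ} (hq : Slot G q) :
    Near G (vq G.ed q) (vq G.ed (opp q)) (G.ed (q / 3)).l := by
  have := Near.step hq (Near.refl (G := G) (u := vq G.ed q))
  rwa [zero_add] at this

theorem Near.symm {G : Gr} {u v d : ℕ} (h : Near G u v d) : Near G v u d := by
  induction h with
  | refl => exact Near.refl
  | step hq _ ih =>
    have h1 := Near.one hq.opp
    rw [opp_opp hq.1, opp_div hq.1] at h1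
    rw [add_comm]; exact h1.trans ih

/-- all lengths are positive -/
def Pos (G : Gr) : Prop := ∀ e ∈ G.E, 1 ≤ (G.ed e).l

theorem pos_of_ok {G : Gr} {c : Bd} (h : G.Ok c) : Pos G := fun e he => (h.2.2 e he).2.2.2.1

/-! ## colours -/

namespace Col.Ok
variable {G : Gr} {V : List ℕ} {Rd : ℕ} {K : Col}

theorem cen (h : K.Ok G V Rd) (hp : Pos G) : ∀ x ∈ K.ord, K.cen.get x ∈ K.ord ∧
    K.cen.get (K.cen.get x) = K.cen.get x ∧ Near G x (K.cen.get x) (K.dep.get x) := by
  refine h.pl.ind fun x hx ih => ?_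
  by_cases hc : K.cen.get x = x
  · rw [hc, h.ctr x hx hc]; exact ⟨hx, hc, Near.refl⟩
  · obtain ⟨h1, h2, h3, h4, h5⟩ := h.tree x hx hc
    have hu : K.up G.ed x = vq G.ed (K.pq.get x) := if_neg hc
    by_cases he : vq G.ed (K.pq.get x) = x
    · have := hp _ h1.2
      rw [he] at h5; omega
    · rw [hu] at ih
      obtain ⟨i1, i2, i3⟩ := ih he
      rw [h4] at i1 i2 i3
      refine ⟨i1, i2, ?_⟩
      have h6 := (Near.one h1).symm
      rw [h2] at h6
      rw [h5, add_comm]; exact h6.trans i3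

end Col.Ok

end Crest.Agent.N325.Lt
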