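import Crest.Agent.N325.Lt.Code

/-!
# Row 325 (helper91): the coupling on one scale, the padding weights
-/

set_option autoImplicit false
open Finset

namespace Crest.Agent.N325.Lt
open Tw

/-- `y` lies in the convex hull of the values -/
def Hull (S : ℝ → Prop) (y : ℝ) : Prop :=
  (∀ lo, (∀ a, S a → lo ≤ a) → lo ≤ y) ∧ ∀ hi, (∀ a, S a → a ≤ hi) → y ≤ hi

theorem Hull.mono {S S' : ℝ → Prop} {y : ℝ} (h : Hull S y) (k : ∀ a, S a → S' a) : Hull S' y :=
  ⟨fun lo h' => h.1 lo fun a ha => h' a (k a ha), fun hi h' => h.2 hi fun a ha => h' a (k a ha)⟩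

theorem Hull.self {S : ℝ → Prop} {y : ℝ} (h : S y) : Hull S y := ⟨fun _ k => k y h, fun _ k => k y h⟩

theorem Hull.pair {S S' : ℝ → Prop} {y y' γ B : ℝ} (h : Hull S y) (h' : Hull S' y')
    (k : ∀ a b, S a → S' b → |γ - (b - a)| ≤ B) : |γ - (y' - y)| ≤ B := by
  rw [abs_le]
  constructor
  · have : y' ≤ B + γ + y := h'.2 _ fun b hb => by
      have : b - γ - B ≤ y := h.1 _ fun a ha => by have := (abs_le.1 (k a b ha hb)).1; linarith
      linarith
    linarith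
  · have : y + γ - B ≤ y' := h'.1 _ fun b hb => by
      have : y ≤ B - γ + b := h.2 _ fun a ha => by have := (abs_le.1 (k a b ha hb)).2; linarith
      linarith
    linarith

theorem Hull.avg {S : ℝ → Prop} {s : Finset ℕ} {p F : ℕ → ℝ} (h0 : ∀ c ∈ s, 0 ≤ p c)
    (h1 : ∑ c ∈ s, p c = 1) (h : ∀ c ∈ s, p c ≠ 0 → Hull S (F c)) : Hull S (∑ c ∈ s, p c * F c) := by
  constructor
  · intro lo k
    calc lo = ∑ c ∈ s, p c * lo := by rw [← sum_mul, h1, one_mul]
      _ ≤ _ := sum_le_sum fun c hc => by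
        by_cases hp : p c = 0
        · simp [hp]
        · exact mul_le_mul_of_nonneg_left ((h c hc hp).1 lo k) (h0 c hc)
  · intro hi k
    calc _ ≤ ∑ c ∈ s, p c * hi := sum_le_sum fun c hc => by
          by_cases hp : p c = 0
          · simp [hp]
          · exact mul_le_mul_of_nonneg_left ((h c hc hp).2 hi k) (h0 c hc)
      _ = hi := by rw [← sum_mul, h1, one_mul]

theorem mass_pair {s : Finset ℕ} {p q F H : ℕ → ℝ} {γ B τ : ℝ} (hp : ∀ c ∈ s, 0 ≤ p c)
    (hq : ∀ c ∈ s, 0 ≤ q c) (h1 : ∑ c ∈ s, p c = τ) (h2 : ∑ c ∈ s, q c = τ)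
    (k : ∀ c ∈ s, ∀ c' ∈ s, p c ≠ 0 → q c' ≠ 0 → |γ - (H c' - F c)| ≤ B) :
    |τ * γ - (∑ c ∈ s, q c * H c - ∑ c ∈ s, p c * F c)| ≤ τ * B := by
  have hτ : 0 ≤ τ := h1 ▸ sum_nonneg hp
  rcases hτ.eq_or_lt with h0 | h0
  · have e1 := (sum_eq_zero_iff_of_nonneg hp).1 (h1.trans h0.symm)
    have e2 := (sum_eq_zero_iff_of_nonneg hq).1 (h2.trans h0.symm)
    rw [sum_eq_zero fun c hc => by rw [e2 c hc, zero_mul],
      sum_eq_zero fun c hc => by rw [e1 c hc, zero_mul], ← h0]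
    simp
  · have a1 : Hull (fun a => ∃ c ∈ s, p c ≠ 0 ∧ a = F c) (∑ c ∈ s, p c / τ * F c) :=
      Hull.avg (fun c hc => div_nonneg (hp c hc) hτ) (by rw [← sum_div, h1, div_self h0.ne'])
        fun c hc h => Hull.self ⟨c, hc, fun e => h (by rw [e, zero_div]), rfl⟩
    have a2 : Hull (fun a => ∃ c ∈ s, q c ≠ 0 ∧ a = H c) (∑ c ∈ s, q c / τ * H c) :=
      Hull.avg (fun c hc => div_nonneg (hq c hc) hτ) (by rw [← sum_div, h2, div_self h0.ne'])
        fun c hc h => Hull.self ⟨c, hc, fun e => h (by rw [e, zero_div]), rfl⟩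
    have := a1.pair a2 (γ := γ) (B := B) (by
      rintro a b ⟨c, hc, h, rfl⟩ ⟨c', hc', h', rfl⟩
      exact k c hc c' hc' h h')
    have e : τ * γ - (∑ c ∈ s, q c * H c - ∑ c ∈ s, p c * F c) =
        τ * (γ - (∑ c ∈ s, q c / τ * H c - ∑ c ∈ s, p c / τ * F c)) := by
      rw [mul_sub, mul_sub, mul_sum, mul_sum]
      congr 2 <;> refine sum_congr rfl fun c _ => ?_ <;> field_simp
    rw [e, abs_mul, abs_of_pos h0]
    exact mul_le_mul_of_nonneg_left this hτ

/-- **the coupling on one scale** -/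
theorem coup {s : Finset ℕ} {p q F H : ℕ → ℝ} {γ A B τ : ℝ} (hp : ∀ c ∈ s, 0 ≤ p c)
    (hq : ∀ c ∈ s, 0 ≤ q c) (h1 : ∑ c ∈ s, p c = 1) (h2 : ∑ c ∈ s, q c = 1) (hA : 0 ≤ A)
    (hB : 0 ≤ B) (hτ : 1 - τ ≤ ∑ c ∈ s, min (p c) (q c))
    (kA : ∀ c ∈ s, p c ≠ 0 → q c ≠ 0 → |γ - (H c - F c)| ≤ A)
    (kB : ∀ c ∈ s, ∀ c' ∈ s, p c ≠ 0 → q c' ≠ 0 → |γ - (H c' - F c)| ≤ B) :
    |γ - (∑ c ∈ s, q c * H c - ∑ c ∈ s, p c * F c)| ≤ A + τ * B := by
  set μ := ∑ c ∈ s, min (p c) (q c) with hμ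
  have m0 : ∀ c ∈ s, 0 ≤ min (p c) (q c) := fun c hc => le_min (hp c hc) (hq c hc)
  have hμ1 : μ ≤ 1 := h1 ▸ sum_le_sum fun c _ => min_le_left _ _
  have e2 := mass_pair (s := s) (p := fun c => p c - min (p c) (q c))
    (q := fun c => q c - min (p c) (q c)) (F := F) (H := H) (γ := γ) (B := B) (τ := 1 - μ)
    (fun c _ => sub_nonneg.2 (min_le_left _ _)) (fun c _ => sub_nonneg.2 (min_le_right _ _))
    (by rw [sum_sub_distrib, h1]) (by rw [sum_sub_distrib, h2]) fun c hc c' hc' a b =>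
      kB c hc c' hc' (fun e => a (by rw [e, min_eq_left (hq c hc), sub_zero]))
        fun e => b (by rw [e, min_eq_right (hp c' hc'), sub_zero])
  have e1 : |∑ c ∈ s, min (p c) (q c) * (γ - (H c - F c))| ≤ A := by
    refine (abs_sum_le_sum_abs _ _).trans ?_
    calc _ ≤ ∑ c ∈ s, min (p c) (q c) * A := sum_le_sum fun c hc => by
          rw [abs_mul, abs_of_nonneg (m0 c hc)]
          by_cases h : min (p c) (q c) = 0
          · simp [h]
          · refine mul_le_mul_of_nonneg_left (kA c hc (fun e => h ?_) fun e => h ?_) (m0 c hc)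
            · rw [e, min_eq_left (hq c hc)]
            · rw [e, min_eq_right (hp c hc)]
      _ = μ * A := by rw [← sum_mul]
      _ ≤ A := mul_le_of_le_one_left hA hμ1
  have e : γ - (∑ c ∈ s, q c * H c - ∑ c ∈ s, p c * F c) =
      ∑ c ∈ s, min (p c) (q c) * (γ - (H c - F c)) + ((1 - μ) * γ -
        (∑ c ∈ s, (q c - min (p c) (q c)) * H c - ∑ c ∈ s, (p c - min (p c) (q c)) * F c)) := by
    simp only [mul_sub, sub_mul, sum_sub_distrib, ← sum_mul, ← hμ]
    ring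
  rw [e]
  refine (abs_add_le _ _).trans (add_le_add e1 (e2.trans ?_))
  exact mul_le_mul_of_nonneg_right (by linarith) hB

theorem tv_le {s : Finset ℕ} {a b : ℕ → ℝ} {l r : ℝ} (ha : ∀ c ∈ s, 0 ≤ a c) (hb : ∀ c ∈ s, 0 ≤ b c)
    (hr : 0 < r) (hl : 0 ≤ l) (h1 : r ≤ ∑ c ∈ s, a c) (h2 : r ≤ ∑ c ∈ s, b c)
    (k1 : ∀ c ∈ s, a c ≤ b c + l) (k2 : ∀ c ∈ s, b c ≤ a c + l) :
    1 - s.card * l / r ≤ ∑ c ∈ s, min (a c / ∑ c ∈ s, a c) (b c / ∑ c ∈ s, b c) := by
  set A := ∑ c ∈ s, a c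
  set B := ∑ c ∈ s, b c
  have hM : 0 < max A B := lt_max_of_lt_left (hr.trans_le h1)
  have e1 : ∑ c ∈ s, min (a c) (b c) / max A B ≤ ∑ c ∈ s, min (a c / A) (b c / B) :=
    sum_le_sum fun c hc => le_min
      (div_le_div₀ (ha c hc) (min_le_left _ _) (hr.trans_le h1) (le_max_left _ _))
      (div_le_div₀ (hb c hc) (min_le_right _ _) (hr.trans_le h2) (le_max_right _ _))
  have e2 : max A B - s.card * l ≤ ∑ c ∈ s, min (a c) (b c) := by
    rw [sub_le_iff_le_add, max_le_iff]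
    have : (s.card : ℝ) * l = ∑ c ∈ s, l := by simp
    rw [this, ← sum_add_distrib]
    exact ⟨sum_le_sum fun c hc => by
        rw [← sub_le_iff_le_add]; exact le_min (by linarith) (by linarith [k1 c hc]),
      sum_le_sum fun c hc => by
        rw [← sub_le_iff_le_add]; exact le_min (by linarith [k2 c hc]) (by linarith)⟩
  refine le_trans ?_ e1
  rw [← sum_div, le_div_iff₀ hM]
  refine le_trans ?_ e2
  have : (s.card : ℝ) * l ≤ s.card * l / r * max A B := by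
    rw [div_mul_eq_mul_div, le_div_iff₀ hr]
    exact mul_le_mul_of_nonneg_left (h1.trans (le_max_left _ _)) (by positivity)
  linarith

/-- the ball of radius `t` about `v` lies in the cluster of `v` -/
def Pd (G : Gr) (K : Col) (v t : ℕ) : Prop :=
  ∀ x d, Near G v x d → d ≤ t → x ∈ K.ord ∧ K.cen.get x = K.cen.get v

open Classical in
/-- the padding weight -/
noncomputable def phi (G : Gr) (K : Col) (r v : ℕ) : ℕ := Nat.findGreatest (Pd G K v) (2 * r) - r

theorem Pd.mono {G : Gr} {K : Col} {v t t' : ℕ} (h : Pd G K v t) (k : t' ≤ t) : Pd G K v t' :=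
  fun x d a b => h x d a (b.trans k)

theorem pd_of_phi {G : Gr} {K : Col} {r v : ℕ} (h : phi G K r v ≠ 0) : Pd G K v r := by
  classical
  unfold phi at h
  have h1 : Pd G K v (Nat.findGreatest (Pd G K v) (2 * r)) :=
    Nat.findGreatest_of_ne_zero rfl (by omega)
  exact h1.mono (by omega)

theorem phi_eq {G : Gr} {K : Col} {r v : ℕ} (h : Pd G K v (2 * r)) : phi G K r v = r := by
  classical
  unfold phi
  rw [Nat.findGreatest_eq h]; omega

theorem phi_lip {G : Gr} {K : Col} {r u v l : ℕ} (h : Near G u v l) :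
    phi G K r u ≤ phi G K r v + l := by
  classical
  unfold phi
  by_cases h0 : Nat.findGreatest (Pd G K u) (2 * r) ≤ l
  · omega
  · have h1 : Pd G K u (Nat.findGreatest (Pd G K u) (2 * r)) :=
      Nat.findGreatest_of_ne_zero rfl (by omega)
    have h2 : Pd G K v (Nat.findGreatest (Pd G K u) (2 * r) - l) := fun x d a b => by
      obtain ⟨k1, k2⟩ := h1 x _ (h.trans a) (by omega)
      exact ⟨k1, k2.trans (h1 v l h (by omega)).2.symm⟩
    have h3 := Nat.le_findGreatest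
      ((Nat.sub_le _ _).trans (Nat.findGreatest_le (P := Pd G K u) (2 * r))) h2
    omega

end Crest.Agent.N325.Lt
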