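import Crest.Agent.N325.Lt.Rt
import Crest.Agent.N325.Lt.Cpl0

/-!
# Row 325 (helper91): the coupling lemma of the lifted forest
-/

set_option autoImplicit false
open Finset

namespace Crest.Agent.N325.Lt
open Tw

section defs
variable (G : Gr) (P : Pm) (C : ℕ → ℕ → Col)

/-- the weight of the colour `c` at `v` on level `i` -/
noncomputable def wt (i v c : ℕ) : ℝ :=
  (phi G (C i c) (P.ρ ^ i) v : ℝ) / ∑ c ∈ range P.s, (phi G (C i c) (P.ρ ^ i) v : ℝ)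

/-- the average of `ζ` over the copies of `v` below the code `w` of level `i` -/
noncomputable def Ya (ζ : ℕ → ℝ) (v : ℕ) : ℕ → ℕ → ℝ
  | 0, w => ζ (P.nd (3 * v) 0 w)
  | i + 1, w => ∑ c ∈ range P.s, wt G P C i v c * Ya ζ v i (w * P.s + c)

/-- `(v, w)` exists on level `i` and is padded -/
def Pad (i v w : ℕ) : Prop := val P C (P.D - i) i v w ∧ Pd G (C i (w % P.s)) v (P.ρ ^ i)

/-- the main copies of `v` below the level root of `(v, w)` -/
def Cp (T : LF) (v i w x : ℕ) : Prop := x ∈ T.ord ∧ P.ps x = 3 * v ∧ P.lv x = 0 ∧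
  P.nd (3 * (C i (w % P.s)).cen.get v) i w ∈ rtF G.ed P C x

end defs

theorem code_mod {s w c : ℕ} (h : c < s) : (w * s + c) % s = c := by
  rw [Nat.mul_comm, Nat.mul_add_mod, Nat.mod_eq_of_lt h]
theorem code_div {s w c : ℕ} (h : c < s) : (w * s + c) / s = w := by
  rw [Nat.mul_comm, Nat.mul_add_div (by omega), Nat.div_eq_of_lt h, add_zero]

theorem Near.mem {G : Gr} {V : List ℕ} (hV : Vtx G V) {v x d : ℕ} (hv : v ∈ V) (h : Near G v x d) :
    x ∈ V := by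
  cases h with
  | refl => exact hv
  | step hq _ => exact (hV.2 _).2 ⟨_, hq.opp, rfl⟩

namespace Cx
variable {G : Gr} {V : List ℕ} {P : Pm} {C : ℕ → ℕ → Col} {pv : ℕ → ℕ} {T : LF}
  (X : Cx G V P C pv T)
include X

theorem rho_pos (i : ℕ) : 1 ≤ P.ρ ^ i := Nat.one_le_pow _ _ (by have := X.hP.ρ2; omega)

theorem sum_phi {i v : ℕ} (hi : i < P.D) (hv : v ∈ V) :
    ((P.ρ ^ i : ℕ) : ℝ) ≤ ∑ c ∈ range P.s, (phi G (C i c) (P.ρ ^ i) v : ℝ) := by
  obtain ⟨c, hc, h⟩ := (X.hC.1 i hi).2 v hv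
  have := single_le_sum (f := fun c => (phi G (C i c) (P.ρ ^ i) v : ℝ))
    (fun _ _ => Nat.cast_nonneg _) (mem_range.2 hc)
  rwa [phi_eq h] at this

omit X in
theorem wt_nonneg (i v c : ℕ) : 0 ≤ wt G P C i v c :=
  div_nonneg (Nat.cast_nonneg _) (sum_nonneg fun _ _ => Nat.cast_nonneg _)

theorem sum_wt {i v : ℕ} (hi : i < P.D) (hv : v ∈ V) : ∑ c ∈ range P.s, wt G P C i v c = 1 := by
  have h := X.sum_phi hi hv
  have h1 : (0 : ℝ) < ((P.ρ ^ i : ℕ) : ℝ) := by exact_mod_cast X.rho_pos i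
  unfold wt
  rw [← sum_div, div_self (h1.trans_le h).ne']

omit X in
theorem pd_of_wt {i v c : ℕ} (h : wt G P C i v c ≠ 0) : Pd G (C i c) v (P.ρ ^ i) :=
  pd_of_phi fun e => h (by rw [wt, e]; simp)

theorem pad_mem {i v w : ℕ} (hi : i ≤ P.D) (h : Pad G P C i v w) : v ∈ V :=
  have h' := val_col X.hC X.hP h.1 (by omega)
  h'.1.sub _ h'.2.1

theorem pad_top {v : ℕ} (hv : v ∈ V) : Pad G P C P.D v 0 := by
  refine ⟨by rw [Nat.sub_self]; exact ⟨X.hC.2.2.1 v hv, rfl⟩, fun x d h _ => ?_⟩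
  rw [Nat.zero_mod]
  exact ⟨X.hC.2.2.1 x (h.mem X.hV hv), top_near X.hC h⟩

theorem cen_pad {i v w c : ℕ} (hi : i < P.D) (h : Pad G P C (i + 1) v w) (hc : c < P.s)
    (hp : Pd G (C i c) v (P.ρ ^ i)) : (C i c).cen.get v ∈ (C (i + 1) (w % P.s)).ord ∧
      (C (i + 1) (w % P.s)).cen.get ((C i c).cen.get v) = (C (i + 1) (w % P.s)).cen.get v := by
  have hk := (X.hC.1 i hi).1 c hc
  have hv := (hp v 0 Near.refl (Nat.zero_le _)).1
  refine h.2 _ _ (hk.cen X.pos v hv).2.2 ((hk.rad v hv).trans ?_)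
  rw [pow_succ']; exact Nat.mul_le_mul_right _ X.hP.βρ

theorem pad_step {i v w c : ℕ} (hi : i < P.D) (h : Pad G P C (i + 1) v w) (hc : c < P.s)
    (hp : Pd G (C i c) v (P.ρ ^ i)) : Pad G P C i v (w * P.s + c) := by
  obtain ⟨h1, h2⟩ := X.cen_pad hi h hc hp
  refine ⟨?_, by rwa [code_mod hc]⟩
  rw [show P.D - i = P.D - (i + 1) + 1 by omega, val, code_mod hc, code_div hc]
  exact ⟨(hp v 0 Near.refl (Nat.zero_le _)).1, val_congr h.1 h1 h2⟩

theorem cp_zero {v w : ℕ} (h : Pad G P C 0 v w) : Cp G P C T v 0 w (P.nd (3 * v) 0 w) := by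
  have hw := val_lt X.hC X.hP h.1 (by omega)
  refine ⟨X.nd_mem (Nat.zero_le _) (Or.inl (by omega)) (by rw [vq_main]; exact h.1),
    P.ps_nd hw (by omega), P.lv_nd hw (by omega), ?_⟩
  rw [rtF, P.ps_nd hw (by omega), P.lv_nd hw (by omega), P.cd_nd hw, vq_main, Nat.sub_zero, rts]
  exact List.mem_cons_self

theorem cp_step {i v w c x : ℕ} (hi : i < P.D) (h : Pad G P C (i + 1) v w) (hc : c < P.s)
    (hp : Pd G (C i c) v (P.ρ ^ i)) (hx : Cp G P C T v i (w * P.s + c) x) :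
    Cp G P C T v (i + 1) w x := by
  obtain ⟨h1, h2, h3, h4⟩ := hx
  refine ⟨h1, h2, h3, ((X.rt_spec x h1).2 _ h4).2.2 _ ?_⟩
  have hw := val_lt X.hC X.hP (X.pad_step hi h hc hp).1 (by omega)
  have hk := (X.hC.1 i hi).1 c hc
  have hv := (hp v 0 Near.refl (Nat.zero_le _)).1
  rw [rtF, P.ps_nd hw (by omega), P.lv_nd hw (by omega), P.cd_nd hw, vq_main,
    show P.D + 1 - i = P.D - (i + 1) + 1 + 1 by omega, rts, rts, code_mod hc, code_div hc,
    (hk.cen X.pos v hv).2.1, (X.cen_pad hi h hc hp).2]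
  exact List.mem_cons_of_mem _ List.mem_cons_self

theorem hull (ζ : ℕ → ℝ) (v : ℕ) {i : ℕ} (hi : i ≤ P.D) {w : ℕ} (h : Pad G P C i v w) :
    Hull (fun a => ∃ x, Cp G P C T v i w x ∧ a = ζ x) (Ya G P C ζ v i w) := by
  induction i generalizing w with
  | zero => exact Hull.self ⟨_, X.cp_zero h, rfl⟩
  | succ i ih =>
    rw [Ya]
    refine Hull.avg (fun c _ => wt_nonneg i v c) (X.sum_wt (by omega) (X.pad_mem hi h))
      fun c hc hw => ?_
    have hp := pd_of_wt hw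
    refine (ih (by omega) (X.pad_step (by omega) h (mem_range.1 hc) hp)).mono ?_
    rintro a ⟨x, hx, rfl⟩
    exact ⟨x, X.cp_step (by omega) h (mem_range.1 hc) hp hx, rfl⟩

/-- the slot below a main node -/
theorem slot {x q : ℕ} (hx : x ∈ T.ord) (hq : Slot G q) (h : P.ps x = 3 * vq G.ed q) :
    ∃ y ∈ T.ord, P.ps y = q ∧ P.lv y = P.lv x ∧ T.nm.get y = x := by
  have hn := X.node hx
  have hw := Pm.cd_lt X.hP x
  have hl := P.lv_lt x
  have hy : P.nd q (P.lv x) (P.cd x) ∈ T.ord :=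
    X.nd_mem hn.1 (Or.inr hq) (by have := hn.2.2; rwa [h, vq_main] at this)
  refine ⟨_, hy, P.ps_nd hw hl, P.lv_nd hw hl, ?_⟩
  obtain ⟨h1, h2, h3⟩ := X.ps_nm hy
  refine P.ext ?_ ?_ ?_
  · rw [h1, P.ps_nd hw hl, h]
  · rw [h2, P.lv_nd hw hl]
  · rw [h3, P.cd_nd hw]

variable {ζ : ℕ → ℝ} (hζ : ∀ x ∈ T.ord, ζ x = ζ (T.nm.get x)) {e : ℕ} (he : e ∈ G.E) {γ θ : ℝ}
  (hθ : 0 ≤ θ) (ho : ∀ o ∈ T.obj, o.1 = e → |γ - (ζ o.2.2.1 - ζ o.2.1)| ≤ θ * T.lam G.ed o)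
include hζ he hθ ho

theorem pairB {i w x y : ℕ} (hi : i ≤ P.D) (hw : w < P.S)
    (hc : (C i (w % P.s)).cen.get (G.ed e).a = (C i (w % P.s)).cen.get (G.ed e).b)
    (hx : Cp G P C T (G.ed e).a i w x) (hy : Cp G P C T (G.ed e).b i w y) :
    |γ - (ζ y - ζ x)| ≤ θ * ((G.ed e).l + 4 * (P.β + 1) * P.ρ ^ i : ℕ) := by
  obtain ⟨x1, x2, x3, x4⟩ := hx
  obtain ⟨y1, y2, y3, y4⟩ := hy
  obtain ⟨a, a1, a2, a3, a4⟩ := X.slot x1 (slot_a he) (by rw [x2, vq_a])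
  obtain ⟨b, b1, b2, b3, b4⟩ := X.slot y1 (slot_b he) (by rw [y2, vq_b])
  have hm : (e, a, b, meetL (rtF G.ed P C a) (rtF G.ed P C b)) ∈ T.obj :=
    (X.is.obj _).2 ⟨he, a1, b1, a2, b2, a3.trans x3, b3.trans y3, rfl⟩
  have h := ho _ hm rfl
  rw [← a4, X.rt_nm a1, hc] at x4
  rw [← b4, X.rt_nm b1] at y4
  have hl := X.lam_le hm x4 y4
  rw [P.lv_nd hw (by omega)] at hl
  simp only at h hl
  rw [hζ a a1, hζ b b1, a4, b4] at h
  exact h.trans (mul_le_mul_of_nonneg_left (by exact_mod_cast hl) hθ)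

theorem cpl_lev {i : ℕ} (hi : i ≤ P.D) {w : ℕ} (ha : Pad G P C i (G.ed e).a w)
    (hb : Pad G P C i (G.ed e).b w)
    (hc : (C i (w % P.s)).cen.get (G.ed e).a = (C i (w % P.s)).cen.get (G.ed e).b) :
    |γ - (Ya G P C ζ (G.ed e).b i w - Ya G P C ζ (G.ed e).a i w)| ≤
      θ * ((i + 1) * ((4 * P.s) * (1 + 4 * (P.β + 1) * P.ρ)) * (G.ed e).l : ℕ) := by
  have hl := X.pos e he
  have hs := X.hP.s1
  have h2ρ := X.hP.ρ2
  have hB : ∀ {i : ℕ}, i ≤ P.D → ∀ {w : ℕ}, Pad G P C i (G.ed e).a w → Pad G P C i (G.ed e).b w →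
      (C i (w % P.s)).cen.get (G.ed e).a = (C i (w % P.s)).cen.get (G.ed e).b →
      |γ - (Ya G P C ζ (G.ed e).b i w - Ya G P C ζ (G.ed e).a i w)| ≤
        θ * ((G.ed e).l + 4 * (P.β + 1) * P.ρ ^ i : ℕ) := fun {i} hi {w} ha hb hc =>
    (X.hull ζ _ hi ha).pair (X.hull ζ _ hi hb) (by
      rintro _ _ ⟨x, hx, rfl⟩ ⟨y, hy, rfl⟩
      exact X.pairB hζ he hθ ho hi (val_lt X.hC X.hP ha.1 (by omega)) hc hx hy)
  have hκ : 1 + 4 * (P.β + 1) * P.ρ ≤ 4 * P.s * (1 + 4 * (P.β + 1) * P.ρ) :=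
    Nat.le_mul_of_pos_left _ (by omega)
  induction i generalizing w with
  | zero =>
    refine (hB hi ha hb hc).trans (mul_le_mul_of_nonneg_left ?_ hθ)
    norm_cast
    rw [pow_zero, zero_add, one_mul]
    refine le_trans ?_ (Nat.mul_le_mul_right _ hκ)
    have : 4 * (P.β + 1) * 1 ≤ 4 * (P.β + 1) * (P.ρ * (G.ed e).l) :=
      Nat.mul_le_mul_left _ (Nat.mul_pos (by omega) hl)
    nlinarith
  | succ i ih =>
    by_cases hr : P.ρ ^ i < (G.ed e).l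
    · refine (hB hi ha hb hc).trans (mul_le_mul_of_nonneg_left ?_ hθ)
      norm_cast
      have h1 : (1 + 4 * (P.β + 1) * P.ρ) * (G.ed e).l ≤
          (i + 1 + 1) * (4 * P.s * (1 + 4 * (P.β + 1) * P.ρ)) * (G.ed e).l :=
        Nat.mul_le_mul_right _ (hκ.trans (Nat.le_mul_of_pos_left _ (by omega)))
      refine le_trans ?_ h1
      have : 4 * (P.β + 1) * P.ρ * P.ρ ^ i ≤ 4 * (P.β + 1) * P.ρ * (G.ed e).l :=
        Nat.mul_le_mul_left _ hr.le
      rw [pow_succ']; nlinarith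
    · rw [not_lt] at hr
      have hn : Near G (G.ed e).a (G.ed e).b (G.ed e).l := by
        have := Near.one (slot_a he)
        rwa [opp_a, vq_a, vq_b, show (3 * e + 1) / 3 = e by omega] at this
      have va := X.pad_mem hi ha
      have vb := X.pad_mem hi hb
      have hρ : (0 : ℝ) < ((P.ρ ^ i : ℕ) : ℝ) := by exact_mod_cast X.rho_pos i
      have tv := tv_le (s := range P.s) (a := fun c => (phi G (C i c) (P.ρ ^ i) (G.ed e).a : ℝ))
        (b := fun c => (phi G (C i c) (P.ρ ^ i) (G.ed e).b : ℝ)) (l := (G.ed e).l)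
        (fun _ _ => Nat.cast_nonneg _) (fun _ _ => Nat.cast_nonneg _) hρ (Nat.cast_nonneg _)
        (X.sum_phi (by omega) va) (X.sum_phi (by omega) vb)
        (fun c _ => by exact_mod_cast phi_lip hn) fun c _ => by exact_mod_cast phi_lip hn.symm
      rw [Ya, Ya]
      refine (coup (fun c _ => wt_nonneg i _ c) (fun c _ => wt_nonneg i _ c)
        (X.sum_wt (by omega) va) (X.sum_wt (by omega) vb)
        (A := θ * ((i + 1) * ((4 * P.s) * (1 + 4 * (P.β + 1) * P.ρ)) * (G.ed e).l : ℕ))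
        (B := θ * ((G.ed e).l + 4 * (P.β + 1) * P.ρ ^ (i + 1) : ℕ)) (by positivity) (by positivity)
        tv (fun c hc' p q => ?_) fun c hc' c' hc'' p q => ?_).trans ?_
      · have pa := pd_of_wt p
        have pb := pd_of_wt q
        have hc0 := mem_range.1 hc'
        refine ih (by omega) (X.pad_step (by omega) ha hc0 pa) (X.pad_step (by omega) hb hc0 pb) ?_
        rw [code_mod hc0]; exact (pa _ _ hn hr).2.symm
      · have pa := pd_of_wt p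
        have pb := pd_of_wt q
        have hc0 := mem_range.1 hc'
        have hc1 := mem_range.1 hc''
        refine (X.hull ζ _ (by omega) (X.pad_step (by omega) ha hc0 pa)).pair
          (X.hull ζ _ (by omega) (X.pad_step (by omega) hb hc1 pb)) ?_
        rintro _ _ ⟨x, hx, rfl⟩ ⟨y, hy, rfl⟩
        exact X.pairB hζ he hθ ho hi (val_lt X.hC X.hP ha.1 (by omega)) hc
          (X.cp_step (by omega) ha hc0 pa hx) (X.cp_step (by omega) hb hc1 pb hy)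
      · rw [card_range]
        have k1 : (((G.ed e).l + 4 * (P.β + 1) * P.ρ ^ (i + 1) : ℕ) : ℝ) ≤
            (1 + 4 * (P.β + 1) * P.ρ : ℕ) * ((P.ρ ^ i : ℕ) : ℝ) := by
          norm_cast; rw [pow_succ']; nlinarith
        have k2 : (P.s : ℝ) * (G.ed e).l / ((P.ρ ^ i : ℕ) : ℝ) *
            (θ * ((G.ed e).l + 4 * (P.β + 1) * P.ρ ^ (i + 1) : ℕ)) ≤
            θ * (P.s * (1 + 4 * (P.β + 1) * P.ρ : ℕ) * (G.ed e).l) := by
          calc _ ≤ (P.s : ℝ) * (G.ed e).l / ((P.ρ ^ i : ℕ) : ℝ) *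
              (θ * ((1 + 4 * (P.β + 1) * P.ρ : ℕ) * ((P.ρ ^ i : ℕ) : ℝ))) := by gcongr
            _ = _ := by field_simp
        refine (add_le_add_right k2 _).trans ?_
        rw [← mul_add]
        refine mul_le_mul_of_nonneg_left ?_ hθ
        norm_cast
        have : P.s * (1 + 4 * (P.β + 1) * P.ρ) * (G.ed e).l ≤
            4 * P.s * (1 + 4 * (P.β + 1) * P.ρ) * (G.ed e).l := by gcongr; omega
        nlinarith

omit hζ he hθ ho

/-- **the coupling lemma** -/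
theorem cpl (ζ : ℕ → ℝ) (hζ : ∀ x ∈ T.ord, ζ x = ζ (T.nm.get x)) : ∃ Y : ℕ → ℝ,
    (∀ e ∈ G.E, ∀ γ θ : ℝ, 0 ≤ θ →
      (∀ o ∈ T.obj, o.1 = e → |γ - (ζ o.2.2.1 - ζ o.2.1)| ≤ θ * T.lam G.ed o) →
        |γ - (Y (G.ed e).b - Y (G.ed e).a)| ≤ θ * P.al * (G.ed e).l) ∧
    ∀ (u v : ℕ) (γ B : ℝ), (∀ x ∈ T.cv P u, ∀ y ∈ T.cv P v, |γ - (ζ y - ζ x)| ≤ B) →
      |γ - (Y v - Y u)| ≤ B := by
  classical
  refine ⟨fun v => if v ∈ V then Ya G P C ζ v P.D 0 else ζ (P.nw v), fun e he γ θ hθ ho => ?_,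
    fun u v γ B h => ?_⟩
  · have va : (G.ed e).a ∈ V := (X.hV.2 _).2 ⟨_, slot_a he, vq_a _ _⟩
    have vb : (G.ed e).b ∈ V := (X.hV.2 _).2 ⟨_, slot_b he, vq_b _ _⟩
    simp only [if_pos va, if_pos vb]
    have := X.cpl_lev hζ he hθ ho le_rfl (X.pad_top va) (X.pad_top vb)
      (by rw [Nat.zero_mod]; exact X.hC.2.2.2 e he)
    refine this.trans (le_of_eq ?_)
    rw [Pm.al]; push_cast; ring
  · have key : ∀ v, Hull (fun a => ∃ x ∈ T.cv P v, a = ζ x)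
        (if v ∈ V then Ya G P C ζ v P.D 0 else ζ (P.nw v)) := by
      intro v
      split_ifs with hv
      · refine (X.hull ζ v le_rfl (X.pad_top hv)).mono ?_
        rintro a ⟨x, hx, rfl⟩
        have hm : x ∈ T.cop.get v := ((X.is.cop v).2 x).2 ⟨hx.1, hx.2.1, hx.2.2.1⟩
        exact ⟨x, by rw [LF.cv, if_neg (List.ne_nil_of_mem hm)]; exact hm, rfl⟩
      · refine Hull.self ⟨_, ?_, rfl⟩
        have : T.cop.get v = [] := List.eq_nil_iff_forall_not_mem.2 fun x hx => hv (by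
          obtain ⟨h1, h2, _⟩ := ((X.is.cop v).2 x).1 hx
          have := X.col h1
          rw [h2, vq_main] at this
          exact this.1.sub _ this.2)
        rw [LF.cv, if_pos this]; exact List.mem_singleton_self _
    refine (key u).pair (key v) ?_
    rintro _ _ ⟨x, hx, rfl⟩ ⟨y, hy, rfl⟩
    exact h x hx y hy

end Cx

end Crest.Agent.N325.Lt
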