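import Crest.Agent.N325.Lst.ListR

/-!
# Row 325 (helper29): ball carving, the pure part
-/

set_option autoImplicit false
open Finset

namespace Crest.Agent.N325.Lt.Cv

/-- an undirected graph by accessors: edges at a vertex, other end, length -/
structure UG where
  adj : ℕ → List ℕ
  hd : ℕ → ℕ → ℕ
  ln : ℕ → ℕ

/-- symmetric, with positive lengths, living on `V` -/
structure UG.WF (G : UG) (V : Finset ℕ) : Prop where
  mem : ∀ x ∈ V, ∀ e ∈ G.adj x, G.hd x e ∈ V
  sym : ∀ x ∈ V, ∀ e ∈ G.adj x,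
    ∃ e' ∈ G.adj (G.hd x e), G.hd (G.hd x e) e' = x ∧ G.ln e' = G.ln e
  pos : ∀ x ∈ V, ∀ e ∈ G.adj x, 1 ≤ G.ln e

/-- walks from `s` that only enter vertices of `al` -/
inductive Wk (G : UG) (al : ℕ → Prop) (s : ℕ) : ℕ → ℕ → Prop
  | nil : Wk G al s s 0
  | step {x d e : ℕ} : Wk G al s x d → e ∈ G.adj x → al (G.hd x e) →
      Wk G al s (G.hd x e) (d + G.ln e)

/-- within distance `r` -/
def Near (G : UG) (al : ℕ → Prop) (s x r : ℕ) : Prop := ∃ d ≤ r, Wk G al s x d

variable {G : UG} {V : Finset ℕ} {al al' : ℕ → Prop} {s x y d d' r r' : ℕ}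

theorem Wk.trans (h : Wk G al s x d) (h' : Wk G al x y d') : Wk G al s y (d + d') := by
  induction h' with
  | nil => exact h
  | step _ he ha ih => rw [← add_assoc]; exact ih.step he ha

theorem Wk.mono (h : Wk G al s x d) (k : ∀ v, al v → al' v) : Wk G al' s x d := by
  induction h with
  | nil => exact .nil
  | step _ he ha ih => exact ih.step he (k _ ha)

theorem Wk.mem (hG : G.WF V) (hs : s ∈ V) (h : Wk G al s x d) : x ∈ V := by
  induction h with
  | nil => exact hs
  | step _ he _ ih => exact hG.mem _ ih _ he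

theorem Wk.live (hs : al s) (h : Wk G al s x d) : al x := by
  cases h with
  | nil => exact hs
  | step _ _ ha => exact ha

theorem Wk.symm (hG : G.WF V) (hs : s ∈ V) (ha : al s) (h : Wk G al s x d) : Wk G al x s d := by
  induction h with
  | nil => exact .nil
  | @step x d e w he _ ih =>
    obtain ⟨e', k1, k2, k3⟩ := hG.sym x (w.mem hG hs) e he
    have := (Wk.nil (G := G) (al := al) (s := G.hd x e)).step k1 (by rw [k2]; exact w.live ha)
    rw [k2, k3, zero_add] at this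
    rw [add_comm]; exact this.trans ih

/-- a short walk stays inside a mask which contains the ball -/
theorem Wk.restrict (h : Wk G al s x d) (hd : d ≤ r) (k : ∀ y, Near G al s y r → al' y) :
    Wk G al' s x d := by
  induction h with
  | nil => exact .nil
  | step w he ha ih => exact (ih (by omega)).step he (k _ ⟨_, hd, w.step he ha⟩)

theorem Near.refl : Near G al s s r := ⟨0, Nat.zero_le _, .nil⟩

theorem Near.le (h : Near G al s x r) (k : r ≤ r') : Near G al s x r' :=
  let ⟨d, a, w⟩ := h; ⟨d, a.trans k, w⟩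

theorem Near.trans (h : Near G al s x r) (h' : Near G al x y r') : Near G al s y (r + r') :=
  let ⟨d, a, w⟩ := h; let ⟨d', a', w'⟩ := h'; ⟨d + d', by omega, w.trans w'⟩

theorem Near.symm (hG : G.WF V) (hs : s ∈ V) (ha : al s) (h : Near G al s x r) :
    Near G al x s r := let ⟨d, a, w⟩ := h; ⟨d, a, w.symm hG hs ha⟩

theorem Near.restrict (h : Near G al s x r) (k : ∀ y, Near G al s y r → al' y) :
    Near G al' s x r := let ⟨d, a, w⟩ := h; ⟨d, a, w.restrict a k⟩

theorem Near.mem (hG : G.WF V) (hs : s ∈ V) (h : Near G al s x r) : x ∈ V :=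
  let ⟨_, _, w⟩ := h; w.mem hG hs

theorem Near.live (hs : al s) (h : Near G al s x r) : al x := let ⟨_, _, w⟩ := h; w.live hs

/-- the result of a search: ball (farthest first), distances, parents -/
structure Ball (G : UG) (al : ℕ → Prop) (s r : ℕ) (L : List ℕ) (D : ℕ → ℕ) (P : ℕ → ℕ × ℕ) :
    Prop where
  nd : L.Nodup
  mem : ∀ x, x ∈ L ↔ Near G al s x r
  wk : ∀ x ∈ L, Wk G al s x (D x)
  min : ∀ x ∈ L, ∀ d, Wk G al s x d → D x ≤ d
  srt : L.Pairwise fun x y => D y ≤ D x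
  par : ∀ x ∈ L, x ≠ s → (P x).1 ∈ L ∧ (P x).2 ∈ G.adj (P x).1 ∧ G.hd (P x).1 (P x).2 = x ∧
    D x = D (P x).1 + G.ln (P x).2

variable {L : List ℕ} {D : ℕ → ℕ} {P : ℕ → ℕ × ℕ}

theorem Ball.near (B : Ball G al s r L D P) (h : r' ≤ r) :
    (x ∈ L ∧ D x ≤ r') ↔ Near G al s x r' :=
  ⟨fun k => ⟨_, k.2, B.wk x k.1⟩, fun ⟨d, a, w⟩ =>
    have m := (B.mem x).2 ⟨d, a.trans h, w⟩
    ⟨m, (B.min x m d w).trans a⟩⟩

theorem Ball.le (B : Ball G al s r L D P) (h : x ∈ L) : D x ≤ r :=
  ((B.near le_rfl).2 ((B.mem x).1 h)).2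

theorem Ball.self (B : Ball G al s r L D P) : s ∈ L ∧ D s = 0 :=
  have := (B.near (Nat.zero_le r)).2 Near.refl
  ⟨this.1, Nat.le_zero.1 this.2⟩

open Classical in
/-- the weight of a ball -/
noncomputable def bw (G : UG) (V : Finset ℕ) (al : ℕ → Prop) (w : ℕ → ℕ) (s r : ℕ) : ℕ :=
  ∑ x ∈ V, if Near G al s x r then w x else 0

theorem bw_mono (w : ℕ → ℕ) (h : r ≤ r') : bw G V al w s r ≤ bw G V al w s r' :=
  sum_le_sum fun x _ => by
    by_cases k : Near G al s x r
    · rw [if_pos k, if_pos (k.le h)]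
    · rw [if_neg k]; exact Nat.zero_le _

theorem bw_le (w : ℕ → ℕ) : bw G V al w s r ≤ ∑ x ∈ V, w x :=
  sum_le_sum fun x _ => by split_ifs <;> simp

theorem le_bw (w : ℕ → ℕ) (hs : s ∈ V) : w s ≤ bw G V al w s r := by
  classical
  refine le_trans ?_ (single_le_sum (fun _ _ => Nat.zero_le _) hs)
  rw [if_pos Near.refl]

/-- sums over a list without repetitions -/
theorem sum_map_eq (hn : L.Nodup) (hV : ∀ x ∈ L, x ∈ V) (w : ℕ → ℕ) :
    (L.map w).sum = ∑ x ∈ V, if x ∈ L then w x else 0 := by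
  rw [← List.sum_toFinset _ hn, ← sum_filter]
  refine sum_congr ?_ fun _ _ => rfl
  ext x
  simp only [List.mem_toFinset, mem_filter]
  exact ⟨fun h => ⟨hV x h, h⟩, fun h => h.2⟩

theorem Ball.sum_eq (B : Ball G al s r L D P) (hG : G.WF V) (hs : s ∈ V) (w : ℕ → ℕ)
    (h : r' ≤ r) : (L.map fun x => if D x ≤ r' then w x else 0).sum = bw G V al w s r' := by
  rw [sum_map_eq B.nd fun x hx => ((B.mem x).1 hx).mem hG hs]
  refine sum_congr rfl fun x _ => ?_
  have := B.near (x := x) h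
  by_cases h1 : x ∈ L <;> by_cases h2 : D x ≤ r' <;> simp [h1, h2, ← this]

theorem Ball.sum_all (B : Ball G al s r L D P) (hG : G.WF V) (hs : s ∈ V) (w : ℕ → ℕ) :
    (L.map w).sum = bw G V al w s r := by
  rw [← B.sum_eq hG hs w le_rfl]
  exact congrArg _ (List.map_congr_left fun x hx => (if_pos (B.le hx)).symm)

/-- one colour: a partial partition (`cen` = centre + 1, `0` = not clustered) into trees -/
structure Col (G : UG) (V : Finset ℕ) (β : ℕ) (cen : ℕ → ℕ) (par : ℕ → ℕ × ℕ) (dep : ℕ → ℕ)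
    (ord : List ℕ) : Prop where
  nd : ord.Nodup
  mem : ∀ x, x ∈ ord ↔ cen x ≠ 0
  sub : ∀ x ∈ ord, x ∈ V
  ctr : ∀ x z, cen x = z + 1 → cen z = z + 1 ∧ dep z = 0
  rad : ∀ x ∈ ord, dep x ≤ β
  par : ∀ x ∈ ord, cen x ≠ x + 1 → cen (par x).1 = cen x ∧ (par x).2 ∈ G.adj (par x).1 ∧
    G.hd (par x).1 (par x).2 = x ∧ dep x = dep (par x).1 + G.ln (par x).2
  srt : ord.Pairwise fun x y => cen x = cen y → dep x ≤ dep y

/-- the ball of radius `q` about `x` lies in one cluster -/
def Cov (G : UG) (q : ℕ) (cen : ℕ → ℕ) (x : ℕ) : Prop :=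
  cen x ≠ 0 ∧ ∀ y, Near G (fun _ => True) x y q → cen y = cen x

theorem Col.nil (G : UG) (V : Finset ℕ) (β : ℕ) (par : ℕ → ℕ × ℕ) (dep : ℕ → ℕ) :
    Col G V β (fun _ => 0) par dep [] :=
  ⟨List.nodup_nil, by simp, by simp, by simp, by simp, by simp, List.Pairwise.nil⟩

/-- a new cluster: the part of the ball with `D ≤ b` -/
theorem Col.add {β b : ℕ} {cen cen' : ℕ → ℕ} {par par' : ℕ → ℕ × ℕ} {dep dep' : ℕ → ℕ}
    {ord C : List ℕ} (h : Col G V β cen par dep ord) (hG : G.WF V) (hs : s ∈ V) (h0 : cen s = 0)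
    (B : Ball G (fun x => cen x = 0) s r L D P) (hb : b ≤ β)
    (hC : C = L.filter fun x => decide (D x ≤ b))
    (e1 : ∀ x, cen' x = if x ∈ C then s + 1 else cen x)
    (e2 : ∀ x, par' x = if x ∈ C then P x else par x)
    (e3 : ∀ x, dep' x = if x ∈ C then D x else dep x) :
    Col G V β cen' par' dep' (C.reverse ++ ord) := by
  have mC : ∀ x, x ∈ C ↔ x ∈ L ∧ D x ≤ b := fun x => by simp [hC]
  have z : ∀ x ∈ C, cen x = 0 := fun x hx =>
    Near.live (al := fun x => cen x = 0) h0 ((B.mem x).1 ((mC x).1 hx).1)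
  have no : ∀ x ∈ ord, x ∉ C := fun x hx k => (h.mem x).1 hx (z x k)
  have sC : s ∈ C := (mC s).2 ⟨B.self.1, by rw [B.self.2]; exact Nat.zero_le _⟩
  have ne : ∀ x, cen x ≠ s + 1 := fun x k => by have := (h.ctr x s k).1; omega
  refine ⟨?_, fun x => ?_, fun x hx => ?_, fun x y k => ?_, fun x hx => ?_, fun x hx k => ?_, ?_⟩
  · refine List.nodup_append.2 ⟨List.nodup_reverse.2 (hC ▸ B.nd.filter _), h.nd, ?_⟩
    rintro x hx y hy rfl
    exact no x hy (List.mem_reverse.1 hx)
  · rw [List.mem_append, List.mem_reverse, e1, h.mem]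
    by_cases k : x ∈ C <;> simp [k]
  · rcases List.mem_append.1 hx with k | k
    · exact ((B.mem x).1 ((mC x).1 (List.mem_reverse.1 k)).1).mem hG hs
    · exact h.sub x k
  · rw [e1] at k
    by_cases c : x ∈ C
    · rw [if_pos c] at k
      obtain rfl : s = y := by omega
      rw [e1, e3, if_pos sC, if_pos sC]; exact ⟨rfl, B.self.2⟩
    · rw [if_neg c] at k
      have := h.ctr x y k
      have c' : y ∉ C := fun c' => by have := z y c'; omega
      rw [e1, e3, if_neg c', if_neg c']; exact this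
  · rw [e3]
    rcases List.mem_append.1 hx with k | k
    · rw [List.mem_reverse] at k
      rw [if_pos k]; exact ((mC x).1 k).2.trans hb
    · rw [if_neg (no x k)]; exact h.rad x k
  · rcases List.mem_append.1 hx with c | c
    · rw [List.mem_reverse] at c
      rw [e1, if_pos c] at k
      obtain ⟨p1, p2, p3, p4⟩ := B.par x ((mC x).1 c).1 (by omega)
      have pc : (P x).1 ∈ C := (mC _).2 ⟨p1, by have := ((mC x).1 c).2; omega⟩
      rw [e2, if_pos c, e1, e1, e3, e3, if_pos c, if_pos c, if_pos pc, if_pos pc]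
      exact ⟨rfl, p2, p3, p4⟩
    · rw [e1, if_neg (no x c)] at k
      obtain ⟨p1, p2, p3, p4⟩ := h.par x c k
      have pc : (par x).1 ∉ C := no _ ((h.mem _).2 (p1 ▸ (h.mem x).1 c))
      rw [e2, if_neg (no x c), e1, e1, e3, e3, if_neg (no x c), if_neg (no x c), if_neg pc,
        if_neg pc]
      exact ⟨p1, p2, p3, p4⟩
  · refine List.pairwise_append.2 ⟨?_, ?_, fun x hx y hy k => ?_⟩
    · rw [List.pairwise_reverse]
      have : C.Pairwise fun x y => D y ≤ D x := hC ▸ B.srt.filter _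
      refine this.imp_of_mem fun {x y} hx hy k _ => ?_
      rw [e3, e3, if_pos hx, if_pos hy]; exact k
    · refine h.srt.imp_of_mem fun {x y} hx hy k => ?_
      rw [e1, e1, e3, e3, if_neg (no x hx), if_neg (no y hy), if_neg (no x hx), if_neg (no y hy)]
      exact k
    · rw [e1, e1, if_pos (List.mem_reverse.1 hx), if_neg (no y hy)] at k
      exact absurd k.symm (ne y)

end Crest.Agent.N325.Lt.Cv
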