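import Crest.Agent.N325.Lt.Cv0

/-!
# Row 325 (helper29): ball carving, one cluster and one colour
-/

set_option autoImplicit false
open Finset

namespace Crest.Agent.N325.Lt.Cv

/-- ball, distances, parents -/
abbrev Bl := List ℕ × Arr ℕ × Arr (ℕ × ℕ)
/-- a colour: centres, parents, depths, order -/
abbrev Cl := Arr ℕ × Arr (ℕ × ℕ) × Arr ℕ × List ℕ

/-- the colour is a partial partition into trees of radius at most `β` -/
def ClOk (G : UG) (V : Finset ℕ) (β : ℕ) (c : Cl) : Prop :=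
  Col G V β c.1.get c.2.1.get c.2.2.1.get c.2.2.2

/-- the specification of the search among the vertices with `cen = 0` -/
def BSpec (g : Gl) (G : UG) (V : Finset ℕ) (bl : Arr ℕ → ℕ → ℕ → R Bl) (wt : ℕ → ℕ)
    (Rm κ : ℕ) : Prop :=
  ∀ (cen : Arr ℕ) (s r : ℕ), s ∈ V → r ≤ Rm → Sp g (bl cen s r) fun o t =>
    Ball G (fun x => cen.get x = 0) s r o.1 o.2.1.get o.2.2.get ∧ t ≤ κ * ((o.1.map wt).sum + 1)

/-- the invariant of a colour: `ys` = centres still available, `nx` = centres postponed -/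
structure Inv (G : UG) (V : Finset ℕ) (β q : ℕ) (U rest : List ℕ) (ys : ℕ → ℕ) (nx : List ℕ)
    (c : Cl) : Prop where
  col : ClOk G V β c
  y1 : ∀ x, ys x ≤ 1
  yr : ∀ x, ys x ≠ 0 → x ∈ rest ∧ x ∈ V ∧ x ∉ nx ∧
    ∀ y, Near G (fun _ => True) x y q → c.1.get y = 0
  cov : ∀ x ∈ U, ys x ≠ 0 ∨ x ∈ nx ∨ Cov G q c.1.get x
  nxn : nx.Nodup
  nxs : ∀ x ∈ nx, x ∈ V
  cnt : 2 * nx.length + ∑ x ∈ V, ys x ≤ U.length

theorem length_filter_add (L : List ℕ) {ys : ℕ → ℕ} (h : ∀ x, ys x ≤ 1) (D : ℕ → ℕ) (a : ℕ) :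
    (L.filter fun x => decide (ys x ≠ 0 ∧ a < D x)).length +
      (L.map fun x => if D x ≤ a then ys x else 0).sum = (L.map ys).sum := by
  induction L with
  | nil => rfl
  | cons x L ih =>
    have := h x
    rw [List.filter_cons, List.map_cons, List.map_cons, List.sum_cons, List.sum_cons]
    by_cases h1 : ys x ≠ 0 ∧ a < D x
    · rw [if_pos (decide_eq_true h1), if_neg (by omega), List.length_cons]; omega
    · rw [if_neg (by simpa using h1)]; split_ifs <;> omega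

variable {G : UG} {V : Finset ℕ} {β q a v : ℕ} {U rest nx L C N : List ℕ} {ys ys' D : ℕ → ℕ}
  {P : ℕ → ℕ × ℕ} {c c' : Cl} {g : Gl}

theorem Inv.skip (h : Inv G V β q U (v :: rest) ys nx c) (h0 : ys v = 0) :
    Inv G V β q U rest ys nx c :=
  ⟨h.col, h.y1, fun x hx => ⟨((List.mem_cons.1 (h.yr x hx).1).resolve_left fun e => hx (e ▸ h0)),
    (h.yr x hx).2⟩, h.cov, h.nxn, h.nxs, h.cnt⟩

theorem Inv.step (h : Inv G V β q U (v :: rest) ys nx c) (hG : G.WF V) (hv : ys v ≠ 0)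
    (B : Ball G (fun x => c.1.get x = 0) v (a + 2 * q) L D P) (hb : a + q ≤ β)
    (hc : (L.map ys).sum ≤ 2 * (L.map fun x => if D x ≤ a then ys x else 0).sum)
    (hC : C = L.filter fun x => decide (D x ≤ a + q))
    (hN : N = L.filter fun x => decide (ys x ≠ 0 ∧ a < D x))
    (e0 : ∀ x, ys' x = if x ∈ L then 0 else ys x)
    (e1 : ∀ x, c'.1.get x = if x ∈ C then v + 1 else c.1.get x)
    (e2 : ∀ x, c'.2.1.get x = if x ∈ C then P x else c.2.1.get x)
    (e3 : ∀ x, c'.2.2.1.get x = if x ∈ C then D x else c.2.2.1.get x)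
    (e4 : c'.2.2.2 = C.reverse ++ c.2.2.2) :
    Inv G V β q U rest ys' (N.reverse ++ nx) c' := by
  obtain ⟨-, vV, -, v0⟩ := h.yr v hv
  replace v0 := v0 v Near.refl
  have mC : ∀ x, x ∈ C ↔ Near G (fun x => c.1.get x = 0) v x (a + q) := fun x => by
    rw [← B.near (by omega)]; simp [hC]
  have mN : ∀ x, x ∈ N ↔ x ∈ L ∧ ys x ≠ 0 ∧ a < D x := fun x => by simp [hN]
  have z : ∀ x ∈ C, c.1.get x = 0 := fun x hx =>
    Near.live (al := fun x => c.1.get x = 0) v0 ((mC x).1 hx)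
  have LV : ∀ x ∈ L, x ∈ V := fun x hx => ((B.mem x).1 hx).mem hG vV
  refine ⟨?_, fun x => ?_, fun x hx => ?_, fun x hx => ?_, ?_, fun x hx => ?_, ?_⟩
  · unfold ClOk; rw [e4]; exact Col.add h.col hG vV v0 B hb hC e1 e2 e3
  · rw [e0]; have := h.y1 x; split_ifs <;> omega
  · rw [e0] at hx
    have xL : x ∉ L := fun k => hx (if_pos k)
    rw [if_neg xL] at hx
    obtain ⟨h1, h2, h3, h4⟩ := h.yr x hx
    refine ⟨(List.mem_cons.1 h1).resolve_left fun e => xL (e ▸ B.self.1), h2, ?_, fun y hy => ?_⟩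
    · rw [List.mem_append, List.mem_reverse, mN]
      exact fun k => k.elim (fun k => xL k.1) h3
    · rw [e1, if_neg fun k => xL ((B.mem x).2 ?_), h4 y hy]
      have := ((mC y).1 k).trans ((hy.restrict h4).symm hG h2 (h4 x Near.refl))
      exact this.le (by omega)
  · rw [List.mem_append, List.mem_reverse, mN, e0]
    rcases h.cov x hx with k | k | k
    · by_cases xL : x ∈ L
      · by_cases d : a < D x
        · exact .inr (.inl (.inl ⟨xL, k, d⟩))
        · have n := (B.near (r' := a) (by omega)).1 ⟨xL, by omega⟩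
          have xC : x ∈ C := (mC x).2 (n.le (by omega))
          refine .inr (.inr ⟨by rw [e1, if_pos xC]; omega, fun y hy => ?_⟩)
          rw [e1, e1, if_pos xC, if_pos ((mC y).2 (n.trans (hy.restrict (h.yr x k).2.2.2)))]
      · rw [if_neg xL]; exact .inl k
    · exact .inr (.inl (.inr k))
    · have xC : x ∉ C := fun m => k.1 (z x m)
      refine .inr (.inr ⟨by rw [e1, if_neg xC]; exact k.1, fun y hy => ?_⟩)
      rw [e1, e1, if_neg xC, if_neg fun m => k.1 (k.2 y hy ▸ z y m), k.2 y hy]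
  · refine List.nodup_append.2 ⟨List.nodup_reverse.2 (hN ▸ B.nd.filter _), h.nxn, ?_⟩
    rintro x hx y hy rfl
    exact (h.yr x ((mN x).1 (List.mem_reverse.1 hx)).2.1).2.2.1 hy
  · rcases List.mem_append.1 hx with k | k
    · exact LV x ((mN x).1 (List.mem_reverse.1 k)).1
    · exact h.nxs x k
  · have h1 := length_filter_add L h.y1 D a
    have h2 : ∑ x ∈ V, ys' x + (L.map ys).sum = ∑ x ∈ V, ys x := by
      rw [sum_map_eq B.nd LV, ← sum_add_distrib]
      exact sum_congr rfl fun x _ => by rw [e0]; split_ifs <;> simp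
    have h3 := h.cnt
    rw [List.length_append, List.length_reverse, hN]
    omega

/-- the weight of the vertices which are not clustered -/
def free (V : Finset ℕ) (wt cen : ℕ → ℕ) : ℕ := ∑ x ∈ V, if cen x = 0 then wt x else 0

theorem free_step {cen cen' wt : ℕ → ℕ} {r b : ℕ} (B : Ball G (fun x => cen x = 0) v r L D P)
    (v0 : cen v = 0) (hb : b ≤ r) (hC : C = L.filter fun x => decide (D x ≤ b))
    (e1 : ∀ x, cen' x = if x ∈ C then v + 1 else cen x) :
    free V wt cen' + bw G V (fun x => cen x = 0) wt v b = free V wt cen := by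
  rw [free, free, bw, ← sum_add_distrib]
  refine sum_congr rfl fun x _ => ?_
  have mC : x ∈ C ↔ Near G (fun x => cen x = 0) v x b := by rw [← B.near hb]; simp [hC]
  rw [e1]
  by_cases k : x ∈ C
  · have := Near.live (al := fun x => cen x = 0) v0 (mC.1 k)
    simp [k, mC.1 k, this]
  · simp [k, mt mC.2 k]

/-- one radius -/
def tryR (bl : Arr ℕ → ℕ → ℕ → R Bl) (wt : ℕ → ℕ) (q : ℕ) (cen ys : Arr ℕ) (v : ℕ)
    (s : ℕ × Bool × Bl) : R (ℕ × Bool × Bl) :=
  nat (2 * q * s.1) >>= fun a => nat (a + 2 * q) >>= fun b => bl cen v b >>= fun o =>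
    sumL (fun x => if o.2.1.get x ≤ a then ys.get x else 0) o.1 >>= fun c0 =>
      sumL (fun x => ys.get x) o.1 >>= fun c1 =>
        sumL (fun x => if o.2.1.get x ≤ a then wt x else 0) o.1 >>= fun w0 =>
          sumL (fun x => wt x) o.1 >>= fun w1 =>
            if c1 ≤ 2 * c0 ∧ w1 ≤ 2 * w0 then pure (s.1, false, o) else pure (s.1 + 1, true, o)

/-- grow the ball until it stops doubling -/
def growR (bl : Arr ℕ → ℕ → ℕ → R Bl) (wt : ℕ → ℕ) (q kk : ℕ) (cen ys : Arr ℕ) (v : ℕ) :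
    R (ℕ × Bool × Bl) :=
  whileF (fun s => s.2.1) (tryR bl wt q cen ys v) (kk + 2)
    (0, true, [], Arr.cst 0, Arr.cst (0, 0))

/-- the hypotheses of the carving -/
structure Hyp (g : Gl) (G : UG) (V : Finset ℕ) (bl : Arr ℕ → ℕ → ℕ → R Bl) (wt : ℕ → ℕ)
    (q kk κ : ℕ) : Prop where
  wf : G.WF V
  hb : BSpec g G V bl wt (2 * q * kk) κ
  pos : ∀ x ∈ V, 1 ≤ wt x
  hk : (∑ x ∈ V, wt x) ^ 2 < 2 ^ kk
  wX : ∑ x ∈ V, wt x ≤ g.X
  qX : 2 * q * kk ≤ g.X

variable {bl : Arr ℕ → ℕ → ℕ → R Bl} {wt : ℕ → ℕ} {kk κ : ℕ}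

theorem length_le_sum (h : ∀ x ∈ L, 1 ≤ wt x) : L.length ≤ (L.map wt).sum := by
  have := List.sum_le_sum h
  simpa using this

theorem sp_growR (H : Hyp g G V bl wt q kk κ) {cen ys : Arr ℕ} (y1 : ∀ x, ys.get x ≤ 1)
    (hv : ys.get v ≠ 0) (vV : v ∈ V) :
    Sp g (growR bl wt q kk cen ys v) fun s t => s.1 < kk ∧
      Ball G (fun x => cen.get x = 0) v (2 * q * s.1 + 2 * q) s.2.2.1 s.2.2.2.1.get s.2.2.2.2.get ∧
      (s.2.2.1.map ys.get).sum ≤
        2 * (s.2.2.1.map fun x => if s.2.2.2.1.get x ≤ 2 * q * s.1 then ys.get x else 0).sum ∧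
      s.2.2.1.length ≤ 2 * bw G V (fun x => cen.get x = 0) wt v (2 * q * s.1) ∧
      t ≤ 3 * kk * (κ + 5) * bw G V (fun x => cen.get x = 0) wt v (2 * q * s.1) + 1 := by
  set al := fun x => cen.get x = 0
  have yw : ∀ r, bw G V al ys.get v r ≤ ∑ x ∈ V, wt x := fun r =>
    (bw_le _).trans (sum_le_sum fun x hx => (y1 x).trans (H.pos x hx))
  have ww : ∀ r, bw G V al wt v r ≤ ∑ x ∈ V, wt x := fun r => bw_le _
  have w1 : ∀ r, 1 ≤ bw G V al wt v r := fun r => (H.pos v vV).trans (le_bw _ vV)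
  refine (sp_whileF (fun s t => if s.2.1 = true then
      2 ^ s.1 ≤ bw G V al ys.get v (2 * q * s.1) * bw G V al wt v (2 * q * s.1) ∧
        t ≤ s.1 * ((κ + 5) * (bw G V al wt v (2 * q * s.1) + 1))
    else s.1 < kk ∧ Ball G al v (2 * q * s.1 + 2 * q) s.2.2.1 s.2.2.2.1.get s.2.2.2.2.get ∧
      (s.2.2.1.map ys.get).sum ≤
        2 * (s.2.2.1.map fun x => if s.2.2.2.1.get x ≤ 2 * q * s.1 then ys.get x else 0).sum ∧
      s.2.2.1.length ≤ 2 * bw G V al wt v (2 * q * s.1) ∧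
      t ≤ 3 * kk * (κ + 5) * bw G V al wt v (2 * q * s.1))
    (fun s => if s.2.1 = true then kk + 1 - s.1 else 0) ?_ (t := 0) ?_ (by simp)).mono ?_
  · rintro ⟨j, f, o'⟩ t k e
    simp only at e k
    rw [if_pos e] at k
    have hj : j < kk := by
      have := k.1.trans (Nat.mul_le_mul (yw _) (ww _))
      exact (Nat.pow_lt_pow_iff_right (by norm_num)).1 (this.trans_lt (by rw [← sq]; exact H.hk))
    have hr : 2 * q * j + 2 * q ≤ 2 * q * kk := by
      rw [← Nat.mul_succ]; exact Nat.mul_le_mul_left _ hj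
    have hX := H.qX
    have hW := H.wX
    simp only [tryR, sp_bind, sp_nat]
    refine ⟨by omega, by omega, (H.hb cen v _ vV hr).mono fun o t0 ⟨B0, c0⟩ => ?_⟩
    have B : Ball G al v (2 * q * j + 2 * q) o.1 o.2.1.get o.2.2.get := B0
    have s1 := B.sum_eq H.wf vV ys.get (Nat.le_add_right (2 * q * j) _)
    have s2 := B.sum_all H.wf vV ys.get
    have s3 := B.sum_eq H.wf vV wt (Nat.le_add_right (2 * q * j) _)
    have s4 := B.sum_all H.wf vV wt
    have ln : o.1.length ≤ (o.1.map wt).sum :=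
      length_le_sum fun x hx => H.pos x (((B.mem x).1 hx).mem H.wf vV)
    refine (sp_sumL _ _ (s1 ▸ (yw _).trans hW)).mono fun _ t1 ⟨e1, c1⟩ =>
      (sp_sumL _ _ (s2 ▸ (yw _).trans hW)).mono fun _ t2 ⟨e2, c2⟩ =>
      (sp_sumL _ _ (s3 ▸ (ww _).trans hW)).mono fun _ t3 ⟨e3, c3⟩ =>
      (sp_sumL _ _ (s4 ▸ (ww _).trans hW)).mono fun _ t4 ⟨e4, c4⟩ => ?_
    subst e1 e2 e3 e4
    have mm := fun w => bw_mono (G := G) (V := V) (al := al) (s := v) w
      (Nat.le_add_right (2 * q * j) (2 * q))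
    have m1 := mm ys.get
    have m2 := mm wt
    have tt : t + 1 + (t0 + (t1 + (t2 + (t3 + t4)))) ≤
        (j + 1) * ((κ + 5) * (bw G V al wt v (2 * q * j + 2 * q) + 1)) := by
      have := Nat.mul_le_mul_left j (Nat.mul_le_mul_left (κ + 5) (Nat.add_le_add_right m2 1))
      have k2 := k.2
      rw [s4] at c0 ln
      rw [add_mul j, one_mul, add_mul κ 5 (bw G V al wt v (2 * q * j + 2 * q) + 1)] at *
      omega
    rw [sp_ite]
    refine ⟨fun c => ⟨?_, ?_⟩, fun c => ⟨?_, ?_⟩⟩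
    · simp only [Bool.false_eq_true, if_false]
      refine ⟨hj, B, c.1, ln.trans (s3 ▸ c.2), le_trans (le_of_eq (by omega)) (tt.trans ?_)⟩
      have c2 := c.2
      have := w1 (2 * q * j)
      rw [show (List.map (fun x => wt x) o.1) = o.1.map wt from rfl, s3, s4] at c2
      calc _ ≤ kk * ((κ + 5) * (3 * bw G V al wt v (2 * q * j))) :=
            Nat.mul_le_mul hj (Nat.mul_le_mul_left _ (by omega))
        _ = _ := by ring
    · simp only [e, Bool.false_eq_true, if_false, if_true]; omega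
    · simp only [if_true, Nat.mul_succ]
      refine ⟨?_, le_trans (le_of_eq (by omega)) tt⟩
      rw [show (List.map (fun x => wt x) o.1) = o.1.map wt from rfl,
        show (List.map (fun x => ys.get x) o.1) = o.1.map ys.get from rfl, s1, s2, s3, s4] at c
      have k1 := k.1
      rw [pow_succ]
      by_cases c1 : bw G V al ys.get v (2 * q * j + 2 * q) ≤ 2 * bw G V al ys.get v (2 * q * j)
      · have := Nat.mul_le_mul m1 (show 2 * bw G V al wt v (2 * q * j) ≤ _ from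
          (not_le.1 fun c2 => c ⟨c1, c2⟩).le)
        nlinarith
      · have := Nat.mul_le_mul (not_le.1 c1).le m2
        nlinarith
    · simp only [e, if_true]; omega
  · simp only [if_true, pow_zero, zero_mul, le_refl, and_true]
    exact Nat.mul_pos (lt_of_lt_of_le (Nat.pos_of_ne_zero hv) (le_bw _ vV)) (w1 _)
  · rintro s t ⟨e, u, rfl, k⟩
    rw [if_neg (by simp [e]), zero_add] at k
    exact ⟨k.1, k.2.1, k.2.2.1, k.2.2.2.1, Nat.add_le_add_right k.2.2.2.2 1⟩

/-- carve a cluster about `v` -/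
def carve (bl : Arr ℕ → ℕ → ℕ → R Bl) (wt : ℕ → ℕ) (q kk : ℕ) (v : ℕ)
    (s : Arr ℕ × List ℕ × Cl) : R (Arr ℕ × List ℕ × Cl) :=
  if s.1.get v = 0 then pure s else
    growR bl wt q kk s.2.2.1 s.1 v >>= fun r => nat (2 * q * r.1) >>= fun a =>
      nat (a + q) >>= fun b =>
      filterP (fun x => decide (r.2.2.2.1.get x ≤ b)) r.2.2.1 >>= fun C =>
      filterP (fun x => decide (s.1.get x ≠ 0 ∧ a < r.2.2.2.1.get x)) r.2.2.1 >>= fun N =>
      revAppL N s.2.1 >>= fun nx => setAllP (fun _ => 0) r.2.2.1 s.1 >>= fun ys =>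
      setAllP (fun _ => v + 1) C s.2.2.1 >>= fun cen =>
      setAllP (fun x => r.2.2.2.2.get x) C s.2.2.2.1 >>= fun par =>
      setAllP (fun x => r.2.2.2.1.get x) C s.2.2.2.2.1 >>= fun dep =>
      revAppL C s.2.2.2.2.2 >>= fun ord => pure (ys, nx, cen, par, dep, ord)

theorem sp_carve (H : Hyp g G V bl wt q kk κ) {s : Arr ℕ × List ℕ × Cl}
    (h : Inv G V (2 * q * kk) q U (v :: rest) s.1.get s.2.1 s.2.2) :
    Sp g (carve bl wt q kk v s) fun s' t => Inv G V (2 * q * kk) q U rest s'.1.get s'.2.1 s'.2.2 ∧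
      t + (3 * kk * (κ + 5) + 31) * free V wt s'.2.2.1.get ≤
        (3 * kk * (κ + 5) + 31) * free V wt s.2.2.1.get := by
  refine sp_ite.2 ⟨fun c => ⟨h.skip c, (zero_add _).le⟩, fun c => ?_⟩
  obtain ⟨-, vV, -, v0⟩ := h.yr v c
  replace v0 := v0 v Near.refl
  refine (sp_growR H h.y1 c vV).bind fun r t0 ⟨hj, B, hc, ln, c0⟩ => ?_
  have hr : 2 * q * r.1 + 2 * q ≤ 2 * q * kk := by
    rw [← Nat.mul_succ]; exact Nat.mul_le_mul_left _ hj
  have hX := H.qX
  simp only [sp_bind, sp_nat]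
  refine ⟨by omega, by omega, (sp_filterP _ _).mono fun C t1 ⟨hC, c1⟩ =>
    (sp_filterP _ _).mono fun N t2 ⟨hN, c2⟩ => (sp_revAppL _ _).mono fun nx t3 ⟨e3, c3⟩ =>
    (sp_setAllP _ _ _).mono fun ys t4 ⟨e4, c4⟩ => (sp_setAllP _ _ _).mono fun cen t5 ⟨e5, c5⟩ =>
    (sp_setAllP _ _ _).mono fun par t6 ⟨e6, c6⟩ => (sp_setAllP _ _ _).mono fun dep t7 ⟨e7, c7⟩ =>
    (sp_revAppL _ _).mono fun ord t8 ⟨e8, c8⟩ => ⟨?_, ?_⟩⟩
  · subst e3
    exact h.step (c' := (cen, par, dep, ord)) H.wf c B (by omega) hc hC hN e4 e5 e6 e7 e8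
  · have f := free_step (wt := wt) (V := V) B v0 (b := 2 * q * r.1 + q) (by omega) hC e5
    have m := bw_mono (G := G) (V := V) (al := fun x => s.2.2.1.get x = 0) (s := v) wt
      (Nat.le_add_right (2 * q * r.1) q)
    have p := (H.pos v vV).trans (le_bw (G := G) (al := fun x => s.2.2.1.get x = 0)
      (r := 2 * q * r.1) wt vV)
    have l1 : C.length ≤ r.2.2.1.length := hC ▸ List.length_filter_le _ _
    have l2 : N.length ≤ r.2.2.1.length := hN ▸ List.length_filter_le _ _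
    have := Nat.mul_le_mul_left (3 * kk * (κ + 5)) m
    simp only
    rw [← f, mul_add _ (free _ _ _), add_mul _ 31 (bw _ _ _ _ _ _)]
    omega

/-- one colour: the postponed centres and the clusters -/
def colR (bl : Arr ℕ → ℕ → ℕ → R Bl) (wt : ℕ → ℕ) (q kk : ℕ) (U : List ℕ) : R (List ℕ × Cl) :=
  setAllP (fun _ => 1) U (Arr.cst 0) >>= fun ys =>
    foldL (carve bl wt q kk) U (ys, [], Arr.cst 0, Arr.cst (0, 0), Arr.cst 0, []) >>= fun s =>
      pure s.2

theorem sp_colR (H : Hyp g G V bl wt q kk κ) (nU : U.Nodup) (hU : ∀ x ∈ U, x ∈ V) :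
    Sp g (colR bl wt q kk U) fun o t => ClOk G V (2 * q * kk) o.2 ∧ o.1.Nodup ∧
      (∀ x ∈ o.1, x ∈ V) ∧ 2 * o.1.length ≤ U.length ∧ (∀ x ∈ U, x ∈ o.1 ∨ Cov G q o.2.1.get x) ∧
      t ≤ (3 * kk * (κ + 5) + 31) * ∑ x ∈ V, wt x + 2 * U.length + 2 := by
  refine (sp_setAllP _ _ _).bind fun ys t0 ⟨e, c0⟩ => (sp_foldL (fun l s t =>
    Inv G V (2 * q * kk) q U l s.1.get s.2.1 s.2.2 ∧
      t + (3 * kk * (κ + 5) + 31) * free V wt s.2.2.1.get + l.length ≤
        (3 * kk * (κ + 5) + 31) * ∑ x ∈ V, wt x + U.length)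
    (fun a l s t k => (sp_carve H k.1).mono fun s' u k' => ⟨k'.1, ?_⟩) (t := 0) ⟨?_, ?_⟩).bind
      fun s t ⟨u, e, k, c⟩ => ⟨k.col, k.nxn, k.nxs, ?_, fun x hx => ?_, ?_⟩
  · have := k.2; have := k'.2; rw [List.length_cons] at *; omega
  · refine ⟨Col.nil _ _ _ _ _, fun x => ?_, fun x hx => ?_, fun x hx => .inl ?_, List.nodup_nil,
      by simp, ?_⟩
    · rw [e]; split_ifs <;> simp
    · rw [e] at hx
      have : x ∈ U := by by_contra k; simp [k] at hx
      exact ⟨this, hU x this, by simp, fun _ _ => rfl⟩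
    · simp [e, hx]
    · have := sum_map_eq nU hU fun _ => 1
      simp only [e, Arr.get_cst, ← this]; simp
  · simp [free]
  · have := k.cnt; omega
  · exact (k.cov x hx).resolve_left fun h => by simpa using (k.yr x h).1
  · omega

end Crest.Agent.N325.Lt.Cv
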