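import Crest.Agent.N325.Lt.Cv1

/-!
# Row 325 (helper29): ball carving, the components
-/

set_option autoImplicit false
open Finset

namespace Crest.Agent.N325.Lt.Cv

variable {G : UG} {V : Finset ℕ} {al : ℕ → Prop} {s r lb κ : ℕ} {L : List ℕ} {D wt : ℕ → ℕ}
  {P : ℕ → ℕ × ℕ} {g : Gl} {bl : Arr ℕ → ℕ → ℕ → R Bl}

/-- distances are realised by simple paths -/
theorem Ball.depth (B : Ball G al s r L D P) (hG : G.WF V) (hs : s ∈ V)
    (hl : ∀ x ∈ V, ∀ e ∈ G.adj x, G.ln e ≤ lb) {x : ℕ} (hx : x ∈ L) : D x + lb ≤ V.card * lb := by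
  have LV : ∀ x ∈ L, x ∈ V := fun x hx => ((B.mem x).1 hx).mem hG hs
  have key : ∀ n, ∀ x ∈ L, D x = n → D x ≤ (V.filter fun y => D y < D x).card * lb := by
    intro n
    induction n using Nat.strong_induction_on with
    | _ n ih =>
      intro x hx e
      by_cases c : x = s
      · rw [c, B.self.2]; exact Nat.zero_le _
      obtain ⟨p1, p2, -, p4⟩ := B.par x hx c
      have h1 := hG.pos _ (LV _ p1) _ p2
      have h2 := hl _ (LV _ p1) _ p2
      have h3 := ih _ (by omega) _ p1 rfl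
      have h4 : (V.filter fun y => D y < D (P x).1).card + 1 ≤
          (V.filter fun y => D y < D x).card :=
        card_lt_card ⟨fun y hy => mem_filter.2 ⟨(mem_filter.1 hy).1,
          by have := (mem_filter.1 hy).2; omega⟩, fun k => by
            have := mem_filter.1 (k (mem_filter.2 ⟨LV _ p1, by omega⟩)); omega⟩
      have := Nat.mul_le_mul_right lb h4
      rw [add_mul] at this; omega
  have h4 : (V.filter fun y => D y < D x).card + 1 ≤ V.card :=
    card_lt_card ⟨filter_subset _ _, fun k => by have := mem_filter.1 (k (LV x hx)); omega⟩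
  have := Nat.mul_le_mul_right lb h4
  have := key _ x hx rfl
  rw [add_mul] at *; omega

/-- the component of `v` becomes a cluster -/
def compR (bl : Arr ℕ → ℕ → ℕ → R Bl) (Q v : ℕ) (c : Cl) : R Cl :=
  if c.1.get v = 0 then
    bl c.1 v Q >>= fun o => setAllP (fun _ => v + 1) o.1 c.1 >>= fun cen =>
      setAllP (fun x => o.2.2.get x) o.1 c.2.1 >>= fun par =>
      setAllP (fun x => o.2.1.get x) o.1 c.2.2.1 >>= fun dep =>
      revAppL o.1 c.2.2.2 >>= fun ord => pure (cen, par, dep, ord)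
  else pure c

/-- all components -/
def compsR (bl : Arr ℕ → ℕ → ℕ → R Bl) (Q : ℕ) (U : List ℕ) : R Cl :=
  foldL (compR bl Q) U (Arr.cst 0, Arr.cst (0, 0), Arr.cst 0, [])

/-- the clusters are closed under adjacency -/
def Closed (G : UG) (V : Finset ℕ) (cen : ℕ → ℕ) : Prop :=
  ∀ x ∈ V, cen x ≠ 0 → ∀ e ∈ G.adj x, cen (G.hd x e) = cen x

theorem sp_compR {Q v : ℕ} {c : Cl} (hG : G.WF V) (hb : BSpec g G V bl wt Q κ)
    (pos : ∀ x ∈ V, 1 ≤ wt x) (hl : ∀ x ∈ V, ∀ e ∈ G.adj x, G.ln e ≤ lb) (hQ : V.card * lb ≤ Q)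
    (vV : v ∈ V) (h : ClOk G V Q c) (hc : Closed G V c.1.get) :
    Sp g (compR bl Q v c) fun c' t => ClOk G V Q c' ∧ Closed G V c'.1.get ∧ c'.1.get v ≠ 0 ∧
      (∀ x, c.1.get x ≠ 0 → c'.1.get x ≠ 0) ∧
      t + (2 * κ + 8) * free V wt c'.1.get ≤ (2 * κ + 8) * free V wt c.1.get := by
  refine sp_ite.2 ⟨fun v0 => ?_, fun k => ⟨h, hc, k, fun _ => id, (zero_add _).le⟩⟩
  refine (hb c.1 v Q vV le_rfl).bind fun o t0 ⟨B, c0⟩ =>
    (sp_setAllP _ _ _).bind fun cen t1 ⟨e1, c1⟩ => (sp_setAllP _ _ _).bind fun par t2 ⟨e2, c2⟩ =>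
    (sp_setAllP _ _ _).bind fun dep t3 ⟨e3, c3⟩ => (sp_revAppL _ _).bind fun ord t4 ⟨e4, c4⟩ => ?_
  have hC : o.1 = o.1.filter fun x => decide (o.2.1.get x ≤ Q) :=
    (List.filter_eq_self.2 fun x hx => decide_eq_true (B.le hx)).symm
  have z : ∀ x ∈ o.1, c.1.get x = 0 := fun x hx =>
    Near.live (al := fun x => c.1.get x = 0) v0 ((B.mem x).1 hx)
  refine ⟨?_, fun x hx k e he => ?_, ?_, fun x k => ?_, ?_⟩
  · subst e4; exact Col.add h hG vV v0 B le_rfl hC e1 e2 e3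
  · simp only [e1] at k ⊢
    obtain ⟨e', s1, s2, -⟩ := hG.sym x hx e he
    by_cases m : x ∈ o.1
    · have y0 : c.1.get (G.hd x e) = 0 := by
        by_contra y0
        have := hc _ (hG.mem x hx e he) y0 e' s1
        rw [s2, z x m] at this
        exact y0 this.symm
      have := B.depth hG vV hl m
      have := hl x hx e he
      rw [if_pos m, if_pos ((B.mem _).2 ⟨_, by omega, (B.wk x m).step he y0⟩)]
    · rw [if_neg m] at k
      have := hc x hx k e he
      rw [if_neg m, if_neg fun m' => k (this ▸ z _ m'), this]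
  · simp only [e1, if_pos B.self.1]; omega
  · simp only [e1]; split_ifs <;> omega
  · have f := free_step (wt := wt) (V := V) B v0 le_rfl hC e1
    have s4 := B.sum_all hG vV wt
    have ln : o.1.length ≤ (o.1.map wt).sum :=
      length_le_sum fun x hx => pos x (((B.mem x).1 hx).mem hG vV)
    have p := (pos v vV).trans (le_bw (G := G) (al := fun x => c.1.get x = 0) (r := Q) wt vV)
    simp only
    rw [← f, mul_add _ (free _ _ _), ← s4] at *
    nlinarith

theorem sp_compsR {Q : ℕ} {U : List ℕ} (hG : G.WF V) (hb : BSpec g G V bl wt Q κ)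
    (pos : ∀ x ∈ V, 1 ≤ wt x) (hl : ∀ x ∈ V, ∀ e ∈ G.adj x, G.ln e ≤ lb) (hQ : V.card * lb ≤ Q)
    (hU : ∀ x ∈ U, x ∈ V) :
    Sp g (compsR bl Q U) fun c t => ClOk G V Q c ∧ Closed G V c.1.get ∧ (∀ x ∈ U, c.1.get x ≠ 0) ∧
      t ≤ (2 * κ + 8) * ∑ x ∈ V, wt x + U.length + 1 := by
  refine (sp_foldL (fun l c t => (∀ x ∈ l, x ∈ V) ∧ ClOk G V Q c ∧ Closed G V c.1.get ∧
      (∀ x ∈ U, x ∈ l ∨ c.1.get x ≠ 0) ∧
      t + (2 * κ + 8) * free V wt c.1.get + l.length ≤ (2 * κ + 8) * ∑ x ∈ V, wt x + U.length)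
    (fun a l c t ⟨k1, k2, k3, k4, k5⟩ => (sp_compR hG hb pos hl hQ (k1 a List.mem_cons_self)
      k2 k3).mono fun c' u ⟨h1, h2, h3, h4, h5⟩ =>
        ⟨fun x hx => k1 x (List.mem_cons_of_mem _ hx), h1, h2, fun x hx => ?_, ?_⟩) (t := 0)
      ⟨hU, by exact Col.nil _ _ _ _ _, fun x _ k => absurd rfl k, fun x hx => .inl hx, ?_⟩).mono
      fun c t ⟨u, e, _, k2, k3, k4, k5⟩ => ⟨k2, k3, fun x hx => ?_, by omega⟩
  · rcases k4 x hx with k | k
    · rcases List.mem_cons.1 k with rfl | k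
      · exact .inr h3
      · exact .inl k
    · exact .inr (h4 x k)
  · rw [List.length_cons] at k5; omega
  · simp [free]
  · simpa using k4 x hx

end Crest.Agent.N325.Lt.Cv
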