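import Crest.Agent.N325.Lt.Code

/-!
# Row 325 (helper91): structure of the concrete lifted forest
-/

set_option autoImplicit false
open Finset

namespace Crest.Agent.N325.Lt
open Tw

/-- the standing hypotheses -/
structure Cx (G : Gr) (V : List ℕ) (P : Pm) (C : ℕ → ℕ → Col) (pv : ℕ → ℕ) (T : LF) : Prop where
  hV : Vtx G V
  hC : Covers G V P C
  hpv : Chain G pv
  hP : P.Ok
  pos : Pos G
  is : T.Is G P C pv

section val
variable {G : Gr} {V : List ℕ} {P : Pm} {C : ℕ → ℕ → Col}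

theorem val_col (hC : Covers G V P C) (hP : P.Ok) {j i v w : ℕ} (h : val P C j i v w)
    (hij : i + j = P.D) : (C i (w % P.s)).Ok G V (P.β * P.ρ ^ i) ∧ v ∈ (C i (w % P.s)).ord ∧
      w < P.s ^ j := by
  induction j generalizing i v w with
  | zero =>
    obtain ⟨h1, rfl⟩ := h
    obtain rfl : i = P.D := by omega
    rw [Nat.zero_mod]; exact ⟨hC.2.1, h1, by simp⟩
  | succ j ih =>
    have hs := hP.s1
    refine ⟨(hC.1 i (by omega)).1 _ (Nat.mod_lt _ hs), h.1, ?_⟩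
    have := (ih h.2 (by omega)).2.2
    rw [Nat.div_lt_iff_lt_mul hs] at this
    rwa [pow_succ]

theorem val_congr {j i v v' w : ℕ} (h : val P C j i v w) (h1 : v' ∈ (C i (w % P.s)).ord)
    (h2 : (C i (w % P.s)).cen.get v' = (C i (w % P.s)).cen.get v) : val P C j i v' w := by
  cases j with
  | zero => obtain ⟨_, rfl⟩ := h; rw [Nat.zero_mod] at h1; exact ⟨h1, rfl⟩
  | succ j => exact ⟨h1, by rw [h2]; exact h.2⟩

theorem val_lt (hC : Covers G V P C) (hP : P.Ok) {j i v w : ℕ} (h : val P C j i v w)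
    (hij : i + j = P.D) : w < P.S := by
  have := (val_col hC hP h hij).2.2
  rw [hP.hS]; exact this.trans_le (Nat.pow_le_pow_right hP.s1 (by omega))

theorem rts_congr {j i v v' w : ℕ}
    (h2 : (C i (w % P.s)).cen.get v' = (C i (w % P.s)).cen.get v) :
    rts P C j i v' w = rts P C j i v w := by
  cases j with
  | zero => rfl
  | succ j => simp only [rts, h2]

theorem length_rts (j i v w : ℕ) : (rts P C j i v w).length = j := by
  induction j generalizing i v w with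
  | zero => rfl
  | succ j ih => simp only [rts, List.length_cons, ih]

theorem top_near (hC : Covers G V P C) {u v d : ℕ} (h : Near G u v d) :
    (C P.D 0).cen.get v = (C P.D 0).cen.get u := by
  induction h with
  | refl => rfl
  | @step q d hq _ ih =>
    rw [← ih]
    have he := hC.2.2.2 _ hq.2
    have h3 := hq.1
    rcases (by omega : q % 3 = 1 ∨ q % 3 = 2) with h | h
    · obtain ⟨e, rfl⟩ : ∃ e, q = 3 * e + 1 := ⟨q / 3, by omega⟩
      rw [opp_a, vq_a, vq_b]; rw [show (3 * e + 1) / 3 = e by omega] at he; exact he.symm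
    · obtain ⟨e, rfl⟩ : ∃ e, q = 3 * e + 2 := ⟨q / 3, by omega⟩
      rw [opp_b, vq_a, vq_b]; rw [show (3 * e + 2) / 3 = e by omega] at he; exact he

theorem top_mem_rts (hC : Covers G V P C) (hP : P.Ok) (hp : Pos G) {j i v w : ℕ}
    (h : val P C j i v w) (hij : i + j = P.D) :
    P.nd (3 * (C P.D 0).cen.get v) P.D 0 ∈ rts P C (j + 1) i v w := by
  induction j generalizing i v w with
  | zero =>
    obtain ⟨_, rfl⟩ := h
    obtain rfl : i = P.D := by omega
    simp [rts]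
  | succ j ih =>
    obtain ⟨h1, h2, _⟩ := val_col hC hP h hij
    have h3 := ih h.2 (by omega)
    rw [top_near hC (h1.cen hp v h2).2.2] at h3
    rw [rts]; exact List.mem_cons_of_mem _ h3

end val

namespace Cx
variable {G : Gr} {V : List ℕ} {P : Pm} {C : ℕ → ℕ → Col} {pv : ℕ → ℕ} {T : LF}
  (X : Cx G V P C pv T)
include X

theorem node {x : ℕ} (hx : x ∈ T.ord) : Node G P C x := (X.is.mem x).1 hx

theorem col {x : ℕ} (hx : x ∈ T.ord) : (colF P C x).Ok G V (P.β * P.ρ ^ P.lv x) ∧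
    vq G.ed (P.ps x) ∈ (colF P C x).ord :=
  have h := X.node hx
  have h' := val_col X.hC X.hP h.2.2 (by have := h.1; omega)
  ⟨h'.1, h'.2.1⟩

theorem nd_mem {p i w : ℕ} (hi : i ≤ P.D) (hp : p % 3 = 0 ∨ Slot G p)
    (h : val P C (P.D - i) i (vq G.ed p) w) : P.nd p i w ∈ T.ord := by
  have hw := val_lt X.hC X.hP h (by omega)
  rw [X.is.mem]
  unfold Node
  rw [P.ps_nd hw (by omega), P.lv_nd hw (by omega), P.cd_nd hw]
  exact ⟨hi, hp, h⟩

/-- the four kinds of nodes -/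
theorem pc {x : ℕ} (hx : x ∈ T.ord) :
    (Slot G (P.ps x) ∧ P.ps (T.par.get x) = pv (P.ps x) ∧ P.lv (T.par.get x) = P.lv x ∧
      P.cd (T.par.get x) = P.cd x ∧ T.pe.get x = none ∧ T.H.get x = T.H.get (T.par.get x) ∧
      T.par.get x ≠ x) ∨
    (P.ps x % 3 = 0 ∧ (colF P C x).cen.get (P.ps x / 3) ≠ P.ps x / 3 ∧
      P.ps (T.par.get x) = (colF P C x).pq.get (P.ps x / 3) ∧ P.lv (T.par.get x) = P.lv x ∧
      P.cd (T.par.get x) = P.cd x ∧ T.pe.get x = some ((colF P C x).pq.get (P.ps x / 3) / 3,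
        decide ((colF P C x).pq.get (P.ps x / 3) % 3 = 1)) ∧
      T.H.get x = T.H.get (T.par.get x) + (G.ed ((colF P C x).pq.get (P.ps x / 3) / 3)).l ∧
      T.par.get x ≠ x) ∨
    (P.ps x % 3 = 0 ∧ (colF P C x).cen.get (P.ps x / 3) = P.ps x / 3 ∧ P.lv x < P.D ∧
      P.ps (T.par.get x) = P.ps x ∧ P.lv (T.par.get x) = P.lv x + 1 ∧
      P.cd (T.par.get x) = P.cd x / P.s ∧ T.pe.get x = none ∧
      T.H.get x = T.H.get (T.par.get x) + 1 ∧ T.par.get x ≠ x) ∨
    (P.ps x % 3 = 0 ∧ (colF P C x).cen.get (P.ps x / 3) = P.ps x / 3 ∧ P.lv x = P.D ∧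
      T.par.get x = x ∧ T.pe.get x = none ∧ T.H.get x = 0) := by
  have hn := X.node hx
  have hw := Pm.cd_lt X.hP x
  have hl := P.lv_lt x
  have hpar := X.is.par x hx
  have hpe := X.is.pe x hx
  have hH := X.is.hH x hx
  unfold parF at hpar
  unfold peF at hpe
  unfold hlF at hH
  by_cases h3 : P.ps x % 3 ≠ 0
  · have hs : Slot G (P.ps x) := hn.2.1.resolve_left h3
    rw [if_pos h3] at hpar hH
    rw [if_neg (fun h => h3 h.1)] at hpe
    have hps : P.ps (T.par.get x) = pv (P.ps x) := by rw [hpar, P.ps_nd hw hl]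
    have hne : T.par.get x ≠ x := fun h => (X.hpv.1 _ hs).2.2 (by rw [← hps, h])
    rw [if_neg hne, add_zero] at hH
    exact Or.inl ⟨hs, hps, by rw [hpar, P.lv_nd hw hl], by rw [hpar, P.cd_nd hw], hpe, hH, hne⟩
  · rw [if_neg h3] at hpar hH
    have h0 : P.ps x % 3 = 0 := by omega
    by_cases hc : (colF P C x).cen.get (P.ps x / 3) ≠ P.ps x / 3
    · rw [if_pos hc] at hpar hH
      rw [if_pos ⟨h0, hc⟩] at hpe
      have hps : P.ps (T.par.get x) = (colF P C x).pq.get (P.ps x / 3) := by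
        rw [hpar, P.ps_nd hw hl]
      have hk := X.col hx
      rw [vq_of_main _ h0] at hk
      have hs := (hk.1.tree _ hk.2 hc).1
      have hne : T.par.get x ≠ x := fun h => hs.1 (by rw [← hps, h]; exact h0)
      rw [if_neg hne] at hH
      exact Or.inr (Or.inl ⟨h0, hc, hps, by rw [hpar, P.lv_nd hw hl], by rw [hpar, P.cd_nd hw],
        hpe, hH, hne⟩)
    · rw [if_neg hc] at hpar hH
      rw [if_neg (fun h => hc h.2)] at hpe
      have hc' := not_not.1 hc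
      by_cases hD : P.lv x = P.D
      · rw [if_pos hD] at hpar
        rw [if_pos hpar] at hH
        exact Or.inr (Or.inr (Or.inr ⟨h0, hc', hD, hpar, hpe, hH⟩))
      · rw [if_neg hD] at hpar
        have hlt : P.lv x < P.D := lt_of_le_of_ne hn.1 hD
        have hw' : P.cd x / P.s < P.S := (Nat.div_le_self _ _).trans_lt hw
        have hlv : P.lv (T.par.get x) = P.lv x + 1 := by rw [hpar, P.lv_nd hw' (by omega)]
        have hne : T.par.get x ≠ x := fun h => by rw [h] at hlv; omega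
        rw [if_neg hne] at hH
        exact Or.inr (Or.inr (Or.inl ⟨h0, hc', hlt, by rw [hpar, P.ps_nd hw' (by omega)], hlv,
          by rw [hpar, P.cd_nd hw'], hpe, hH, hne⟩))

theorem ps_nm {x : ℕ} (hx : x ∈ T.ord) : P.ps (T.nm.get x) = 3 * vq G.ed (P.ps x) ∧
    P.lv (T.nm.get x) = P.lv x ∧ P.cd (T.nm.get x) = P.cd x := by
  have hw := Pm.cd_lt X.hP x
  have hl := P.lv_lt x
  rw [X.is.nm x hx, nmF]
  exact ⟨P.ps_nd hw hl, P.lv_nd hw hl, P.cd_nd hw⟩

theorem nm_mem {x : ℕ} (hx : x ∈ T.ord) : T.nm.get x ∈ T.ord := by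
  have hn := X.node hx
  rw [X.is.nm x hx, nmF]
  exact X.nd_mem hn.1 (Or.inl (by omega)) (by rw [vq_main]; exact hn.2.2)

theorem nm_main {x : ℕ} (hx : x ∈ T.ord) (h0 : P.ps x % 3 = 0) : T.nm.get x = x := by
  obtain ⟨h1, h2, h3⟩ := X.ps_nm hx
  refine P.ext ?_ h2 h3
  rw [h1, vq_of_main _ h0]; omega

theorem nm_eq {x y : ℕ} (hx : x ∈ T.ord) (hy : y ∈ T.ord)
    (h1 : vq G.ed (P.ps x) = vq G.ed (P.ps y)) (h2 : P.lv x = P.lv y) (h3 : P.cd x = P.cd y) :
    T.nm.get x = T.nm.get y := by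
  rw [X.is.nm x hx, X.is.nm y hy, nmF, nmF, h1, h2, h3]

theorem par_mem {x : ℕ} (hx : x ∈ T.ord) : T.par.get x ∈ T.ord := X.is.pl.par_mem hx

theorem nm_slot {x : ℕ} (hx : x ∈ T.ord) (hs : Slot G (P.ps x))
    (h1 : P.ps (T.par.get x) = pv (P.ps x)) (h2 : P.lv (T.par.get x) = P.lv x)
    (h3 : P.cd (T.par.get x) = P.cd x) : T.nm.get (T.par.get x) = T.nm.get x :=
  X.nm_eq (X.par_mem hx) hx (by rw [h1]; exact (X.hpv.1 _ hs).2.1) h2 h3

theorem grad {x : ℕ} (hx : x ∈ T.ord) :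
    T.G.get x = T.G.get (T.par.get x) + wg G.ed (T.pe.get x).toList := by
  have h := X.is.hG x hx
  by_cases hr : T.par.get x = x
  · have : T.pe.get x = none := by
      rcases X.pc hx with h | h | h | h
      · exact absurd hr h.2.2.2.2.2.2
      · exact absurd hr h.2.2.2.2.2.2.2
      · exact absurd hr h.2.2.2.2.2.2.2.2
      · exact h.2.2.2.2.1
    rw [this, hr]; simp [wg, wsum]
  · rwa [if_neg hr] at h

theorem nm_anc : ∀ x ∈ T.ord, T.H.get (T.nm.get x) = T.H.get x ∧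
    T.G.get (T.nm.get x) = T.G.get x ∧ Anc T.par.get x (T.nm.get x) ∧
    ∀ y, Anc T.par.get x y → T.nm.get y = T.nm.get x ∨ Anc T.par.get (T.nm.get x) y := by
  refine X.is.pl.ind fun x hx ih => ?_
  by_cases h0 : P.ps x % 3 = 0
  · rw [X.nm_main hx h0]; exact ⟨rfl, rfl, Anc.refl _ _, fun y hy => Or.inr hy⟩
  · rcases X.pc hx with h | h | h | h
    · obtain ⟨hs, h1, h2, h3, h4, h5, h6⟩ := h
      obtain ⟨i1, i2, i3, i4⟩ := ih h6
      have hg := X.grad hx
      rw [X.nm_slot hx hs h1 h2 h3] at i1 i2 i3 i4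
      rw [h4] at hg
      refine ⟨by rw [i1, h5], by rw [i2, hg]; simp [wg, wsum], i3.of_par, fun y hy => ?_⟩
      rcases hy.cases with rfl | hy
      · exact Or.inl rfl
      · exact i4 y hy
    all_goals exact absurd h.1 h0

theorem tel {x : ℕ} (hx : x ∈ T.ord) :
    Tel G.ed (T.pe.get x).toList (vq G.ed (P.ps (T.par.get x))) (vq G.ed (P.ps x)) := by
  intro z
  rcases X.pc hx with h | h | h | h
  · obtain ⟨hs, h1, _, _, h4, _⟩ := h
    rw [h4, h1, (X.hpv.1 _ hs).2.1]; simp [wsum]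
  · obtain ⟨h0, hc, h1, _, _, h4, _⟩ := h
    have hk := X.col hx
    rw [vq_of_main _ h0] at hk
    obtain ⟨hs, ho, _⟩ := hk.1.tree _ hk.2 hc
    rw [h4, h1, vq_of_main _ h0]
    generalize (colF P C x).pq.get (P.ps x / 3) = q at *
    rw [← ho]
    have h3 := hs.1
    rcases (by omega : q % 3 = 1 ∨ q % 3 = 2) with h | h
    · obtain ⟨e, rfl⟩ : ∃ e, q = 3 * e + 1 := ⟨q / 3, by omega⟩
      rw [opp_a, vq_a, vq_b, show (3 * e + 1) / 3 = e by omega]
      simp [wsum, sg, dz, h]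
    · obtain ⟨e, rfl⟩ : ∃ e, q = 3 * e + 2 := ⟨q / 3, by omega⟩
      rw [opp_b, vq_a, vq_b, show (3 * e + 2) / 3 = e by omega]
      simp [wsum, sg, dz, h]
  · rw [h.2.2.2.2.2.2.1, h.2.2.2.1]; simp [wsum]
  · rw [h.2.2.2.2.1, h.2.2.2.1]; simp [wsum]

theorem par_mono {x : ℕ} (hx : x ∈ T.ord) :
    P.lv x ≤ P.lv (T.par.get x) ∧ T.H.get (T.par.get x) ≤ T.H.get x := by
  rcases X.pc hx with h | h | h | h
  · exact ⟨h.2.2.1.ge, h.2.2.2.2.2.1.ge⟩
  · exact ⟨h.2.2.2.1.ge, by rw [h.2.2.2.2.2.2.1]; omega⟩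
  · exact ⟨by rw [h.2.2.2.2.1]; omega, by rw [h.2.2.2.2.2.2.2.1]; omega⟩
  · rw [h.2.2.2.1]; exact ⟨le_rfl, le_rfl⟩

theorem anc_mono {x y : ℕ} (hx : x ∈ T.ord) (h : Anc T.par.get x y) :
    y ∈ T.ord ∧ P.lv x ≤ P.lv y ∧ T.H.get y ≤ T.H.get x :=
  h.ind (Q := fun y => y ∈ T.ord ∧ P.lv x ≤ P.lv y ∧ T.H.get y ≤ T.H.get x) ⟨hx, le_rfl, le_rfl⟩
    fun _ hz => ⟨X.par_mem hz.1, hz.2.1.trans (X.par_mono hz.1).1, (X.par_mono hz.1).2.trans hz.2.2⟩

theorem nw_not_mem (v : ℕ) : P.nw v ∉ T.ord := fun h => by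
  have := (X.node h).1
  rw [Pm.nw, P.lv_nd X.hP.S_pos (by omega)] at this
  omega

end Cx

end Crest.Agent.N325.Lt
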