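import Crest.Agent.N325.Lt.Obj
import Crest.Agent.N325.Lt.Cnt
import Crest.Agent.N325.Lt.Str

/-!
# Row 325 (helper29): the fields of the nodes of the lifted forest
-/

set_option autoImplicit false

namespace Crest.Agent.N325.Lt
open Tw

/-- the gradient of the link to the parent -/
def geF (ed : ℕ → Ed) (P : Pm) (C : ℕ → ℕ → Col) (x : ℕ) : ℤ :=
  if P.ps x % 3 = 0 ∧ (colF P C x).cen.get (P.ps x / 3) ≠ P.ps x / 3 then
    (if (colF P C x).pq.get (P.ps x / 3) % 3 = 1 then (ed ((colF P C x).pq.get (P.ps x / 3) / 3)).g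
      else -(ed ((colF P C x).pq.get (P.ps x / 3) / 3)).g)
  else 0

/-- the level roots from those of the parent -/
def rtS (P : Pm) (C : ℕ → ℕ → Col) (x : ℕ) (l : List ℕ) : List ℕ :=
  if P.ps x % 3 = 0 ∧ (colF P C x).cen.get (P.ps x / 3) = P.ps x / 3 then
    (if P.lv x = P.D then [x] else x :: l)
  else l

/-- one node -/
def fill1 (P : Pm) (ed : Arr Ed) (pv : Arr ℕ) (C : Arr (Arr Col)) (x : ℕ) (T : LF) : R LF :=
  nat (parF P (fun i j => (C.get i).get j) (fun q => pv.get q) x) >>= fun p =>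
  nat (if p = x then 0 else T.H.get p + hlF ed.get P (fun i j => (C.get i).get j) x) >>= fun h =>
  int (if p = x then 0 else T.G.get p + geF ed.get P (fun i j => (C.get i).get j) x) >>= fun γ =>
  nat (nmF ed.get P x) >>= fun n =>
  pure ⟨T.ord, T.par.set x p, T.pe.set x (peF P (fun i j => (C.get i).get j) x), T.H.set x h,
    T.G.set x γ, T.nm.set x n,
    T.cl.set x (n :: rtS P (fun i j => (C.get i).get j) x (T.cl.get p).tail), T.tc, T.cop, T.obj⟩

/-- **all nodes**, parents first -/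
def fillR (P : Pm) (ed : Arr Ed) (pv : Arr ℕ) (C : Arr (Arr Col)) (ord : List ℕ) : R LF :=
  revL ord >>= fun r => foldL (fill1 P ed pv C) r ⟨ord, Arr.cst 0, Arr.cst none, Arr.cst 0,
    Arr.cst 0, Arr.cst 0, Arr.cst [], Arr.cst [], Arr.cst [], []⟩

variable {G : Gr} {c : Bd} {V : List ℕ} {P : Pm} {C : ℕ → ℕ → Col} {pv : ℕ → ℕ} {x : ℕ} {g : Gl}

theorem pl_congr {par par' : ℕ → ℕ} {l : List ℕ} (h : PL par l) (e : ∀ x ∈ l, par' x = par x) :
    PL par' l := by
  induction l with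
  | nil => trivial
  | cons a l ih =>
    exact ⟨by rw [e a List.mem_cons_self]; exact h.1, ih h.2 fun x hx => e x (by simp [hx])⟩

theorem pl_suffix {par : ℕ → ℕ} {l l' : List ℕ} (h : PL par (l ++ l')) : PL par l' := by
  induction l with
  | nil => exact h
  | cons a l ih => exact ih h.2

theorem geF_eq (ed : ℕ → Ed) : geF ed P C x = wg ed (peF P C x).toList := by
  unfold geF peF
  split_ifs with h k <;> simp [wg, wsum, sg, *]

theorem Node.slot_pq (h : Node G P C x) (hP : P.Ok) (hC : Covers G V P C) (h0 : P.ps x % 3 = 0)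
    (hc : (colF P C x).cen.get (P.ps x / 3) ≠ P.ps x / 3) :
    Slot G ((colF P C x).pq.get (P.ps x / 3)) ∧
      (colF P C x).cen.get (vq G.ed ((colF P C x).pq.get (P.ps x / 3))) =
        (colF P C x).cen.get (vq G.ed (P.ps x)) := by
  obtain ⟨⟨_, k⟩, m⟩ := h.colOk hP hC
  rw [vq_of_main _ h0] at m ⊢
  exact ⟨(k.tree _ m hc).1, (k.tree _ m hc).2.2.2.1⟩

theorem Node.rtS (h : Node G P C x) (hP : P.Ok) (hC : Covers G V P C) (hp : Chain G pv)
    {l : List ℕ} (hl : parF P C pv x ≠ x → l = rtF G.ed P C (parF P C pv x)) :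
    rtS P C x l = rtF G.ed P C x := by
  have hw := Pm.cd_lt hP x
  have hl' := P.lv_lt x
  have hD := h.1
  unfold Lt.rtS
  unfold parF at hl
  by_cases h3 : P.ps x % 3 ≠ 0
  · have hs : Slot G (P.ps x) := h.2.1.resolve_left h3
    rw [if_pos h3] at hl
    rw [if_neg fun k => h3 k.1, hl fun k => (hp.1 _ hs).2.2 (by
      conv_rhs => rw [← k, P.ps_nd hw hl'])]
    simp only [rtF, P.ps_nd hw hl', P.lv_nd hw hl', P.cd_nd hw, (hp.1 _ hs).2.1]
  · have h0 : P.ps x % 3 = 0 := by omega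
    rw [if_neg h3] at hl
    by_cases hc : (colF P C x).cen.get (P.ps x / 3) ≠ P.ps x / 3
    · obtain ⟨s, e⟩ := h.slot_pq hP hC h0 hc
      rw [if_pos hc] at hl
      rw [if_neg fun k => hc k.2, hl fun k => s.1 (by
        rw [← P.ps_nd (p := (colF P C x).pq.get (P.ps x / 3)) hw hl', k]; exact h0)]
      simp only [rtF, P.ps_nd hw hl', P.lv_nd hw hl', P.cd_nd hw]
      exact rts_congr e
    · have hc' := not_not.1 hc
      have e : P.nd (3 * (C (P.lv x) (P.cd x % P.s)).cen.get (P.ps x / 3)) (P.lv x) (P.cd x) = x := by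
        rw [show (C (P.lv x) (P.cd x % P.s)).cen.get (P.ps x / 3) = P.ps x / 3 from hc',
          show 3 * (P.ps x / 3) = P.ps x by omega, P.nd_eta]
      rw [if_neg hc] at hl
      rw [if_pos ⟨h0, hc'⟩, rtF, show P.D + 1 - P.lv x = P.D - P.lv x + 1 by omega, rts,
        vq_of_main _ h0, e]
      split_ifs with hD'
      · rw [hD', Nat.sub_self, rts]
      · have hw' : P.cd x / P.s < P.S := (Nat.div_le_self _ _).trans_lt hw
        have hl2 : P.lv x + 1 < P.D + 2 := by omega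
        rw [if_neg hD'] at hl
        rw [hl fun k => by have := congrArg P.lv k; rw [P.lv_nd hw' hl2] at this; omega]
        simp only [rtF, P.ps_nd hw' hl2, P.lv_nd hw' hl2, P.cd_nd hw', vq_of_main _ h0]
        rw [show (C (P.lv x) (P.cd x % P.s)).cen.get (P.ps x / 3) = P.ps x / 3 from hc',
          show P.D + 1 - (P.lv x + 1) = P.D - P.lv x by omega]

theorem Node.nm (h : Node G P C x) (hP : P.Ok) : Node G P C (nmF G.ed P x) := by
  have hw := Pm.cd_lt hP x
  have hl := P.lv_lt x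
  unfold Node nmF
  rw [P.ps_nd hw hl, P.lv_nd hw hl, P.cd_nd hw, vq_main]
  exact ⟨h.1, .inl (by omega), h.2.2⟩

theorem Node.ed_congr (h : Node G P C x) (hP : P.Ok) (hC : Covers G V P C) (hG : G.Ok c)
    {ed : ℕ → Ed} (he : ∀ e ∈ G.E, ed e = G.ed e) :
    hlF ed P C x = hlF G.ed P C x ∧ geF ed P C x = geF G.ed P C x ∧ nmF ed P x = nmF G.ed P x ∧
      hlF G.ed P C x ≤ c.lb + 1 ∧ (geF G.ed P C x).natAbs ≤ c.gb := by
  by_cases h0 : P.ps x % 3 = 0
  · have e : nmF ed P x = nmF G.ed P x := by simp only [nmF, vq_of_main _ h0]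
    by_cases hc : (colF P C x).cen.get (P.ps x / 3) ≠ P.ps x / 3
    · have s := (h.slot_pq hP hC h0 hc).1.2
      have b := hG.2.2 _ s
      simp only [hlF, geF, h0, hc, he _ s, e, ne_eq, not_true, not_false_iff, and_self, if_true,
        if_false, true_and]
      refine ⟨b.2.2.2.2.1.trans (Nat.le_succ _), ?_⟩
      split_ifs
      · exact b.2.2.2.2.2
      · rw [Int.natAbs_neg]; exact b.2.2.2.2.2
    · simp [hlF, geF, h0, hc, e]
  · have s := (h.2.1.resolve_left h0).2
    simp [hlF, geF, h0, nmF, vq, he _ s]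

/-- the fields at `x` -/
def Fl (G : Gr) (P : Pm) (C : ℕ → ℕ → Col) (pv : ℕ → ℕ) (T : LF) (x : ℕ) : Prop :=
  T.par.get x = parF P C pv x ∧ T.pe.get x = peF P C x ∧
    T.H.get x = (if parF P C pv x = x then 0 else T.H.get (parF P C pv x) + hlF G.ed P C x) ∧
    T.G.get x = (if parF P C pv x = x then 0 else T.G.get (parF P C pv x) + geF G.ed P C x) ∧
    T.nm.get x = nmF G.ed P x ∧ T.cl.get x = nmF G.ed P x :: rtF G.ed P C x

theorem sp_fillR {ed : Arr Ed} {pv : Arr ℕ} {C : Arr (Arr Col)} {ord : List ℕ} (hP : P.Ok)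
    (hC : Covers G V P fun i j => (C.get i).get j) (hp : Chain G pv.get) (hG : G.Ok c)
    (he : ∀ e ∈ G.E, ed.get e = G.ed e) (nd : ord.Nodup)
    (mem : ∀ x, x ∈ ord ↔ Node G P (fun i j => (C.get i).get j) x)
    (pl : PL (parF P (fun i j => (C.get i).get j) pv.get) ord) (hX : ∀ x ∈ ord, x ≤ g.X)
    (hH : ord.length * (c.lb + 1) ≤ g.X) (hg : ord.length * c.gb ≤ g.X) :
    Sp g (fillR P ed pv C ord) fun T t => T.Pre G P (fun i j => (C.get i).get j) pv.get ∧
      T.ord = ord ∧ t ≤ 2 * ord.length + 2 := by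
  set C' := fun i j => (C.get i).get j with hC'
  refine (sp_revL ord).bind fun r t0 ⟨e0, c0⟩ => (sp_foldL' (fun l (T : LF) => T.ord = ord ∧
    ∃ dn, ord = l.reverse ++ dn ∧ ∀ x ∈ dn, Fl G P C' pv.get T x ∧
      T.H.get x ≤ dn.length * (c.lb + 1) ∧ (T.G.get x).natAbs ≤ dn.length * c.gb) (fun _ => 0)
    (fun a l T ⟨k0, dn, k1, k2⟩ => ?_) ⟨rfl, [], by simp [e0], by simp⟩).mono
      fun T t ⟨⟨k0, dn, k1, k2⟩, c1⟩ => ⟨?_, k0, by simp [e0] at c1; omega⟩
  · rw [List.reverse_cons, List.append_assoc, List.singleton_append] at k1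
    have ao : a ∈ ord := by simp [k1]
    have pl' : PL (parF P C' pv.get) (a :: dn) := pl_suffix (k1 ▸ pl)
    have an : a ∉ dn := (List.nodup_cons.1 (List.nodup_append.1 (k1 ▸ nd)).2.1).1
    have na := (mem a).1 ao
    obtain ⟨e1, e2, e3, b1, b2⟩ := na.ed_congr hP hC hG he
    have ln : dn.length + 1 ≤ ord.length := by rw [k1]; simp
    have l1 := Nat.mul_le_mul_right (c.lb + 1) ln
    have l2 := Nat.mul_le_mul_right c.gb ln
    have pd : parF P C' pv.get a ≠ a → parF P C' pv.get a ∈ dn := pl'.1.resolve_left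
    have hh : (if parF P C' pv.get a = a then 0 else T.H.get (parF P C' pv.get a) +
        hlF G.ed P C' a) ≤ (dn.length + 1) * (c.lb + 1) := by
      split_ifs with q
      · exact Nat.zero_le _
      · have := (k2 _ (pd q)).2.1; rw [add_mul]; omega
    have gg : (if parF P C' pv.get a = a then 0 else T.G.get (parF P C' pv.get a) +
        geF G.ed P C' a).natAbs ≤ (dn.length + 1) * c.gb := by
      split_ifs with q
      · exact Nat.zero_le _
      · have := (k2 _ (pd q)).2.2; rw [add_mul]; omega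
    simp only [fill1, sp_bind, sp_nat, sp_int, sp_pure]
    rw [show (fun q => pv.get q) = pv.get from rfl, ← hC', e1, e2, e3]
    refine ⟨hX _ (pl.par_mem ao), hh.trans (l1.trans hH), gg.trans (l2.trans hg),
      hX _ ((mem _).2 (na.nm hP)), ⟨k0, a :: dn, k1, fun x hx => ?_⟩, le_rfl⟩
    rcases List.mem_cons.1 hx with rfl | hx
    · simp only [Fl, Arr.get_set_self, List.length_cons, true_and]
      refine ⟨⟨?_, ?_, ?_⟩, hh, gg⟩
      · split_ifs with q
        · rfl
        · rw [Arr.get_set_ne _ q]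
      · split_ifs with q
        · rfl
        · rw [Arr.get_set_ne _ q]
      · rw [na.rtS hP hC hp fun q => by rw [(k2 _ (pd q)).1.2.2.2.2.2, List.tail_cons]]
    · have n1 : x ≠ a := fun e => an (e ▸ hx)
      have n2 : parF P C' pv.get x ≠ a := fun e => an (e ▸ pl'.2.par_mem hx)
      obtain ⟨f, q1, q2⟩ := k2 x hx
      simp only [Fl, Arr.get_set_ne _ n1, Arr.get_set_ne _ n2, List.length_cons, add_mul]
      exact ⟨f, by omega, by omega⟩
  · rw [List.reverse_nil, List.nil_append] at k1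
    subst k1
    have f := fun x hx => (k2 x (k0 ▸ hx : x ∈ ord)).1
    exact ⟨k0 ▸ nd, k0 ▸ mem, k0 ▸ pl_congr pl fun x hx => (k2 x hx).1.1, fun x hx => (f x hx).1,
      fun x hx => (f x hx).2.1, fun x hx => by rw [(f x hx).1]; exact (f x hx).2.2.1,
      fun x hx => by rw [(f x hx).1, (f x hx).2.1, ← geF_eq]; exact (f x hx).2.2.2.1,
      fun x hx => (f x hx).2.2.2.2.1, fun x hx => (f x hx).2.2.2.2.2⟩

@[fun_prop] theorem impl_fillR {α : Type} [Rp α] {P : α → Pm} {ed : α → Arr Ed} {pv : α → Arr ℕ}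
    {C : α → Arr (Arr Col)} {ord : α → List ℕ} (h1 : Pu true P) (h2 : Pu true ed)
    (h3 : Pu true pv) (h4 : Pu true C) (h5 : Pu true ord) :
    Impl fun a => fillR (P a) (ed a) (pv a) (C a) (ord a) := by
  unfold fillR fill1 parF hlF geF nmF peF rtS colF; impl

end Crest.Agent.N325.Lt
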