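import Crest.Agent.N325.Lt.Str
import Crest.Agent.N325.Lt.Cnt
import Crest.Agent.N325.Lt.Prep

/-! Row 325 (helper16): the list of the nodes of the lifted forest, children first. -/

set_option autoImplicit false

namespace Crest.Agent.N325.Lt
open Tw

open Classical in
/-- the nodes of the vertex `v` in the copy `w` on level `i` -/
noncomputable def grpF (P : Pm) (C : ℕ → ℕ → Col) (adj : ℕ → List ℕ) (i w v : ℕ) : List ℕ :=
  if val P C (P.D - i) i v w then ((3 * v :: adj v).map fun q => P.nd q i w).reverse else []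

/-- the number of codes on level `i` -/
def Pm.nW (P : Pm) (i : ℕ) : ℕ := if i = P.D then 1 else P.S

/-- all nodes -/
noncomputable def ordF (P : Pm) (C : ℕ → ℕ → Col) (adj : ℕ → List ℕ) : List ℕ :=
  (List.range' 0 (P.D + 1)).flatMap fun i => (List.range' 0 (P.nW i)).flatMap fun w =>
    (C i (w % P.s)).ord.flatMap (grpF P C adj i w)

theorem PL.of_pairwise {par : ℕ → ℕ} {l : List ℕ} (h : ∀ x ∈ l, par x ∈ l)
    (hp : l.Pairwise fun a b => par b ≠ a) : PL par l := by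
  induction l with
  | nil => trivial
  | cons a l ih =>
    obtain ⟨p1, p2⟩ := List.pairwise_cons.1 hp
    exact ⟨List.mem_cons.1 (h a (by simp)), ih (fun x hx =>
      (List.mem_cons.1 (h x (by simp [hx]))).resolve_left (p1 x hx)) p2⟩

theorem PL.pairwise {par : ℕ → ℕ} {l : List ℕ} (h : PL par l) (n : l.Nodup) :
    l.Pairwise fun a b => a ≠ b ∧ par b ≠ a := by
  induction l with
  | nil => exact .nil
  | cons a l ih =>
    obtain ⟨n1, n2⟩ := List.nodup_cons.1 n
    exact List.pairwise_cons.2 ⟨fun b hb => ⟨fun e => n1 (e ▸ hb),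
      fun e => n1 (e ▸ h.2.par_mem hb)⟩, ih h.2 n2⟩

theorem Ch.pairwise {pv : ℕ → ℕ} {a : ℕ} {l : List ℕ} (h : Ch pv a l) (n : (a :: l).Nodup) :
    l.Pairwise fun b c => pv b ≠ c := by
  induction l generalizing a with
  | nil => exact .nil
  | cons b l ih =>
    obtain ⟨n1, n2⟩ := List.nodup_cons.1 n
    exact List.pairwise_cons.2 ⟨fun c hc e => n1 (by simp [← h.1, e, hc]), ih h.2 n2⟩

variable {G : Gr} {V : List ℕ} {P : Pm} {C : ℕ → ℕ → Col} {pv : ℕ → ℕ} {adj : ℕ → List ℕ}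
  {c : Bd} {x : ℕ}

theorem node_nd (hC : Covers G V P C) (hP : P.Ok) {p i w : ℕ} (hi : i ≤ P.D)
    (hp : p % 3 = 0 ∨ Slot G p) (h : val P C (P.D - i) i (vq G.ed p) w) :
    Node G P C (P.nd p i w) ∧ P.ps (P.nd p i w) = p ∧ P.lv (P.nd p i w) = i ∧
      P.cd (P.nd p i w) = w := by
  have hw := val_lt hC hP h (by omega)
  unfold Node
  rw [P.ps_nd hw (by omega), P.lv_nd hw (by omega), P.cd_nd hw]
  exact ⟨⟨hi, hp, h⟩, rfl, rfl, rfl⟩

theorem Node.lt (h : Node G P C x) (hP : P.Ok) (hV : Vtx G V) (hC : Covers G V P C)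
    (hG : G.Ok c) : x < (3 * c.nb + 3) * (P.D + 2) * P.S := by
  obtain ⟨e, he, k⟩ := h.ps_cases hP hV hC
  obtain ⟨h1, h2, h3, -⟩ := hG.2.2 e he
  have h4 : (P.ps x + 1) * (P.D + 2) ≤ (3 * c.nb + 3) * (P.D + 2) :=
    Nat.mul_le_mul_right _ (by omega)
  have h5 := P.lv_lt x
  have h6 : (P.ps x * (P.D + 2) + P.lv x + 1) * P.S ≤ (3 * c.nb + 3) * (P.D + 2) * P.S :=
    Nat.mul_le_mul_right _ (by rw [add_mul] at h4; omega)
  have h7 := Pm.cd_lt hP x
  have h8 := P.nd_eta x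
  rw [Pm.nd] at h8
  rw [add_mul _ 1] at h6
  omega

/-- the parent of a node is a node, of one of four kinds -/
theorem Node.par (h : Node G P C x) (hP : P.Ok) (hC : Covers G V P C) (hp : Pos G)
    (hpv : Chain G pv) : Node G P C (parF P C pv x) ∧
    (Slot G (P.ps x) ∧ P.ps (parF P C pv x) = pv (P.ps x) ∧ P.lv (parF P C pv x) = P.lv x ∧
      P.cd (parF P C pv x) = P.cd x ∨
    vq G.ed (P.ps (parF P C pv x)) = (colF P C x).up G.ed (vq G.ed (P.ps x)) ∧
      vq G.ed (P.ps (parF P C pv x)) ≠ vq G.ed (P.ps x) ∧ P.lv (parF P C pv x) = P.lv x ∧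
      P.cd (parF P C pv x) = P.cd x ∨
    P.lv (parF P C pv x) = P.lv x + 1 ∨ parF P C pv x = x) := by
  obtain ⟨⟨Rd, k⟩, m⟩ := h.colOk hP hC
  obtain ⟨h1, h2, h3⟩ := id h
  unfold parF
  split_ifs with a b d
  · have s := h2.resolve_left a
    obtain ⟨n, e⟩ := node_nd hC hP h1 (hpv.1 _ s).1 ((hpv.1 _ s).2.1 ▸ h3)
    exact ⟨n, .inl ⟨s, e⟩⟩
  · rw [vq_of_main _ (not_not.1 a)] at m h3 ⊢
    obtain ⟨t1, -, t3, t4, t5⟩ := k.tree _ m b
    obtain ⟨n, e1, e2⟩ := node_nd hC hP h1 (.inr t1) (val_congr h3 t3 t4)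
    refine ⟨n, .inr (.inl ⟨by rw [e1, Col.up, if_neg b], fun e => ?_, e2⟩)⟩
    have := hp _ t1.2
    rw [e1] at e; rw [e] at t5; omega
  · exact ⟨h, .inr (.inr (.inr rfl))⟩
  · rw [show P.D - P.lv x = P.D - (P.lv x + 1) + 1 by omega] at h3
    have h4 := h3.2
    rw [vq_of_main _ (not_not.1 a), show (C (P.lv x) (P.cd x % P.s)).cen.get (P.ps x / 3) =
      P.ps x / 3 from not_not.1 b, ← vq_of_main G.ed (not_not.1 a)] at h4
    obtain ⟨n, -, e, -⟩ := node_nd hC hP (by omega) h2 h4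
    exact ⟨n, .inr (.inr (.inl e))⟩

theorem mem_grpF (hC : Covers G V P C) (hP : P.Ok) (hA : Adj G adj) {i w v : ℕ} (hi : i ≤ P.D) :
    x ∈ grpF P C adj i w v ↔
      Node G P C x ∧ P.lv x = i ∧ P.cd x = w ∧ vq G.ed (P.ps x) = v := by
  unfold grpF
  constructor
  · intro h
    split_ifs at h with k
    · obtain ⟨q, hq, rfl⟩ := List.mem_map.1 (List.mem_reverse.1 h)
      have : (q % 3 = 0 ∨ Slot G q) ∧ vq G.ed q = v := by
        rcases List.mem_cons.1 hq with rfl | hq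
        · exact ⟨.inl (by omega), vq_main _ _⟩
        · exact ⟨.inr (((hA v).2 q).1 hq).1, (((hA v).2 q).1 hq).2⟩
      obtain ⟨n, e1, e2, e3⟩ := node_nd hC hP hi this.1 (this.2 ▸ k)
      exact ⟨n, e2, e3, by rw [e1, this.2]⟩
    · cases h
  · rintro ⟨⟨-, h2, h3⟩, rfl, rfl, rfl⟩
    rw [if_pos h3]
    refine List.mem_reverse.2 (List.mem_map.2 ⟨_, List.mem_cons.2 ?_, P.nd_eta x⟩)
    exact h2.imp (fun e => by rw [vq_of_main _ e]; omega) fun s => ((hA _).2 _).2 ⟨s, rfl⟩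

theorem mem_ordF (hC : Covers G V P C) (hP : P.Ok) (hA : Adj G adj) :
    x ∈ ordF P C adj ↔ Node G P C x := by
  simp only [ordF, List.mem_flatMap, List.mem_range'_1, zero_add, zero_le, true_and]
  constructor
  · rintro ⟨i, hi, w, -, v, -, h⟩
    exact ((mem_grpF hC hP hA (by omega)).1 h).1
  · intro h
    refine ⟨_, Nat.lt_succ_of_le h.1, P.cd x, ?_, _, (h.colOk hP hC).2,
      (mem_grpF hC hP hA h.1).2 ⟨h, rfl, rfl, rfl⟩⟩
    unfold Pm.nW
    split_ifs with e
    · have := h.2.2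
      rw [e, Nat.sub_self] at this
      rw [this.2]; exact one_pos
    · exact Pm.cd_lt hP x

theorem col_nW (hC : Covers G V P C) (hP : P.Ok) {i w : ℕ} (hi : i ≤ P.D) (hw : w < P.nW i) :
    ∃ Rd, (C i (w % P.s)).Ok G V Rd := by
  unfold Pm.nW at hw
  split_ifs at hw with e
  · rw [e, show w = 0 by omega, Nat.zero_mod]; exact ⟨_, hC.2.1⟩
  · exact ⟨_, (hC.1 i (by omega)).1 _ (Nat.mod_lt _ hP.s1)⟩

theorem pairwise_ordF (hC : Covers G V P C) (hP : P.Ok) (hA : Adj G adj) (hp : Pos G)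
    (hpv : Chain G pv) (hch : ∀ v, Ch pv (3 * v) (adj v)) :
    (ordF P C adj).Pairwise fun a b => a ≠ b ∧ parF P C pv b ≠ a := by
  refine List.pairwise_flatMap.2 ⟨fun i hi => List.pairwise_flatMap.2 ⟨fun w hw =>
    List.pairwise_flatMap.2 ⟨fun v _ => ?_, ?_⟩, ?_⟩, ?_⟩
  · have hi : i ≤ P.D := by have := List.mem_range'_1.1 hi; omega
    have m := fun x => (mem_grpF (x := x) (w := w) (v := v) hC hP hA hi).1
    unfold grpF at m ⊢
    split_ifs at m ⊢ with k
    · have n : (3 * v :: adj v).Nodup :=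
        List.nodup_cons.2 ⟨fun k => (((hA v).2 _).1 k).1.1 (by omega), (hA v).1⟩
      have hw := val_lt hC hP k (by omega)
      have p : (3 * v :: adj v).Pairwise fun q q' => Slot G q → pv q ≠ q' := List.pairwise_cons.2
        ⟨fun _ _ s => absurd (by omega) s.1, ((hch v).pairwise n).imp fun {q _} h (_ : Slot G q) => h⟩
      refine List.pairwise_reverse.2 (List.pairwise_map.2 ((p.and n).imp_of_mem ?_))
      intro q q' hq hq' ⟨r1, r2⟩
      obtain ⟨a1, a2, -, a4⟩ := m _ (List.mem_reverse.2 (List.mem_map_of_mem hq))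
      obtain ⟨-, b2, -, b4⟩ := m _ (List.mem_reverse.2 (List.mem_map_of_mem hq'))
      have ne : P.nd q' i w ≠ P.nd q i w := fun e =>
        r2 (P.nd_inj hw (by omega) hw (by omega) e).1.symm
      refine ⟨ne, fun e => ?_⟩
      have := (a1.par hP hC hp hpv).2
      rw [e, P.ps_nd hw (by omega), P.ps_nd hw (by omega)] at this
      rw [P.ps_nd hw (by omega)] at a4 b4
      rcases this with t | t | t | t
      · exact r1 t.1 t.2.1.symm
      · exact t.2.1 (b4.trans a4.symm)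
      · omega
      · exact ne t
    · exact .nil
  · have hi : i ≤ P.D := by have := List.mem_range'_1.1 hi; omega
    obtain ⟨Rd, k⟩ := col_nW hC hP hi (w := w) (by have := List.mem_range'_1.1 hw; omega)
    refine (k.pl.pairwise k.nd).imp fun {u v} ⟨r1, r2⟩ x hx y hy => ?_
    obtain ⟨-, a2, -, a4⟩ := (mem_grpF hC hP hA hi).1 hx
    obtain ⟨b1, b2, b3, b4⟩ := (mem_grpF hC hP hA hi).1 hy
    have ne : x ≠ y := fun e => r1 (by rw [← a4, ← b4, e])
    refine ⟨ne, fun e => ?_⟩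
    have := (b1.par hP hC hp hpv).2
    rw [e] at this
    rcases this with t | t | t | t
    · exact r1 (by rw [← a4, ← b4, t.2.1, (hpv.1 _ t.1).2.1])
    · exact r2 (by rw [← a4, ← b4, t.1, colF, b2, b3])
    · omega
    · exact ne t
  · have hi : i ≤ P.D := by have := List.mem_range'_1.1 hi; omega
    refine (List.pairwise_lt_range' 1).imp fun {w w'} r x hx y hy => ?_
    obtain ⟨u, -, hx⟩ := List.mem_flatMap.1 hx
    obtain ⟨v, -, hy⟩ := List.mem_flatMap.1 hy
    obtain ⟨-, a2, a3, -⟩ := (mem_grpF hC hP hA hi).1 hx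
    obtain ⟨b1, b2, b3, -⟩ := (mem_grpF hC hP hA hi).1 hy
    refine ⟨fun e => by rw [e] at a3; omega, fun e => ?_⟩
    have := (b1.par hP hC hp hpv).2
    rw [e] at this
    rcases this with t | t | t | t
    · omega
    · omega
    · omega
    · rw [t] at a3; omega
  · refine (List.pairwise_lt_range' 1).imp_of_mem fun {i j} hi hj r x hx y hy => ?_
    obtain ⟨w, -, hx⟩ := List.mem_flatMap.1 hx
    obtain ⟨w', -, hy⟩ := List.mem_flatMap.1 hy
    obtain ⟨u, -, hx⟩ := List.mem_flatMap.1 hx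
    obtain ⟨v, -, hy⟩ := List.mem_flatMap.1 hy
    have := List.mem_range'_1.1 hj
    obtain ⟨-, a2, -⟩ := (mem_grpF hC hP hA (by omega)).1 hx
    obtain ⟨b1, b2, -⟩ := (mem_grpF hC hP hA (by omega)).1 hy
    refine ⟨fun e => by rw [e] at a2; omega, fun e => ?_⟩
    have := (b1.par hP hC hp hpv).2
    rw [e] at this
    rcases this with t | t | t | t
    · omega
    · omega
    · omega
    · rw [t] at a2; omega

theorem ordF_spec (hC : Covers G V P C) (hP : P.Ok) (hA : Adj G adj) (hp : Pos G)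
    (hpv : Chain G pv) (hch : ∀ v, Ch pv (3 * v) (adj v)) : (ordF P C adj).Nodup ∧
      (∀ x, x ∈ ordF P C adj ↔ Node G P C x) ∧ PL (parF P C pv) (ordF P C adj) :=
  have h := pairwise_ordF hC hP hA hp hpv hch
  ⟨h.imp fun k => k.1, fun _ => mem_ordF hC hP hA, .of_pairwise (fun _ hx => (mem_ordF hC hP hA).2
    (((mem_ordF hC hP hA).1 hx).par hP hC hp hpv).1) (h.imp fun k => k.2)⟩

end Crest.Agent.N325.Lt
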