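import Crest.Agent.N325.Lt.Str

/-!
# Row 325 (helper91): level roots, heights, the meet of two nodes
-/

set_option autoImplicit false
open Finset

namespace Crest.Agent.N325.Lt
open Tw

/-- the entries have the levels `i, i+1, …` -/
def LvL (P : Pm) : ℕ → List ℕ → Prop
  | _, [] => True
  | i, a :: l => P.lv a = i ∧ LvL P (i + 1) l

theorem LvL.le {P : Pm} {i m : ℕ} {l : List ℕ} (h : LvL P i l) (hm : m ∈ l) : i ≤ P.lv m := by
  induction l generalizing i with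
  | nil => cases hm
  | cons a l ih =>
    rcases List.mem_cons.1 hm with rfl | hm
    · exact h.1.ge
    · have := ih h.2 hm; omega

theorem meetL_spec {P : Pm} {i m : ℕ} {a b : List ℕ} (ha : LvL P i a) (hb : LvL P i b)
    (h1 : m ∈ a) (h2 : m ∈ b) : meetL a b ∈ a ∧ meetL a b ∈ b ∧ P.lv (meetL a b) ≤ P.lv m := by
  induction a generalizing i b with
  | nil => cases h1
  | cons x a ih =>
    cases b with
    | nil => cases h2
    | cons y b =>
      rw [meetL]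
      split_ifs with h
      · exact ⟨List.mem_cons_self, h ▸ List.mem_cons_self, ha.1.le.trans (ha.le h1)⟩
      · have h1' : m ∈ a := by
          rcases List.mem_cons.1 h1 with rfl | h1
          · rcases List.mem_cons.1 h2 with e | h2
            · exact absurd e h
            · have := hb.2.le h2; have := ha.1; omega
          · exact h1
        have h2' : m ∈ b := by
          rcases List.mem_cons.1 h2 with rfl | h2
          · have := ha.2.le h1'; have := hb.1; omega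
          · exact h2
        obtain ⟨i1, i2, i3⟩ := ih ha.2 hb.2 h1' h2'
        exact ⟨List.mem_cons_of_mem _ i1, List.mem_cons_of_mem _ i2, i3⟩

theorem LvL.eq {P : Pm} {i m m' : ℕ} {l : List ℕ} (h : LvL P i l) (hm : m ∈ l) (hm' : m' ∈ l)
    (e : P.lv m = P.lv m') : m = m' := by
  induction l generalizing i with
  | nil => cases hm
  | cons a l ih =>
    rcases List.mem_cons.1 hm with rfl | h1 <;> rcases List.mem_cons.1 hm' with rfl | h2
    · rfl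
    · have := h.2.le h2; have := h.1; omega
    · have := h.2.le h1; have := h.1; omega
    · exact ih h.2 h1 h2

namespace Cx
variable {G : Gr} {V : List ℕ} {P : Pm} {C : ℕ → ℕ → Col} {pv : ℕ → ℕ} {T : LF}
  (X : Cx G V P C pv T)
include X

/-- the level roots of a node in terms of those of its parent -/
theorem rt_par {x : ℕ} (hx : x ∈ T.ord) :
    (P.lv (T.par.get x) = P.lv x ∧ T.par.get x ≠ x ∧
      rtF G.ed P C x = rtF G.ed P C (T.par.get x)) ∨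
    (P.lv (T.par.get x) = P.lv x + 1 ∧ T.par.get x ≠ x ∧ P.ps x % 3 = 0 ∧
      rtF G.ed P C x = x :: rtF G.ed P C (T.par.get x)) ∨
    (T.par.get x = x ∧ P.ps x % 3 = 0 ∧ rtF G.ed P C x = [x]) := by
  rcases X.pc hx with h | h | h | h
  · obtain ⟨hs, h1, h2, h3, _, _, h6⟩ := h
    refine Or.inl ⟨h2, h6, ?_⟩
    rw [rtF, rtF, h1, h2, h3, (X.hpv.1 _ hs).2.1]
  · obtain ⟨h0, hc, h1, h2, h3, _, _, h6⟩ := h
    refine Or.inl ⟨h2, h6, ?_⟩
    have hk := X.col hx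
    rw [vq_of_main _ h0] at hk
    rw [rtF, rtF, h1, h2, h3, vq_of_main _ h0]
    exact (rts_congr (hk.1.tree _ hk.2 hc).2.2.2.1).symm
  · obtain ⟨h0, hc, hl, h1, h2, h3, _, _, h6⟩ := h
    refine Or.inr (Or.inl ⟨h2, h6, h0, ?_⟩)
    rw [rtF, rtF, h1, h2, h3, vq_of_main _ h0,
      show P.D + 1 - P.lv x = (P.D + 1 - (P.lv x + 1)) + 1 by omega, rts]
    unfold colF at hc
    rw [hc, show 3 * (P.ps x / 3) = P.ps x by omega, P.nd_eta]
  · obtain ⟨h0, hc, hl, h1, _⟩ := h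
    refine Or.inr (Or.inr ⟨h1, h0, ?_⟩)
    rw [rtF, vq_of_main _ h0, show P.D + 1 - P.lv x = 0 + 1 by omega, rts, rts]
    unfold colF at hc
    rw [hc, show 3 * (P.ps x / 3) = P.ps x by omega, P.nd_eta]

theorem rt_spec : ∀ x ∈ T.ord, LvL P (P.lv x) (rtF G.ed P C x) ∧ ∀ y ∈ rtF G.ed P C x,
    Anc T.par.get x y ∧ P.ps y % 3 = 0 ∧ ∀ z ∈ rtF G.ed P C y, z ∈ rtF G.ed P C x := by
  refine X.is.pl.ind fun x hx ih => ?_
  rcases X.rt_par hx with h | h | h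
  · obtain ⟨i1, i2⟩ := ih h.2.1
    rw [h.2.2, ← h.1]
    exact ⟨i1, fun y hy => ⟨(i2 y hy).1.of_par, (i2 y hy).2⟩⟩
  · obtain ⟨i1, i2⟩ := ih h.2.1
    refine ⟨by rw [h.2.2.2]; exact ⟨rfl, h.1 ▸ i1⟩, fun y hy => ?_⟩
    rw [h.2.2.2] at hy
    rcases List.mem_cons.1 hy with rfl | hy
    · exact ⟨Anc.refl _ _, h.2.2.1, fun z hz => hz⟩
    · refine ⟨(i2 y hy).1.of_par, (i2 y hy).2.1, fun z hz => ?_⟩
      rw [h.2.2.2]; exact List.mem_cons_of_mem _ ((i2 y hy).2.2 z hz)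
  · refine ⟨by rw [h.2.2]; exact ⟨rfl, trivial⟩, fun y hy => ?_⟩
    rw [h.2.2, List.mem_singleton] at hy
    subst hy
    exact ⟨Anc.refl _ _, h.2.1, fun z hz => hz⟩

theorem rt_persist {x y m : ℕ} (hx : x ∈ T.ord) (h : Anc T.par.get x y)
    (hm : m ∈ rtF G.ed P C x) : m ∈ rtF G.ed P C y ∨ P.lv m < P.lv y := by
  refine (h.ind (Q := fun y => y ∈ T.ord ∧ (m ∈ rtF G.ed P C y ∨ P.lv m < P.lv y))
    ⟨hx, Or.inl hm⟩ fun z hz => ⟨X.par_mem hz.1, ?_⟩).2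
  rcases hz.2 with h2 | h2
  · rcases X.rt_par hz.1 with h | h | h
    · exact Or.inl (h.2.2 ▸ h2)
    · rw [h.2.2.2] at h2
      rcases List.mem_cons.1 h2 with rfl | h2
      · exact Or.inr (by omega)
      · exact Or.inl h2
    · rw [h.1]; exact Or.inl h2
  · exact Or.inr (h2.trans_le (X.par_mono hz.1).1)

theorem rt_nm {x : ℕ} (hx : x ∈ T.ord) : rtF G.ed P C (T.nm.get x) = rtF G.ed P C x := by
  obtain ⟨h1, h2, h3⟩ := X.ps_nm hx
  rw [rtF, rtF, h1, h2, h3, vq_main]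

theorem cl_spec {x : ℕ} (hx : x ∈ T.ord) : (T.cl.get x).length ≤ P.D + 2 ∧
    ∀ y ∈ T.cl.get x, y ∈ T.ord ∧ ∀ z ∈ T.cl.get y, z ∈ T.cl.get x := by
  have e := X.is.cl x hx
  rw [← X.is.nm x hx] at e
  refine ⟨by rw [e, List.length_cons, rtF, length_rts]; omega, fun y hy => ?_⟩
  rw [e] at hy
  rcases List.mem_cons.1 hy with rfl | hy
  · have hn := X.nm_mem hx
    refine ⟨hn, fun z hz => ?_⟩
    rw [X.is.cl _ hn, ← X.is.nm _ hn, X.rt_nm hx, X.nm_main hn (by rw [(X.ps_nm hx).1]; omega)] at hz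
    rwa [e]
  · obtain ⟨h1, h2, h3⟩ := (X.rt_spec x hx).2 y hy
    have hn := (X.anc_mono hx h1).1
    refine ⟨hn, fun z hz => ?_⟩
    rw [X.is.cl _ hn, ← X.is.nm _ hn, X.nm_main hn h2] at hz
    rw [e]
    rcases List.mem_cons.1 hz with rfl | hz
    · exact List.mem_cons_of_mem _ hy
    · exact List.mem_cons_of_mem _ (h3 z hz)

/-- the root of the tree that contains the node -/
theorem r0 : ∀ x ∈ T.ord, ∃ y ∈ T.ord, P.lv y = P.lv x ∧ rtF G.ed P C y = rtF G.ed P C x ∧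
    T.H.get x = T.H.get y + (colF P C x).dep.get (vq G.ed (P.ps x)) ∧
    ((P.lv (T.par.get y) = P.lv y + 1 ∧ T.H.get y = T.H.get (T.par.get y) + 1 ∧
      rtF G.ed P C y = y :: rtF G.ed P C (T.par.get y)) ∨
      (T.H.get y = 0 ∧ rtF G.ed P C y = [y])) := by
  refine X.is.pl.ind fun x hx ih => ?_
  have hk := X.col hx
  have hr := X.rt_par hx
  rcases X.pc hx with h | h | h | h
  · obtain ⟨hs, h1, h2, h3, _, h5, h6⟩ := h
    obtain ⟨y, hy, i1, i2, i3, i4⟩ := ih h6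
    have e : rtF G.ed P C x = rtF G.ed P C (T.par.get x) := by
      rcases hr with h | h | h
      · exact h.2.2
      · omega
      · exact absurd h.1 h6
    refine ⟨y, hy, i1.trans h2, i2.trans e.symm, ?_, i4⟩
    rw [h5, i3, colF, colF, h1, h2, h3, (X.hpv.1 _ hs).2.1]
  · obtain ⟨h0, hc, h1, h2, h3, _, h5, h6⟩ := h
    obtain ⟨y, hy, i1, i2, i3, i4⟩ := ih h6
    have e : rtF G.ed P C x = rtF G.ed P C (T.par.get x) := by
      rcases hr with h | h | h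
      · exact h.2.2
      · omega
      · exact absurd h.1 h6
    refine ⟨y, hy, i1.trans h2, i2.trans e.symm, ?_, i4⟩
    rw [vq_of_main _ h0] at hk ⊢
    have e2 : colF P C (T.par.get x) = colF P C x := by rw [colF, colF, h2, h3]
    rw [h5, i3, e2, h1, (hk.1.tree _ hk.2 hc).2.2.2.2, add_assoc]
  · obtain ⟨h0, hc, hl, h1, h2, h3, _, h5, h6⟩ := h
    rw [vq_of_main _ h0] at hk ⊢
    refine ⟨x, hx, rfl, rfl, by rw [hk.1.ctr _ hk.2 hc, add_zero], Or.inl ⟨h2, h5, ?_⟩⟩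
    rcases hr with h | h | h
    · omega
    · exact h.2.2.2
    · exact absurd h.1 h6
  · obtain ⟨h0, hc, hl, h1, _, h5⟩ := h
    rw [vq_of_main _ h0] at hk ⊢
    refine ⟨x, hx, rfl, rfl, by rw [hk.1.ctr _ hk.2 hc, add_zero], Or.inr ⟨h5, ?_⟩⟩
    rcases hr with h | h | h
    · exact absurd h1 h.2.1
    · exact absurd h1 h.2.1
    · exact h.2.2

theorem dep_le {x : ℕ} (hx : x ∈ T.ord) :
    (colF P C x).dep.get (vq G.ed (P.ps x)) ≤ P.β * P.ρ ^ P.lv x :=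
  (X.col hx).1.rad _ (X.col hx).2

theorem H_rt (j : ℕ) : ∀ x ∈ T.ord, P.lv x + j = P.D → ∀ m ∈ rtF G.ed P C x,
    T.H.get x + (P.β + 1) * P.ρ ^ P.lv x ≤ T.H.get m + 2 * (P.β + 1) * P.ρ ^ P.lv m := by
  induction j with
  | zero =>
    intro x hx hj m hm
    obtain ⟨y, hy, h1, h2, h3, h4⟩ := X.r0 x hx
    have hd := X.dep_le hx
    rcases h4 with h4 | h4
    · have := (X.node (X.par_mem hy)).1; omega
    · rw [← h2, h4.2, List.mem_singleton] at hm
      subst hm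
      rw [h1]; nlinarith [Nat.zero_le (P.ρ ^ P.lv x)]
  | succ j ih =>
    intro x hx hj m hm
    obtain ⟨y, hy, h1, h2, h3, h4⟩ := X.r0 x hx
    have hd := X.dep_le hx
    have hm' : m = y ∨ (P.lv (T.par.get y) = P.lv y + 1 ∧ T.H.get y = T.H.get (T.par.get y) + 1 ∧
        m ∈ rtF G.ed P C (T.par.get y)) := by
      rw [← h2] at hm
      rcases h4 with h4 | h4
      · rw [h4.2.2] at hm
        exact (List.mem_cons.1 hm).imp id fun h => ⟨h4.1, h4.2.1, h⟩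
      · rw [h4.2, List.mem_singleton] at hm; exact Or.inl hm
    rcases hm' with rfl | ⟨k1, k2, k3⟩
    · rw [h1]; nlinarith [Nat.zero_le (P.ρ ^ P.lv x)]
    · have := ih _ (X.par_mem hy) (by omega) m k3
      rw [k1, h1, pow_succ] at this
      have h2ρ := X.hP.ρ2
      have hp : 1 ≤ P.ρ ^ P.lv x := Nat.one_le_pow _ _ (by omega)
      have : (P.β + 1) * (P.ρ ^ P.lv x * 2) ≤ (P.β + 1) * (P.ρ ^ P.lv x * P.ρ) := by gcongr
      nlinarith

theorem H_le (j : ℕ) : ∀ x ∈ T.ord, P.lv x + j = P.D →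
    T.H.get x ≤ (j + 1) * (P.β * P.ρ ^ P.D + 1) := by
  induction j with
  | zero =>
    intro x hx hj
    obtain ⟨y, hy, h1, h2, h3, h4⟩ := X.r0 x hx
    have hd := X.dep_le hx
    rcases h4 with h4 | h4
    · have := (X.node (X.par_mem hy)).1; omega
    · rw [show P.lv x = P.D by omega] at hd; omega
  | succ j ih =>
    intro x hx hj
    obtain ⟨y, hy, h1, h2, h3, h4⟩ := X.r0 x hx
    have hd := X.dep_le hx
    have h2ρ := X.hP.ρ2
    have hp : P.β * P.ρ ^ P.lv x ≤ P.β * P.ρ ^ P.D :=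
      Nat.mul_le_mul_left _ (Nat.pow_le_pow_right (by omega) (by omega))
    rcases h4 with h4 | h4
    · have := ih _ (X.par_mem hy) (by omega)
      rw [add_mul (j + 1) 1]; omega
    · rw [add_mul (j + 1) 1]; omega

theorem Hb {x : ℕ} (hx : x ∈ T.ord) : T.H.get x ≤ P.Hb := by
  have h := (X.node hx).1
  refine (X.H_le (P.D - P.lv x) x hx (by omega)).trans ?_
  exact Nat.mul_le_mul_right _ (by omega)

theorem top_rt {x : ℕ} (hx : x ∈ T.ord) :
    P.nd (3 * (C P.D 0).cen.get (vq G.ed (P.ps x))) P.D 0 ∈ rtF G.ed P C x := by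
  have h := X.node hx
  have := top_mem_rts X.hC X.hP X.pos h.2.2 (by have := h.1; omega)
  rwa [rtF, show P.D + 1 - P.lv x = P.D - P.lv x + 1 by have := h.1; omega]

/-- the meet of the two ends of an object -/
theorem meet {o : ℕ × ℕ × ℕ × ℕ} (ho : o ∈ T.obj) : o.2.2.2 ∈ rtF G.ed P C o.2.1 ∧
    o.2.2.2 ∈ rtF G.ed P C o.2.2.1 ∧ ∀ m ∈ rtF G.ed P C o.2.1, m ∈ rtF G.ed P C o.2.2.1 →
      P.lv o.2.2.2 ≤ P.lv m := by
  obtain ⟨h1, h2, h3, h4, h5, h6, h7, h8⟩ := (X.is.obj o).1 ho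
  have l1 := (X.rt_spec _ h2).1
  have l2 := (X.rt_spec _ h3).1
  rw [h6] at l1
  rw [h7] at l2
  have t1 := X.top_rt h2
  have t2 := X.top_rt h3
  rw [h4, vq_a] at t1
  rw [h5, vq_b, ← X.hC.2.2.2 _ h1] at t2
  rw [h8]
  exact ⟨(meetL_spec l1 l2 t1 t2).1, (meetL_spec l1 l2 t1 t2).2.1,
    fun m m1 m2 => (meetL_spec l1 l2 m1 m2).2.2⟩

theorem obj_spec {o : ℕ × ℕ × ℕ × ℕ} (ho : o ∈ T.obj) : o.2.2.2 ∈ T.ord ∧
    Anc T.par.get o.2.1 o.2.2.2 ∧ Anc T.par.get o.2.2.1 o.2.2.2 ∧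
    T.H.get o.2.2.2 ≤ T.H.get o.2.1 ∧ T.H.get o.2.2.2 ≤ T.H.get o.2.2.1 ∧
    ∀ x, (Anc T.par.get o.2.1 x ∨ Anc T.par.get o.2.2.1 x) → Anc T.par.get x o.2.2.2 →
      o.2.2.2 ∈ T.cl.get x := by
  obtain ⟨_, h2, h3, _⟩ := (X.is.obj o).1 ho
  obtain ⟨m1, m2, _⟩ := X.meet ho
  have a1 := ((X.rt_spec _ h2).2 _ m1).1
  have a2 := ((X.rt_spec _ h3).2 _ m2).1
  refine ⟨(X.anc_mono h2 a1).1, a1, a2, (X.anc_mono h2 a1).2.2, (X.anc_mono h3 a2).2.2,
    fun x hx hm => ?_⟩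
  have key : ∀ u ∈ T.ord, o.2.2.2 ∈ rtF G.ed P C u → Anc T.par.get u x → o.2.2.2 ∈ T.cl.get x := by
    intro u hu hr ha
    have hx' := (X.anc_mono hu ha).1
    rw [X.is.cl x hx']
    rcases X.rt_persist hu ha hr with h | h
    · exact List.mem_cons_of_mem _ h
    · have := (X.anc_mono hx' hm).2.1; omega
  rcases hx with hx | hx
  · exact key _ h2 m1 hx
  · exact key _ h3 m2 hx

/-- the length of an object whose ends have a common level root on level `i` -/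
theorem lam_le {o : ℕ × ℕ × ℕ × ℕ} (ho : o ∈ T.obj) {m : ℕ} (m1 : m ∈ rtF G.ed P C o.2.1)
    (m2 : m ∈ rtF G.ed P C o.2.2.1) :
    T.lam G.ed o ≤ (G.ed o.1).l + 4 * (P.β + 1) * P.ρ ^ P.lv m := by
  obtain ⟨_, h2, h3, _⟩ := (X.is.obj o).1 ho
  obtain ⟨k1, k2, k3⟩ := X.meet ho
  have e1 := X.H_rt (P.D - P.lv o.2.1) _ h2 (by have := (X.node h2).1; omega) _ k1
  have e2 := X.H_rt (P.D - P.lv o.2.2.1) _ h3 (by have := (X.node h3).1; omega) _ k2
  have h2ρ := X.hP.ρ2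
  have hp : 2 * (P.β + 1) * P.ρ ^ P.lv o.2.2.2 ≤ 2 * (P.β + 1) * P.ρ ^ P.lv m :=
    Nat.mul_le_mul_left _ (Nat.pow_le_pow_right (by omega) (k3 m m1 m2))
  have : 4 * (P.β + 1) * P.ρ ^ P.lv m = 2 * (2 * (P.β + 1) * P.ρ ^ P.lv m) := by ring
  unfold LF.lam
  omega

end Cx

end Crest.Agent.N325.Lt
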